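import Vale.Agent.P284Y.Defs
import Vale.Agent.P284Z.J.JB
import Vale.Agent.P284Z.F0.Psh

/-!
# P284Y, block Y: block matrices and complex Hessians on `ℂ × ℂⁿ`
-/

set_option linter.all false

open scoped ContDiff Topology ComplexOrder ENNReal Matrix
open Filter Set Function Metric MeasureTheory

noncomputable section

namespace Vale.Agent.P284Y.Y

open Vale.Agent.P272.K Vale.Agent.P284Z Vale.Agent.P284Z.J Vale.Agent.P284.H650

variable {n : ℕ}

/-- the block matrix with blocks `c` and `H` -/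
def bk (c : ℂ) (H : Mx n) : Mx (n + 1) :=
  Matrix.of (Fin.cons (Fin.cons c 0) fun i => Fin.cons 0 (H i))

@[simp] theorem bk_00 (c : ℂ) (H : Mx n) : bk c H 0 0 = c := rfl
@[simp] theorem bk_0s (c : ℂ) (H : Mx n) (j : Fin n) : bk c H 0 j.succ = 0 := rfl
@[simp] theorem bk_s0 (c : ℂ) (H : Mx n) (i : Fin n) : bk c H i.succ 0 = 0 := rfl
@[simp] theorem bk_ss (c : ℂ) (H : Mx n) (i j : Fin n) : bk c H i.succ j.succ = H i j := rfl

theorem bk_ext {M : Mx (n + 1)} {c : ℂ} {H : Mx n} (h1 : M 0 0 = c) (h2 : ∀ j, M 0 (Fin.succ j) = 0)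
    (h3 : ∀ i, M (Fin.succ i) 0 = 0) (h4 : ∀ i j, M (Fin.succ i) (Fin.succ j) = H i j) :
    M = bk c H := by
  ext i j
  refine Fin.cases ?_ (fun i => ?_) i <;> refine Fin.cases ?_ (fun j => ?_) j
  exacts [h1, h2 j, h3 i, h4 i j]

theorem bk_add (c c' : ℂ) (H H' : Mx n) : bk c H + bk c' H' = bk (c + c') (H + H') :=
  bk_ext (by simp) (by simp) (by simp) (by simp)

theorem bk_sub (c c' : ℂ) (H H' : Mx n) : bk c H - bk c' H' = bk (c - c') (H - H') :=
  bk_ext (by simp) (by simp) (by simp) (by simp)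

theorem bk_smul (t c : ℂ) (H : Mx n) : t • bk c H = bk (t * c) (t • H) :=
  bk_ext (by simp) (by simp) (by simp) (by simp)

theorem bk_one : bk 1 (1 : Mx n) = 1 :=
  (bk_ext (by simp) (fun j => Matrix.one_apply_ne (Fin.succ_ne_zero j).symm)
    (fun i => Matrix.one_apply_ne (Fin.succ_ne_zero i)) (by simp [Matrix.one_apply])).symm

theorem bk_mul (c c' : ℂ) (H H' : Mx n) : bk c H * bk c' H' = bk (c * c') (H * H') :=
  bk_ext (by simp [Matrix.mul_apply, Fin.sum_univ_succ])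
    (by simp [Matrix.mul_apply, Fin.sum_univ_succ]) (by simp [Matrix.mul_apply, Fin.sum_univ_succ])
    (by simp [Matrix.mul_apply, Fin.sum_univ_succ])

theorem bk_diag (c : ℂ) (d : Fin n → ℂ) :
    Matrix.diagonal (Fin.cons c d : Fin (n + 1) → ℂ) = bk c (Matrix.diagonal d) :=
  bk_ext (by simp) (fun j => Matrix.diagonal_apply_ne _ (Fin.succ_ne_zero j).symm)
    (fun i => Matrix.diagonal_apply_ne _ (Fin.succ_ne_zero i)) (by simp [Matrix.diagonal_apply])

theorem bk_det (c : ℂ) (H : Mx n) : (bk c H).det = c * H.det := by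
  rw [Matrix.det_succ_row_zero, Fin.sum_univ_succ]
  simp only [bk_0s, mul_zero, zero_mul, Finset.sum_const_zero, add_zero, bk_00]
  simp
  left
  rfl

theorem bk_mulVec (c : ℂ) (H : Mx n) (v : Cm (n + 1)) :
    bk c H *ᵥ v = Fin.cons (c * v 0) (H *ᵥ Fin.tail v) := by
  funext i
  refine Fin.cases ?_ (fun i => ?_) i <;>
    simp [Matrix.mulVec, dotProduct, Fin.sum_univ_succ, Fin.tail]

theorem bk_inv {c : ℂ} {H : Mx n} (hc : c ≠ 0) (hH : H.det ≠ 0) : (bk c H)⁻¹ = bk c⁻¹ H⁻¹ :=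
  Matrix.inv_eq_right_inv (by
    rw [bk_mul, mul_inv_cancel₀ hc, Matrix.mul_nonsing_inv _ (Ne.isUnit hH), bk_one])

theorem bk_quad (c : ℂ) (H : Mx n) (v : Cm (n + 1)) : star v ⬝ᵥ bk c H *ᵥ v =
    c * (‖v 0‖ ^ 2 : ℝ) + star (Fin.tail v) ⬝ᵥ H *ᵥ Fin.tail v := by
  rw [bk_mulVec, dotProduct, Fin.sum_univ_succ]
  simp only [Fin.cons_zero, Fin.cons_succ, Pi.star_apply, dotProduct, Fin.tail]
  rw [mul_left_comm, RCLike.star_def, Complex.conj_mul']
  simp

theorem bk_herm (c : ℝ) {H : Mx n} (hH : H.IsHermitian) : (bk c H).IsHermitian :=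
  bk_ext (by simp) (by simp) (by simp) fun i j => by simpa using hH.apply i j

theorem bk_psd {c : ℝ} {H : Mx n} (hc : 0 ≤ c) (hH : H.PosSemidef) : (bk c H).PosSemidef := by
  refine .of_dotProduct_mulVec_nonneg (bk_herm c hH.1) fun v => ?_
  rw [bk_quad]
  exact add_nonneg (by exact_mod_cast mul_nonneg hc (sq_nonneg _)) (hH.dotProduct_mulVec_nonneg _)

theorem bk_pos {c : ℝ} {H : Mx n} (hc : 0 < c) (hH : H.PosDef) : (bk c H).PosDef := by
  refine .of_dotProduct_mulVec_pos (bk_herm c hH.1) fun v hv => ?_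
  rw [bk_quad]
  by_cases h : Fin.tail v = 0
  · have h0 : v 0 ≠ 0 := fun e => hv (funext fun i => Fin.cases e (congrFun h) i)
    exact add_pos_of_pos_of_nonneg (by exact_mod_cast mul_pos hc (by positivity))
      (hH.posSemidef.dotProduct_mulVec_nonneg _)
  · exact add_pos_of_nonneg_of_pos (by exact_mod_cast mul_nonneg hc.le (sq_nonneg _))
      (hH.dotProduct_mulVec_pos h)

theorem det_mono {k : ℕ} {A B : Mx k} (hA : A.PosSemidef) (h : (B - A).PosSemidef) :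
    A.det.re ≤ B.det.re := by
  have h1 := md_mono (X := fun _ => A) (Y := fun _ => B) (fun _ => hA) fun _ => h
  rw [md_const, md_const] at h1
  exact le_of_mul_le_mul_left h1 (by positivity)

theorem det_im {k : ℕ} {A : Mx k} (hA : A.PosSemidef) : A.det = (A.det.re : ℂ) :=
  Complex.ext rfl (by simpa using (Complex.nonneg_iff.1 hA.det_nonneg).2.symm)

/-! ### the two projections -/

/-- the projection to `ℂⁿ` -/
def tl (n : ℕ) : Cm (n + 1) →L[ℂ] Cm n :=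
  ContinuousLinearMap.pi fun i => ContinuousLinearMap.proj (Fin.succ i)

/-- the projection to `ℂ¹` -/
def hd (n : ℕ) : Cm (n + 1) →L[ℂ] Cm 1 :=
  ContinuousLinearMap.pi fun _ => ContinuousLinearMap.proj 0

theorem an_tail (v : Cm (n + 1)) : AnalyticAt ℂ (Fin.tail : Cm (n + 1) → Cm n) v :=
  (tl n).analyticAt v

theorem sm_tail : ContDiff ℝ ∞ (Fin.tail : Cm (n + 1) → Cm n) :=
  ((tl n).restrictScalars ℝ).contDiff

theorem an_cons {W : Type} [NormedAddCommGroup W] [NormedSpace ℂ W] {f : W → ℂ} {g : W → Cm n}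
    {x : W} (hf : AnalyticAt ℂ f x) (hg : AnalyticAt ℂ g x) :
    AnalyticAt ℂ (fun y => (Fin.cons (f y) (g y) : Cm (n + 1))) x :=
  analyticAt_pi_iff.2 fun i => Fin.cases hf (fun i => analyticAt_pi_iff.1 hg i) i

theorem cont_cons {W : Type} [TopologicalSpace W] {f : W → ℂ} {g : W → Cm n} {x : W}
    (hf : ContinuousAt f x) (hg : ContinuousAt g x) :
    ContinuousAt (fun y => (Fin.cons (f y) (g y) : Cm (n + 1))) x :=
  continuousAt_pi.2 fun i => Fin.cases hf (fun i => continuousAt_pi.1 hg i) i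

theorem norm_cons_le {w : ℂ} {z : Cm n} {r : ℝ} (hr : 0 ≤ r) :
    ‖(Fin.cons w z : Cm (n + 1))‖ ≤ r ↔ ‖w‖ ≤ r ∧ ‖z‖ ≤ r := by
  rw [pi_norm_le_iff_of_nonneg hr, pi_norm_le_iff_of_nonneg hr, Fin.forall_fin_succ]
  rfl

theorem nsq_succ (v : Cm (n + 1)) : nsq v = ‖v 0‖ ^ 2 + nsq (Fin.tail v) :=
  Fin.sum_univ_succ _

theorem hess_tail {f : Cm n → ℝ} {v : Cm (n + 1)} (hf : ContDiffAt ℝ 2 f (Fin.tail v)) :
    cHess (fun u => f (Fin.tail u)) v = bk 0 (cHess f (Fin.tail v)) := by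
  have h : jm (Fin.tail : Cm (n + 1) → Cm n) v = Matrix.of fun b j => if b.succ = j then 1 else 0 := by
    ext b j
    rw [jm_apply, show (Fin.tail : Cm (n + 1) → Cm n) = tl n from rfl, (tl n).fderiv]
    simp [tl, Pi.single_apply]
  rw [hess_comp (an_tail v) hf, h]
  refine bk_ext ?_ ?_ ?_ ?_ <;> simp [pb, Matrix.mul_apply, apply_ite (starRingEnd ℂ)]

theorem pb_hd (v : Cm (n + 1)) (H : Mx 1) : pb (jm (hd n) v) H = bk (H 0 0) 0 := by
  have h : jm (hd n) v = Matrix.of fun _ j => if 0 = j then 1 else 0 := by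
    ext b j
    rw [jm_apply, (hd n).fderiv]
    simp [hd, Pi.single_apply]
  rw [h]
  refine bk_ext ?_ ?_ ?_ ?_ <;>
    simp [pb, Matrix.mul_apply, apply_ite (starRingEnd ℂ), (Fin.succ_ne_zero _).symm]

theorem sm_w (a : ℂ) : ContDiff ℝ ∞ fun u : Cm (n + 1) => ‖u 0 - a‖ ^ 2 :=
  ContDiff.norm_sq ℂ (by fun_prop)

theorem w_eq (a : ℂ) : (fun u : Cm (n + 1) => ‖u 0 - a‖ ^ 2) =
    fun u => (fun w => nsq (w - fun _ => a)) (hd n u) := by
  funext u
  simp [nsq, hd]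

theorem hess_w (a : ℂ) (v : Cm (n + 1)) : cHess (fun u => ‖u 0 - a‖ ^ 2) v = bk 1 0 := by
  rw [w_eq, hess_comp ((hd n).analyticAt v) ((sm_nsq _).contDiffAt.of_le two_le), pb_hd, hess_nsq]
  rfl

/-- radial functions of `w` -/
theorem hess_rad {χ : ℝ → ℝ} (a : ℂ) {v : Cm (n + 1)} (hχ : ContDiffAt ℝ 2 χ (‖v 0 - a‖ ^ 2)) :
    cHess (fun u => χ (‖u 0 - a‖ ^ 2)) v = bk (deriv χ (‖v 0 - a‖ ^ 2) +
      ‖v 0 - a‖ ^ 2 * deriv (deriv χ) (‖v 0 - a‖ ^ 2) : ℝ) 0 := by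
  have h1 := ((sm_nsq fun _ : Fin 1 => a).differentiable (by simp)) (hd n v)
  rw [cHess_comp' (f := fun u => ‖u 0 - a‖ ^ 2) hχ ((sm_w a).contDiffAt.of_le two_le), hess_w,
    w_eq, gg_comp (hd n).differentiableAt h1 h1, pb_hd, gg_nsq, bk_smul, bk_smul, bk_add]
  congr 1
  · simp [rk1, hd, ← Complex.conj_mul', mul_comm]
  · simp

/-- the regularised logarithm -/
theorem hess_lg (a : ℂ) {e : ℝ} (v : Cm (n + 1)) (h : 0 < ‖v 0 - a‖ ^ 2 + e) :
    ContDiffAt ℝ ∞ (fun u : Cm (n + 1) => Real.log (‖u 0 - a‖ ^ 2 + e)) v ∧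
    cHess (fun u => Real.log (‖u 0 - a‖ ^ 2 + e)) v = bk (e / (‖v 0 - a‖ ^ 2 + e) ^ 2 : ℝ) 0 := by
  refine ⟨((sm_w a).contDiffAt.add contDiffAt_const).log h.ne', ?_⟩
  rw [hess_rad (χ := fun t => Real.log (t + e)) a ((contDiffAt_id.add contDiffAt_const).log h.ne')]
  generalize ‖v 0 - a‖ ^ 2 = t at h
  have h1 : deriv (fun t => Real.log (t + e)) = fun t => (t + e)⁻¹ := by
    funext s
    rw [deriv_comp_add_const, Real.deriv_log]
  rw [h1, deriv_comp_add_const (f := fun t => t⁻¹), deriv_inv]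
  congr 2
  field_simp
  ring

end Vale.Agent.P284Y.Y
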