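import Vale.Agent.P284Y.GenSpec
import Vale.Agent.P284Y.Y.Blk

/-!
# P284Y, block Y: the space `E × ℂ`
-/

set_option linter.all false

open scoped ContDiff Topology ComplexOrder ENNReal Matrix
open Filter Set Function Metric MeasureTheory

noncomputable section

namespace Vale.Agent.P284Y.Y

open Vale.Agent.P272.K Vale.Agent.P284Z Vale.Agent.P284Z.J

variable {n : ℕ} {Γ E : Type} [Group Γ] [TopologicalSpace E] [MulAction Γ E] (C : Cov n Γ E)
  {β m : ℝ}

/-! ### the potential -/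

theorem ρY_sm (a : C.I) {v : Cm (n + 1)} (hv : Fin.tail v ∈ C.B 4 a) :
    ContDiffAt ℝ ∞ (fun v : Cm (n + 1) => β * C.ρ a (Fin.tail v) + m * ‖v 0‖ ^ 2) v :=
  (contDiffAt_const.mul ((C.ρ_sm a _ hv).comp v sm_tail.contDiffAt)).add
    (contDiffAt_const.mul (by simpa using (sm_w 0).contDiffAt))

theorem ρY_hess (a : C.I) {v : Cm (n + 1)} (hv : Fin.tail v ∈ C.B 4 a) :
    cHess (fun v : Cm (n + 1) => β * C.ρ a (Fin.tail v) + m * ‖v 0‖ ^ 2) v =
      bk m ((β : ℂ) • cHess (C.ρ a) (Fin.tail v)) := by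
  have h1 := (C.ρ_sm a _ hv).of_le two_le
  have h2 : ContDiffAt ℝ 2 (fun v : Cm (n + 1) => C.ρ a (Fin.tail v)) v :=
    h1.comp v (sm_tail.contDiffAt.of_le two_le)
  have h3 : ContDiffAt ℝ 2 (fun v : Cm (n + 1) => ‖v 0‖ ^ 2) v := by
    simpa using (sm_w 0).contDiffAt.of_le two_le
  have h4 := hess_w 0 v
  simp only [sub_zero] at h4
  rw [C2.cHess_add (contDiffAt_const.mul h2) (contDiffAt_const.mul h3), C2.cHess_const_mul _ h2,
    C2.cHess_const_mul _ h3, hess_tail h1, h4, bk_smul, bk_smul, bk_add]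
  simp

theorem QY_hess (i : Γ × C.I) {v : Cm (n + 1)} (hv : v ∈ (QY C β m).U i) :
    cHess ((QY C β m).ρ i) v = bk m ((β : ℂ) • cHess (C.ρ i.2) (Fin.tail v)) := ρY_hess C _ hv

theorem QY_vol (i : Γ × C.I) {v : Cm (n + 1)} (hv : v ∈ (QY C β m).U i) :
    (QY C β m).vol i v = β ^ n * m * (cHess (C.ρ i.2) (Fin.tail v)).det.re := by
  unfold Pat.vol
  rw [QY_hess C i hv, bk_det, Matrix.det_smul, Fintype.card_fin, ← mul_assoc,
    ← Complex.ofReal_pow, ← Complex.ofReal_mul, Complex.re_ofReal_mul, mul_comm m]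

theorem ρY_pos (hβ : 0 < β) (hm : 0 < m) (a : C.I) {v : Cm (n + 1)} (hv : Fin.tail v ∈ C.B 4 a) :
    (cHess (fun v : Cm (n + 1) => β * C.ρ a (Fin.tail v) + m * ‖v 0‖ ^ 2) v).PosDef := by
  rw [ρY_hess C a hv]
  exact bk_pos hm ((C.ρ_pos a _ hv).smul (by exact_mod_cast hβ))

theorem aff_sq {u : ℂ} (hu : ‖u‖ = 1) (c w : ℂ) :
    ‖w‖ ^ 2 = ‖u * w + c‖ ^ 2 - (2 * (u * w * (starRingEnd ℂ) c) + c * (starRingEnd ℂ) c).re := by
  have h : ‖w‖ = ‖u * w‖ := by rw [norm_mul, hu, one_mul]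
  rw [h, Complex.sq_norm, Complex.sq_norm, Complex.normSq_add, Complex.mul_conj]
  simp
  ring

/-- the changes of coordinates -/
theorem tr_aux {γ γ' : Γ} {a b : C.I} {v v' : Cm (n + 1)} {u u' c c' : ℂ} (hu : ‖u‖ = 1)
    (hu' : ‖u'‖ = 1) (hv : Fin.tail v ∈ C.B 4 a) (hv' : Fin.tail v' ∈ C.B 4 b)
    (h : (C.pt γ a (Fin.tail v), u * v 0 + c) = (C.pt γ' b (Fin.tail v'), u' * v' 0 + c')) :
    ∃ (T : Cm (n + 1) → Cm (n + 1)) (g : Cm (n + 1) → ℂ), AnalyticAt ℂ T v ∧ AnalyticAt ℂ g v ∧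
      T v = v' ∧ ∀ᶠ w in 𝓝 v,
        (C.pt γ' b (Fin.tail (T w)), u' * T w 0 + c') = (C.pt γ a (Fin.tail w), u * w 0 + c) ∧
        β * C.ρ a (Fin.tail w) + m * ‖w 0‖ ^ 2 =
          β * C.ρ b (Fin.tail (T w)) + m * ‖T w 0‖ ^ 2 + (g w).re := by
  have u0 : u' ≠ 0 := norm_ne_zero_iff.1 (by rw [hu']; exact one_ne_zero)
  obtain ⟨h1, h2⟩ := C.Ov_of_eq hv hv' (congrArg Prod.fst h)
  obtain ⟨g, hg, h3⟩ := C.ρ_ch _ a b _ h1.1 h1.2
  have h4 : u * v 0 + c = u' * v' 0 + c' := congrArg Prod.snd h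
  have h0 : AnalyticAt ℂ (fun w : Cm (n + 1) => w 0) v := analyticAt_pi_iff.1 analyticAt_id 0
  refine ⟨fun w => Fin.cons (u / u' * w 0 + (c - c') / u') (C.tr (γ'⁻¹ * γ) a b (Fin.tail w)),
    fun w => β * g (Fin.tail w) - m * (2 * (u / u' * w 0 * (starRingEnd ℂ) ((c - c') / u')) +
      (c - c') / u' * (starRingEnd ℂ) ((c - c') / u')),
    an_cons ((analyticAt_const.mul h0).add analyticAt_const) ((C.an_tr h1).comp (an_tail v)),
    (analyticAt_const.mul (hg.comp (an_tail v))).sub (analyticAt_const.mul ((analyticAt_const.mul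
      ((analyticAt_const.mul h0).mul analyticAt_const)).add analyticAt_const)), ?_, ?_⟩
  · simp only [h2]
    rw [← Fin.cons_self_tail v', Fin.tail_cons]
    congr 1
    field_simp
    linear_combination h4
  · filter_upwards [sm_tail.continuous.continuousAt.eventually (h3.and (C.ev_Ov h1))] with w hw
    simp only [Fin.tail_cons, Fin.cons_zero]
    refine ⟨Prod.ext ?_ ?_, ?_⟩
    · simp only [C.pt_tr hw.2, mul_inv_cancel_left]
    · simp only
      field_simp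
      ring
    · rw [hw.1, aff_sq (u := u / u') (by rw [norm_div, hu, hu', div_one]) ((c - c') / u') (w 0),
        Complex.sub_re, Complex.re_ofReal_mul, Complex.re_ofReal_mul]
      unfold Cov.tr Cov.pt
      ring

theorem QY_aut (γ : Γ) {u : ℂ} (a : ℂ) (hu : ‖u‖ = 1) :
    (QY C β m).Aut fun y => (γ • y.1, u * y.2 + a) := by
  constructor
  · intro i j v hv v' hv' h
    simpa [QY, Pat.map, C.smul_pt] using tr_aux C (β := β) (m := m) (γ := i.1) (γ' := γ * j.1)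
      (c := 0) (c' := a) norm_one hu hv hv' (by simpa [QY, Pat.map, C.smul_pt] using h)
  · intro i j v hv v' hv' h
    simpa [QY, Pat.map, C.smul_pt] using tr_aux C (β := β) (m := m) (γ := γ * i.1) (γ' := j.1)
      (c := a) (c' := 0) hu norm_one hv hv' (by simpa [QY, Pat.map, C.smul_pt] using h)

/-- the coordinates of `ℂ × ℂⁿ` -/
def hc (n : ℕ) : (Cm n × ℂ) ≃ₜ Cm (n + 1) where
  toFun q := Fin.cons q.2 q.1
  invFun v := (Fin.tail v, v 0)
  left_inv _ := rfl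
  right_inv v := Fin.cons_self_tail v
  continuous_toFun := continuous_iff_continuousAt.2 fun _ =>
    cont_cons continuousAt_snd continuousAt_fst
  continuous_invFun := sm_tail.continuous.prodMk (continuous_apply 0)

theorem QY_ok [Countable Γ] (hβ : 0 < β) (hm : 0 < m) : (QY C β m).Ok where
  cnt := inferInstanceAs (Countable (Γ × C.I))
  opn i := (C.isOpen_B 4 i.2).preimage sm_tail.continuous
  emb i := by
    have h := (((C.ch i.1 i.2).prod (OpenPartialHomeomorph.refl ℂ)).transHomeomorph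
      (hc n)).symm.restrOpen _ ((C.isOpen_B 4 i.2).preimage sm_tail.continuous)
      |>.isOpenEmbedding_restrict
    have e : (QY C β m).U i = _ ∩ Fin.tail ⁻¹' C.B 4 i.2 :=
      (inter_eq_right.2 fun v hv => (show v ∈ (((C.ch i.1 i.2).prod
        (OpenPartialHomeomorph.refl ℂ)).transHomeomorph (hc n)).target from ⟨hv, trivial⟩)).symm
    rw [e]
    exact h
  cover y := by
    obtain ⟨γ, a, z, hz, e⟩ := C.exists_pt y.1
    exact ⟨(γ, a), Fin.cons y.2 z, C.B14 hz, Prod.ext e.symm rfl⟩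
  ρ_sm i _ hv := ρY_sm C i.2 hv
  ρ_pos i _ hv := ρY_pos C hβ hm i.2 hv
  tr := by simpa [Pat.map] using (QY_aut C (β := β) (m := m) 1 0 norm_one).1

/-! ### the volume -/

theorem lint_cons {s : Set (Cm n)} (F : ℂ × Cm n → ℝ≥0∞)
    (hF : AEMeasurable F (volume.prod (volume.restrict s))) :
    ∫⁻ v : Cm (n + 1) in {v : Cm (n + 1) | Fin.tail v ∈ s}, F (v 0, Fin.tail v) =
      ∫⁻ z in s, ∫⁻ w, F (w, z) := by
  have h := (volume_preserving_piFinSuccAbove (fun _ : Fin (n + 1) => ℂ) 0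
    ).setLIntegral_comp_preimage_emb (MeasurableEquiv.measurableEmbedding _) F (univ ×ˢ s)
  rw [← lintegral_prod_symm F hF, ← Measure.restrict_univ (μ := (volume : Measure ℂ)),
    Measure.prod_restrict]
  refine Eq.trans ?_ h
  congr 2
  ext v
  exact (and_iff_right trivial).symm

theorem vol_cont (a : C.I) : ContinuousOn (fun z => (cHess (C.ρ a) z).det.re) (C.B 4 a) := by
  have h := (sm_md (X := fun _ => cHess (C.ρ a)) fun _ => (Sm.cf (C.ρ_sm a)).sm).cont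
  simp only [md_const] at h
  refine (h.const_smul (n.factorial : ℝ)⁻¹).congr fun z _ => ?_
  have : (n.factorial : ℝ) ≠ 0 := by positivity
  simp [this]

theorem QY_volm [MeasurableSpace E] [BorelSpace E] {μ : Measure E} (hμ : C.Vol μ) (hβ : 0 < β)
    (hm : 0 < m) : (QY C β m).Vol (μY n μ β m) := by
  intro i f hf
  have hB := (C.isOpen_B 4 i.2).measurableSet
  have h1 : (QY C β m).pt i '' (QY C β m).U i = (C.pt i.1 i.2 '' C.B 4 i.2) ×ˢ univ := by
    ext y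
    constructor
    · rintro ⟨v, hv, rfl⟩
      exact ⟨⟨_, hv, rfl⟩, trivial⟩
    · rintro ⟨⟨z, hz, e⟩, -⟩
      exact ⟨Fin.cons y.2 z, hz, Prod.ext e rfl⟩
  have h2 := (C.isOpen_image_pt i.1 (C.isOpen_B 4 i.2) subset_rfl).measurableSet
  have h3 : 0 ≤ β ^ n * m := by positivity
  have h4 := lint_cons (s := C.B 4 i.2) (fun q => f (C.pt i.1 i.2 q.2, q.1) *
    ENNReal.ofReal (cHess (C.ρ i.2) q.2).det.re) ((hf.comp_aemeasurable
      ((((C.continuousOn_pt i.1 i.2).aemeasurable hB).comp_snd).prodMk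
        measurable_fst.aemeasurable)).mul
      ((vol_cont C i.2).aemeasurable hB).ennreal_ofReal.comp_snd)
  rw [h1, μY, Measure.restrict_smul, lintegral_smul_measure,
    ← lintegral_indicator (h2.prod .univ), lintegral_prod _ (hf.indicator (h2.prod .univ)).aemeasurable]
  have h5 : ∀ x, ∫⁻ w, ((C.pt i.1 i.2 '' C.B 4 i.2) ×ˢ univ).indicator f (x, w) =
      (C.pt i.1 i.2 '' C.B 4 i.2).indicator (fun x => ∫⁻ w, f (x, w)) x := fun x => by
    by_cases hx : x ∈ C.pt i.1 i.2 '' C.B 4 i.2 <;> simp [indicator, hx]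
  simp only [h5]
  rw [lintegral_indicator h2, hμ _ _ _ hf.lintegral_prod_right']
  simp only [← lintegral_mul_const' _ _ ENNReal.ofReal_ne_top]
  rw [← h4, smul_eq_mul, ← lintegral_const_mul' _ _ ENNReal.ofReal_ne_top]
  refine setLIntegral_congr_fun (hB.preimage sm_tail.continuous.measurable) fun v hv => ?_
  simp only
  rw [QY_vol C i hv, ENNReal.ofReal_mul h3, mul_left_comm]
  rfl

/-! ### the covering -/

/-- the group -/
def YG (Γ : Type) (_ : ℝ) : Type := Γ × Multiplicative (ℤ × ℤ)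

instance (R : ℝ) : Group (YG Γ R) := inferInstanceAs (Group (Γ × Multiplicative (ℤ × ℤ)))

instance [Countable Γ] (R : ℝ) : Countable (YG Γ R) := inferInstanceAs (Countable (Γ × ℤ × ℤ))

/-- the lattice -/
def lat (R : ℝ) (l : ℤ × ℤ) : ℂ := ⟨R * l.1, R * l.2⟩

instance (R : ℝ) : MulAction (YG Γ R) (E × ℂ) where
  smul g y := (g.1 • y.1, y.2 + lat R g.2.toAdd)
  one_smul y := Prod.ext (one_smul Γ y.1) (by
    change y.2 + lat R 0 = _
    simp [lat, Complex.ext_iff])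
  mul_smul g h y := Prod.ext (mul_smul g.1 h.1 y.1) (by
    change y.2 + lat R (g.2.toAdd + h.2.toAdd) = y.2 + lat R h.2.toAdd + lat R g.2.toAdd
    simp [lat, Complex.ext_iff]
    constructor <;> ring)

theorem lat_lt {R t : ℝ} (hR : 0 < R) {l : ℤ × ℤ} (h : ‖lat R l‖ < R * t) :
    |(l.1 : ℝ)| < t ∧ |(l.2 : ℝ)| < t := by
  have h1 := (Complex.abs_re_le_norm _).trans_lt h
  have h2 := (Complex.abs_im_le_norm _).trans_lt h
  simp only [lat, abs_mul, abs_of_pos hR] at h1 h2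
  exact ⟨lt_of_mul_lt_mul_left h1 hR.le, lt_of_mul_lt_mul_left h2 hR.le⟩

theorem lat_zero {R : ℝ} (hR : 0 < R) {l : Multiplicative (ℤ × ℤ)} (h : ‖lat R l.toAdd‖ < R) :
    l = 1 := by
  have h1 := lat_lt (t := 1) hR (by rwa [mul_one])
  rw [← Int.cast_abs, ← Int.cast_abs, ← Int.cast_one, Int.cast_lt, Int.cast_lt,
    Int.abs_lt_one_iff, Int.abs_lt_one_iff] at h1
  exact Prod.ext h1.1 h1.2

theorem tail_mem {v : Cm (n + 1)} {t : ℂ} {c : Cm n} {r : ℝ} (h : v ∈ ball (Fin.cons t c) r) :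
    Fin.tail v ∈ ball c r := by
  have hr := pos_of_mem_ball h
  rw [mem_ball, dist_pi_lt_iff hr] at h ⊢
  exact fun i => h i.succ

/-- the covering `E × ℂ` -/
def covY (hβ : 0 < β) (hm : 0 < m) {R : ℝ} (hR : 0 < R) (h8 : ∀ a, 8 * C.r a ≤ R) (T : Finset ℂ)
    (hT : ∀ w : ℂ, ‖w‖ ≤ 2 * R → ∀ a, ∃ t ∈ T, w ∈ ball t (C.r a)) :
    Cov (n + 1) (YG Γ R) (E × ℂ) where
  I := C.I × T
  fin := inferInstance
  e j := ((C.e j.1).prod (.ofSet (ball (j.2 : ℂ) (4 * C.r j.1)) isOpen_ball)).transHomeomorph (hc n)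
  c j := Fin.cons j.2 (C.c j.1)
  r j := C.r j.1
  r_pos j := C.r_pos j.1
  tgt j := by
    have h : 0 < 4 * C.r j.1 := by linarith [C.r_pos j.1]
    ext v
    change (Fin.tail v ∈ (C.e j.1).target ∧ v 0 ∈ ball _ _) ↔ _
    rw [C.tgt, mem_ball, mem_ball, mem_ball, dist_pi_lt_iff h, dist_pi_lt_iff h,
      Fin.forall_fin_succ, and_comm]
    rfl
  cont g := ((C.cont g.1).comp continuous_fst).prodMk (continuous_snd.add continuous_const)
  free g y h := Prod.ext (C.free g.1 y.1 (congrArg Prod.fst h)) (lat_zero hR (by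
    rw [add_eq_left.1 (congrArg Prod.snd h), norm_zero]
    exact hR))
  disj g j y h h' := Prod.ext (C.disj g.1 j.1 y.1 h.1 h'.1) (lat_zero hR (by
    have h1 : ‖y.2 - j.2‖ < 4 * C.r j.1 := mem_ball_iff_norm.1 h.2
    have h2 : ‖y.2 + lat R g.2.toAdd - j.2‖ < 4 * C.r j.1 := mem_ball_iff_norm.1 h'.2
    have h3 := norm_sub_le (y.2 + lat R g.2.toAdd - j.2) (y.2 - j.2)
    rw [show y.2 + lat R g.2.toAdd - j.2 - (y.2 - j.2) = lat R g.2.toAdd by ring] at h3
    linarith [h8 j.1]))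
  cover y := by
    obtain ⟨γ, a, z, hz, e⟩ := C.cover y.1
    have key : ∀ x : ℝ, |x - R * ⌊x / R⌋| ≤ R := fun x => by
      have h1 := Int.floor_le (x / R)
      have h2 := Int.lt_floor_add_one (x / R)
      rw [le_div_iff₀ hR] at h1
      rw [div_lt_iff₀ hR] at h2
      rw [abs_le]
      constructor <;> linarith
    obtain ⟨t, ht, h⟩ := hT (y.2 - lat R (⌊y.2.re / R⌋, ⌊y.2.im / R⌋))
      ((Complex.norm_le_abs_re_add_abs_im _).trans (by
        have := add_le_add (key y.2.re) (key y.2.im)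
        rwa [← two_mul] at this)) a
    refine ⟨(γ, .ofAdd (⌊y.2.re / R⌋, ⌊y.2.im / R⌋)), (a, ⟨t, ht⟩), Fin.cons (y.2 - lat R _) z, ?_,
      Prod.ext e (sub_add_cancel _ _).symm⟩
    rw [mem_ball, dist_pi_lt_iff (C.r_pos a), Fin.forall_fin_succ]
    exact ⟨h, (dist_pi_lt_iff (C.r_pos a)).1 hz⟩
  hol g j j' v hv h := an_cons ((analyticAt_pi_iff.1 analyticAt_id 0).add analyticAt_const)
    ((C.hol g.1 j.1 j'.1 _ (tail_mem hv) h.1).comp (an_tail v))
  proper K hK := by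
    obtain ⟨M, hM⟩ := (hK.image continuous_snd).isBounded.exists_norm_le
    obtain ⟨N, hN⟩ := exists_nat_gt (2 * M / R)
    refine ((C.proper _ (hK.image continuous_fst)).prod (Set.finite_Icc ((-N, -N) : ℤ × ℤ)
      (N, N))).subset ?_
    rintro g ⟨y, h1, h2⟩
    refine ⟨⟨y.1, ⟨y, h1, rfl⟩, _, h2, rfl⟩, ?_⟩
    have h3 := norm_sub_le (y.2 + lat R g.2) y.2
    rw [add_sub_cancel_left] at h3
    have h4 : ‖y.2 + lat R g.2‖ ≤ M := hM _ ⟨_, h2, rfl⟩
    have h5 := lat_lt (t := N) (l := g.2) hR (by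
      rw [div_lt_iff₀ hR] at hN
      linarith [hM _ ⟨_, h1, rfl⟩])
    rw [← Int.cast_abs, ← Int.cast_abs, ← Int.cast_natCast, Int.cast_lt, Int.cast_lt, abs_lt,
      abs_lt] at h5
    exact ⟨⟨h5.1.1.le, h5.2.1.le⟩, h5.1.2.le, h5.2.2.le⟩
  ρ j v := β * C.ρ j.1 (Fin.tail v) + m * ‖v 0‖ ^ 2
  ρ_sm j _ hv := ρY_sm C j.1 (tail_mem hv)
  ρ_pos j _ hv := ρY_pos C hβ hm j.1 (tail_mem hv)
  ρ_ch g j j' v hv h := by
    obtain ⟨f, hf, h3⟩ := C.ρ_ch g.1 j.1 j'.1 _ (tail_mem hv) h.1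
    have h0 : AnalyticAt ℂ (fun w : Cm (n + 1) => w 0) v := analyticAt_pi_iff.1 analyticAt_id 0
    refine ⟨fun w => β * f (Fin.tail w) - m * (2 * (1 * w 0 * (starRingEnd ℂ) (lat R g.2.toAdd)) +
      lat R g.2.toAdd * (starRingEnd ℂ) (lat R g.2.toAdd)),
      (analyticAt_const.mul (hf.comp (an_tail v))).sub (analyticAt_const.mul
        ((analyticAt_const.mul ((analyticAt_const.mul h0).mul analyticAt_const)).add
          analyticAt_const)), ?_⟩
    filter_upwards [sm_tail.continuous.continuousAt.eventually h3] with w hw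
    change _ = β * C.ρ j'.1 (C.e j'.1 (g.1 • (C.e j.1).symm (Fin.tail w))) +
      m * ‖w 0 + lat R g.2.toAdd‖ ^ 2 + _
    rw [hw, aff_sq norm_one (lat R g.2.toAdd) (w 0), Complex.sub_re, Complex.re_ofReal_mul,
      Complex.re_ofReal_mul, one_mul]
    ring

/-- **Y0** -/
theorem stY0 (hP : StP) : StY0 := by
  intro n Γ E _ _ _ _ _ _ _ _ C μ β m hμ hβ hm
  refine ⟨?_, fun γ u a hu => QY_aut C γ a hu⟩
  obtain ⟨r, hr, h1⟩ := C.exists_r
  obtain ⟨R, hR⟩ := (Set.finite_range fun a => 8 * C.r a).bddAbove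
  obtain ⟨T, -, hT, h2⟩ := finite_cover_balls_of_compact
    (isCompact_closedBall (0 : ℂ) (2 * max R 1)) hr
  let D := covY C hβ hm (R := max R 1) (by positivity) (fun a => le_max_of_le_left (hR ⟨a, rfl⟩))
    hT.toFinset fun w hw a => by
      obtain ⟨t, ht, h⟩ := mem_iUnion₂.1 (h2 (mem_closedBall_zero_iff.2 hw))
      exact ⟨t, hT.mem_toFinset.2 ht, ball_subset_ball (h1 a) h⟩
  refine hP (n + 1) _ _ D _ _ (by omega) (QY_ok C hβ hm) ?_ ?_ (QY_volm C hμ hβ hm)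
  · intro i j v hv v' hv' h
    have := tr_aux C (β := β) (m := m) (γ := i.1.1) (γ' := j.1)
      (c := lat _ i.1.2.toAdd) (c' := 0) norm_one norm_one (tail_mem hv) hv'
      (by rw [one_mul, one_mul, add_zero]; exact h)
    simp only [one_mul, add_zero] at this
    exact this
  · intro i j v hv v' hv' h
    have := tr_aux C (β := β) (m := m) (γ := i.1) (γ' := j.1.1)
      (c := 0) (c' := lat _ j.1.2.toAdd) norm_one norm_one hv (tail_mem hv')
      (by rw [one_mul, one_mul, add_zero]; exact h)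
    simp only [one_mul, add_zero] at this
    exact this

end Vale.Agent.P284Y.Y
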