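import Vale.Agent.P284Y.Y.R41g
import Vale.Agent.P284Y.Y.Cov
import Vale.Agent.P284Y.Y9.Par
import Vale.Agent.P284Y.Gen.PGBm

/-!
# P284Y, block Y: the formula for the density of a probe
-/

set_option linter.all false

open scoped ContDiff Topology ComplexOrder ENNReal Matrix
open Filter Set Function Metric MeasureTheory

noncomputable section

namespace Vale.Agent.P284Y

open Vale.Agent.P272.K Vale.Agent.P284Z Vale.Agent.P284Z.J

namespace S41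

variable {n : ℕ}

theorem bd_eq (c : ℂ) (A : Mx n) : bd c A = Y.bk c A := by
  ext i j
  refine Fin.cases ?_ (fun i => ?_) i <;> refine Fin.cases ?_ (fun j => ?_) j <;> rfl

theorem nsq_smul (c : ℂ) (u : Cm n) : nsq (c • u) = ‖c‖ ^ 2 * nsq u := by
  simp only [nsq, Pi.smul_apply, smul_eq_mul, norm_mul, mul_pow, Finset.mul_sum]

theorem sq_le_nsq (u : Cm n) (i : Fin n) : ‖u i‖ ^ 2 ≤ nsq u :=
  Finset.single_le_sum (f := fun b => ‖u b‖ ^ 2) (fun _ _ => sq_nonneg _) (Finset.mem_univ i)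

theorem norm_le_of_nsq {u : Cm n} {r : ℝ} (hr : 0 ≤ r) (h : nsq u ≤ r ^ 2) : ‖u‖ ≤ r :=
  (pi_norm_le_iff_of_nonneg hr).2 fun i =>
    (pow_le_pow_iff_left₀ (norm_nonneg _) hr two_ne_zero).1 ((sq_le_nsq u i).trans h)

theorem nsq_le_of_norm {u : Cm n} (h : ‖u‖ ≤ 1) : nsq u ≤ n := by
  simpa [nsq] using Finset.sum_le_card_nsmul Finset.univ (fun b => ‖u b‖ ^ 2) 1
    fun b _ => pow_le_one₀ (norm_nonneg _) ((norm_le_pi_norm u b).trans h)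

theorem nsq_one (w : ℂ) : nsq (fun _ : Fin 1 => w) = ‖w‖ ^ 2 := by simp [nsq]

theorem dot_self (u : Cm n) : star u ⬝ᵥ u = (nsq u : ℝ) := by
  simp [dotProduct, nsq, Complex.conj_mul']

theorem quad (ξ : Mx n) (u : Cm n) : star u ⬝ᵥ (ξᴴ * ξ) *ᵥ u = (nsq (ξ *ᵥ u) : ℝ) := by
  rw [← Matrix.mulVec_mulVec, Matrix.dotProduct_mulVec, ← Matrix.star_mulVec, dot_self]

theorem quad_one (c : ℝ) (u : Cm n) :
    star u ⬝ᵥ ((c : ℂ) • (1 : Mx n)) *ᵥ u = (c * nsq u : ℝ) := by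
  rw [Matrix.smul_mulVec, Matrix.one_mulVec, dotProduct_smul, dot_self, smul_eq_mul,
    Complex.ofReal_mul]

theorem psd_one {c : ℝ} (hc : 0 ≤ c) : ((c : ℂ) • (1 : Mx n)).PosSemidef :=
  Matrix.PosSemidef.one.smul (by exact_mod_cast hc)

theorem herm_one (c : ℝ) : ((c : ℂ) • (1 : Mx n)).IsHermitian := by
  simp [Matrix.IsHermitian]

theorem det_one (c : ℝ) : ((c : ℂ) • (1 : Mx n)).det.re = c ^ n := by
  rw [Matrix.det_smul, Matrix.det_one, mul_one, Fintype.card_fin, ← Complex.ofReal_pow,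
    Complex.ofReal_re]

theorem det_hh (ξ : Mx n) : (ξᴴ * ξ).det.re = ‖ξ.det‖ ^ 2 := by
  rw [Matrix.det_mul, Matrix.det_conjTranspose, RCLike.star_def, Complex.conj_mul',
    ← Complex.ofReal_pow, Complex.ofReal_re]

theorem det_ge {R : ℝ} {ξ : Mx n} (h : Fr R ξ) : Real.exp (-(2 * R)) ^ n ≤ ‖ξ.det‖ ^ 2 := by
  rw [← det_one, ← det_hh]
  refine Y.det_mono (psd_one (Real.exp_pos _).le) (.of_dotProduct_mulVec_nonneg
    ((Matrix.isHermitian_conjTranspose_mul_self ξ).sub (herm_one _)) fun u => ?_)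
  rw [Matrix.sub_mulVec, dotProduct_sub, quad, quad_one]
  exact_mod_cast sub_nonneg.2 (h u).1

theorem det_le {R : ℝ} {ξ : Mx n} (h : Fr R ξ) : ‖ξ.det‖ ^ 2 ≤ Real.exp (2 * R) ^ n := by
  rw [← det_hh, ← det_one]
  refine Y.det_mono (Matrix.posSemidef_conjTranspose_mul_self ξ) (.of_dotProduct_mulVec_nonneg
    ((herm_one _).sub (Matrix.isHermitian_conjTranspose_mul_self ξ)) fun u => ?_)
  rw [Matrix.sub_mulVec, dotProduct_sub, quad, quad_one]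
  exact_mod_cast sub_nonneg.2 (h u).2

theorem det_ne {R : ℝ} {ξ : Mx n} (h : Fr R ξ) : ξ.det ≠ 0 := fun e => by
  have h1 := det_ge h
  rw [e, norm_zero, zero_pow two_ne_zero] at h1
  exact h1.not_gt (pow_pos (Real.exp_pos _) _)

theorem exp_ne (t : ℝ) : ((Real.exp t : ℝ) : ℂ) ≠ 0 := by exact_mod_cast (Real.exp_pos t).ne'

theorem norm_exp_sq (s : ℝ) : ‖((Real.exp (-(s / 2)) : ℝ) : ℂ)‖ ^ 2 = Real.exp (-s) := by
  rw [Complex.norm_real, Real.norm_eq_abs, sq_abs, sq, ← Real.exp_add]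
  congr 1
  ring

theorem det_smul_ne (t : ℝ) {ξ : Mx n} (h : ξ.det ≠ 0) : (((Real.exp t : ℝ) : ℂ) • ξ).det ≠ 0 := by
  rw [Matrix.det_smul]
  exact mul_ne_zero (pow_ne_zero _ (exp_ne t)) h

theorem norm_det_smul (s : ℝ) (ξ : Mx n) :
    ‖(((Real.exp (-(s / 2)) : ℝ) : ℂ) • ξ).det‖ ^ 2 = Real.exp (-s) ^ n * ‖ξ.det‖ ^ 2 := by
  rw [Matrix.det_smul, norm_mul, mul_pow, norm_pow, ← pow_mul, mul_comm _ 2, pow_mul, norm_exp_sq,
    Fintype.card_fin]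

theorem bmp_congr {k : ℕ} {q : ℝ} {u v : Cm k} (h : nsq u = nsq v) : bmp k q u = bmp k q v := by
  rw [bmp, bmp, bmp₀, bmp₀, h]

theorem ker₂ {q : ℝ} (h0 : 0 < q) (h1 : q < 1) : Ker (bmp₂ n q) ∧ ∫ u, bmp₂ n q u = 1 := by
  obtain ⟨⟨a1, a2, a3⟩, a4⟩ := bm.ker 1 q h0 h1
  obtain ⟨⟨b1, b2, b3⟩, b4⟩ := bm.ker n q h0 h1
  refine ⟨⟨(a1.comp (contDiff_pi.2 fun _ => contDiff_apply ℝ ℂ 0)).mul (b1.comp Y.sm_tail),
    fun u => mul_nonneg (a2 _) (b2 _), fun u hu => ?_⟩, ?_⟩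
  · rw [← Fin.cons_self_tail u]
    exact (Y.norm_cons_le zero_le_one).2 ⟨(norm_le_pi_norm (fun _ : Fin 1 => u 0) 0).trans
      (a3 _ (left_ne_zero_of_mul hu)), b3 _ (right_ne_zero_of_mul hu)⟩
  · have h := (volume_preserving_piFinSuccAbove (fun _ : Fin (n + 1) => ℂ) 0).integral_comp'
      fun p : ℂ × Cm n => bmp 1 q (fun _ => p.1) * bmp n q p.2
    have h2 := (volume_preserving_funUnique (Fin 1) ℂ).integral_comp'
      fun w : ℂ => bmp 1 q fun _ => w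
    have h3 : ∫ w : ℂ, bmp 1 q (fun _ => w) = 1 := by
      rw [← h2, ← a4]
      refine integral_congr_ae (Eventually.of_forall fun v => congrArg (bmp 1 q) ?_)
      exact funext fun i => congrArg v (Subsingleton.elim _ _)
    refine Eq.trans h ?_
    rw [Measure.volume_eq_prod, integral_prod_mul (fun w : ℂ => bmp 1 q fun _ => w) (bmp n q), h3,
      b4, mul_one]

variable {Γ E : Type} [Group Γ] [TopologicalSpace E] [MulAction Γ E] {C : Cov n Γ E}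

/-- the density in the direction of `E`, in the chart -/
def F₀ (P : Par) (C : Cov n Γ E) (a : C.I) (x : Cm n) (ξ : Mx n) (s : ℝ) (z : Cm n) : ℝ :=
  bmp n P.q ((((Real.exp (-(s / 2)) : ℝ) : ℂ) • ξ)⁻¹ *ᵥ (z - x)) /
    (Real.exp (-s) ^ n * ‖ξ.det‖ ^ 2 * (P.β ^ n * P.m * (cHess (C.ρ a) z).det.re))

/-- the density in the direction of `E` -/
def FF (P : Par) (C : Cov n Γ E) (γ : Γ) (a : C.I) (x : Cm n) (ξ : Mx n) (s : ℝ) : E → ℝ :=
  (C.pt γ a '' C.B 4 a).indicator fun y => F₀ P C a x ξ s (C.co γ a y)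

theorem FF_pt (P : Par) (γ : Γ) (a : C.I) (x : Cm n) (ξ : Mx n) (s : ℝ) {z : Cm n}
    (hz : z ∈ C.B 4 a) : FF P C γ a x ξ s (C.pt γ a z) = F₀ P C a x ξ s z := by
  rw [FF, indicator_of_mem (mem_image_of_mem _ hz), C.co_pt hz]

theorem det_pos {a : C.I} {z : Cm n} (hz : z ∈ C.B 4 a) : 0 < (cHess (C.ρ a) z).det.re :=
  (Complex.pos_iff.1 (C.ρ_pos a z hz).det_pos).1

theorem FF_nonneg (P : Par) (γ : Γ) (a : C.I) (x : Cm n) (ξ : Mx n) (s : ℝ) (y : E) :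
    0 ≤ FF P C γ a x ξ s y := by
  refine indicator_nonneg ?_ y
  rintro _ ⟨z, hz, rfl⟩
  rw [C.co_pt hz]
  have h1 := det_pos hz
  have h2 := P.β_pos
  have h3 := P.m_pos
  exact div_nonneg ((bm.ker n _ P.q_pos (P.q_le.trans_lt (by norm_num))).1.2.1 _) (by positivity)

theorem FF_smul (P : Par) (g γ : Γ) (a : C.I) (x : Cm n) (ξ : Mx n) (s : ℝ) (y : E) :
    FF P C (g * γ) a x ξ s (g • y) = FF P C γ a x ξ s y := by
  by_cases h : y ∈ C.pt γ a '' C.B 4 a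
  · obtain ⟨z, hz, rfl⟩ := h
    rw [C.smul_pt, FF_pt P _ a x ξ s hz, FF_pt P _ a x ξ s hz]
  · rw [FF, FF, indicator_of_notMem h, indicator_of_notMem]
    rintro ⟨z, hz, e⟩
    exact h ⟨z, hz, smul_left_cancel g ((C.smul_pt g γ a z).trans e)⟩

theorem FF_uni (P : Par) (γ : Γ) (a : C.I) (x : Cm n) {ξ V : Mx n} (s : ℝ)
    (hV : ∀ u, nsq (V *ᵥ u) = nsq u) : FF P C γ a x (ξ * V) s = FF P C γ a x ξ s := by
  have h0 : Fr 0 V := fun u => by simp [hV]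
  have h1 : ‖V.det‖ ^ 2 = 1 :=
    le_antisymm (by simpa using det_le h0) (by simpa using det_ge h0)
  have h2 : ∀ u, nsq (V⁻¹ *ᵥ u) = nsq u := fun u => by
    rw [← hV, Matrix.mulVec_mulVec, Matrix.mul_nonsing_inv _ (Ne.isUnit (det_ne h0)),
      Matrix.one_mulVec]
  unfold FF F₀
  congr 1
  funext y
  rw [Matrix.det_mul, norm_mul, mul_pow, h1, mul_one, ← Matrix.smul_mul, Matrix.mul_inv_rev,
    ← Matrix.mulVec_mulVec, bmp_congr (h2 _)]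

/-- the affine map of a probe -/
theorem aff_eq (b : Pb C) (u : Cm (n + 1)) : (Fin.cons b.w b.x : Cm (n + 1)) + b.A *ᵥ u =
    Fin.cons (b.w + (Real.exp (-(b.s' / 2)) : ℝ) * u 0) (b.z (Fin.tail u)) := by
  rw [Pb.A, bd_eq, Y.bk_mulVec, Matrix.smul_mulVec]
  funext i
  refine Fin.cases rfl (fun i => rfl) i

theorem A_det (b : Pb C) (h : b.ξ.det ≠ 0) : b.A.det ≠ 0 := by
  rw [Pb.A, bd_eq, Y.bk_det]
  exact mul_ne_zero (exp_ne _) (det_smul_ne _ h)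

variable [MeasurableSpace E] {μ : Measure (E × ℂ)} {P : Par}

/-- **the formula in the chart** -/
theorem p_pt (hG : PG (P.Q C) μ) (b : Pb C) (h : b.ξ.det ≠ 0) {z : Cm n} (hz : z ∈ C.B 4 b.a)
    (w' : ℂ) : b.p P (C.pt b.γ b.a z, w') = F₀ P C b.a b.x b.ξ b.s z *
      (Real.exp b.s' * bmp 1 P.q fun _ => (Real.exp (b.s' / 2) : ℝ) * (w' - b.w)) := by
  have h1 := hG.push_pt (b.γ, b.a) (mv (Fin.cons b.w b.x) b.A (bmp₂ n P.q)) (Fin.cons w' z) hz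
  refine Eq.trans h1 ?_
  have h2 : (((Real.exp (-(b.s' / 2)) : ℝ) : ℂ))⁻¹ = (Real.exp (b.s' / 2) : ℝ) := by
    rw [← Complex.ofReal_inv, ← Real.exp_neg, neg_neg]
  rw [Y.QY_vol C _ hz, mv, Pb.A, bd_eq, Y.bk_inv (exp_ne _) (det_smul_ne _ h), Y.bk_mulVec,
    Y.bk_det, norm_mul, mul_pow, norm_exp_sq, norm_det_smul, h2, Real.exp_neg b.s', F₀]
  change bmp 1 P.q (fun _ => (Real.exp (b.s' / 2) : ℝ) * (w' - b.w)) *
    bmp n P.q (_ *ᵥ (z - b.x)) / _ / (_ * _ * (cHess (C.ρ b.a) z).det.re) = _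
  simp only [div_eq_mul_inv, mul_inv, inv_inv]
  ring

theorem p_out (hG : PG (P.Q C) μ) (b : Pb C) {y : E × ℂ} (h : y.1 ∉ C.pt b.γ b.a '' C.B 4 b.a) :
    b.p P y = 0 :=
  hG.push_out _ _ _ fun ⟨v, hv, e⟩ => h ⟨Fin.tail v, hv, congrArg Prod.fst e⟩

/-- **the product formula** -/
theorem p_eq (hG : PG (P.Q C) μ) (b : Pb C) (h : b.ξ.det ≠ 0) (y : E × ℂ) :
    b.p P y = FF P C b.γ b.a b.x b.ξ b.s y.1 *
      (Real.exp b.s' * bmp 1 P.q fun _ => (Real.exp (b.s' / 2) : ℝ) * (y.2 - b.w)) := by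
  obtain ⟨y, w⟩ := y
  by_cases h1 : y ∈ C.pt b.γ b.a '' C.B 4 b.a
  · obtain ⟨z, hz, rfl⟩ := h1
    rw [p_pt hG b h hz, FF_pt P _ _ _ _ _ hz]
  · rw [p_out hG b h1, FF, indicator_of_notMem h1, zero_mul]

theorem sym (hG : PG (P.Q C) μ) (b : Pb C) (h : b.ξ.det ≠ 0) (g : Γ) {u : ℂ} (c : ℂ) (y : E × ℂ)
    (hu : ‖u‖ = 1) :
    ({ b with γ := g * b.γ, w := u * b.w + c } : Pb C).p P (isoY g u c y) = b.p P y := by
  rw [p_eq hG b h, p_eq hG { b with γ := g * b.γ, w := u * b.w + c } h]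
  refine congrArg₂ (· * ·) (FF_smul P g _ _ _ _ _ _) (congrArg _ (bmp_congr ?_))
  rw [nsq_one, nsq_one, norm_mul, norm_mul]
  change (_ * ‖u * y.2 + c - (u * b.w + c)‖) ^ 2 = _
  rw [add_sub_add_right_eq_sub, ← mul_sub, norm_mul, hu, one_mul]

theorem uni (hG : PG (P.Q C) μ) (b : Pb C) (h : b.ξ.det ≠ 0) {V : Mx n}
    (hV : ∀ u, nsq (V *ᵥ u) = nsq u) : ({ b with ξ := b.ξ * V } : Pb C).p P = b.p P := by
  have h0 : Fr 0 V := fun u => by simp [hV]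
  funext y
  rw [p_eq hG b h, p_eq hG { b with ξ := b.ξ * V }
    ((Matrix.det_mul _ _).trans_ne (mul_ne_zero h (det_ne h0)))]
  exact congrArg (· * _) (congrFun (FF_uni P b.γ b.a b.x b.s hV) _)

theorem supp (hG : PG (P.Q C) μ) (b : Pb C) (hi : (P.Q C).In (b.γ, b.a) (Fin.cons b.w b.x) b.A)
    {y : E × ℂ} (hy : b.p P y ≠ 0) : y ∈ b.Box 1 1 := by
  obtain ⟨u, h1, rfl⟩ := hG.pm_ne _ _ _ _ y (ker₂ P.q_pos (P.q_le.trans_lt (by norm_num))).1 hi hy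
  rw [aff_eq]
  refine ⟨⟨Fin.tail u, ?_, rfl⟩, ?_⟩
  · rw [one_pow]
    exact (bm.supp _ _ _ P.q_pos (right_ne_zero_of_mul h1)).le
  · have h2 := (bm.supp _ _ _ P.q_pos (left_ne_zero_of_mul h1)).le
    rw [nsq_one, sq_le_one_iff₀ (norm_nonneg _)] at h2
    change ‖b.w + _ * u 0 - b.w‖ ≤ _
    rw [add_sub_cancel_left, norm_mul, Complex.norm_real, Real.norm_eq_abs,
      abs_of_pos (Real.exp_pos _), mul_comm]
    exact mul_le_mul_of_nonneg_right h2 (Real.exp_pos _).le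

end S41

end Vale.Agent.P284Y
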