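import Vale.Agent.P284Y.Y.Y4f
import Vale.Agent.P284Y.Y.S41p

/-!
# P284Y, block Y: the rows HD, H, E4, E3' (proof)
-/

set_option linter.all false

open scoped ContDiff Topology ComplexOrder ENNReal Matrix
open Filter Set Function Metric MeasureTheory

noncomputable section

namespace Vale.Agent.P284Y

open Vale.Agent.P272.K Vale.Agent.P284Z Vale.Agent.P284Z.J Real Y.Y4

namespace P58

variable {n : ℕ} {Γ E : Type} [Group Γ] [TopologicalSpace E] [MulAction Γ E] [MeasurableSpace E]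
  [BorelSpace E] {C : Cov n Γ E} {P : Par} {μ : Measure (E × ℂ)} {S : MAS (P.Q C) μ} {K K' c : ℝ}
  {b : Pb C}

theorem ok (hb : b.Ok P) {w : ℂ} {s : ℝ} (hw : ‖w‖ ^ 2 ≤ exp (-9))
    (hs : s ∈ Icc (P.sw b.s / 2) (4 * P.Z * P.sw b.s)) : (b.mv w s).Ok P :=
  ⟨hb.x_mem, hb.fr, hb.lo, hb.hi, hw, hs.1, hs.2⟩

theorem fam (hG : Gen S) (hI : I58 P S K') (hb : b.Ok P) (c0 : 0 < c)
    (hc : ∀ u : Cm 1, bmp 1 P.q u ≤ c⁻¹ ∧ (nsq u ≤ 1 - P.q → c ≤ bmp 1 P.q u)) :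
    Fam C P.β P.m μ (fun w s => (b.mv w s).p P) (S41.FF P C b.γ b.a b.x b.ξ b.s) |log c| := by
  have hd := S41.det_ne hb.fr
  have hk := S41.ker₂ (n := n) P.q_pos (P.q_le.trans_lt (by norm_num))
  have hi : ∀ w s, (P.Q C).In (b.γ, b.a) (Fin.cons w b.x) (b.mv w s).A := fun w s =>
    ⟨S41.A_det (b.mv w s) hd, fun u hu => by
      have h1 := S41.aff_eq (b.mv w s) u
      have h2 := hI.ins b hb (Fin.tail u) ((pi_norm_le_iff_of_nonneg zero_le_one).2 fun i =>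
        (norm_le_pi_norm u i.succ).trans hu)
      rw [Matrix.smul_mulVec] at h2
      exact h1 ▸ h2⟩
  have e : ∀ (s : ℝ) (w : ℂ), nsq (fun _ : Fin 1 => (exp (s / 2) : ℝ) * w) = exp s * ‖w‖ ^ 2 :=
    fun s w => by
      rw [S41.nsq_one, norm_mul, mul_pow, Complex.norm_real, norm_eq_abs, sq_abs, sq (exp _),
        ← exp_add, add_halves]
  have F0 := S41.FF_nonneg (C := C) P b.γ b.a b.x b.ξ b.s
  refine ⟨abs_nonneg _, F0, fun w s => hG.pg.pm_dens _ _ _ _ hk.1 (hi w s), fun w s => ?_,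
    fun w s y => ?_, fun w s y hy => ?_, fun w s y hy => ?_⟩
  · have := hG.pg.pm_int _ _ _ _ (fun _ => 1) hk.1 (hi w s) continuous_const
    simp only [one_mul, hk.2] at this
    exact this
  · rw [S41.p_eq hG.pg (b.mv w s) hd, exp_add]
    refine mul_le_mul_of_nonneg_left (mul_le_mul_of_nonneg_left ((hc _).1.trans ?_) (exp_pos _).le)
      (F0 _)
    rw [← exp_log c0, ← exp_neg, log_exp]
    exact exp_le_exp.2 (neg_le_abs _)
  · rw [S41.p_eq hG.pg (b.mv w s) hd, sub_eq_add_neg s, exp_add]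
    refine mul_le_mul_of_nonneg_left (mul_le_mul_of_nonneg_left (le_trans ?_ ((hc _).2 ?_))
      (exp_pos _).le) (F0 _)
    · exact (exp_le_exp.2 (neg_abs_le _)).trans_eq (exp_log c0)
    · refine ((e s _).trans_le (mul_le_mul_of_nonneg_left hy (exp_pos _).le)).trans ?_
      rw [← exp_add, show s + -(s + 1) = -1 by ring, exp_neg, inv_le_comm₀ (exp_pos _)
        (by linarith [P.q_le])]
      exact (inv_le_of_inv_le₀ two_pos (by linarith [P.q_le])).trans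
        (by linarith [add_one_le_exp 1])
  · rw [S41.p_eq hG.pg (b.mv w s) hd] at hy
    have h1 := (e s _).symm.trans_lt (bm.supp _ _ _ P.q_pos
      (right_ne_zero_of_mul (right_ne_zero_of_mul hy)))
    rwa [exp_neg, ← one_div, lt_div_iff₀' (exp_pos _)]

theorem tr (hG : Gen S) (hb : b.Ok P) {w : ℂ} {s : ℝ} (w' : ℂ) (lam : ℝ)
    (h : (P.Q C).Dens ((b.mv w s).W P lam)) :
    S.G ((b.mv w' s).W P lam) = S.G ((b.mv w s).W P lam) := by
  have hd := S41.det_ne hb.fr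
  have h1 := hG.aut ((Homeomorph.refl E).prodCongr (Homeomorph.addRight (w - w'))) (by
    have := Y.QY_aut C (β := P.β) (m := P.m) 1 (w - w') norm_one
    simp only [one_smul, one_mul] at this
    exact this) _ h
  refine Eq.trans (congrArg _ (funext fun y => congrArg (exp lam * ·) ?_)) h1.2
  rw [S41.p_eq hG.pg (b.mv w s) hd, S41.p_eq hG.pg (b.mv w' s) hd]
  change _ = _ * (_ * bmp 1 P.q fun _ => _ * (y.2 + (w - w') - w))
  rw [show y.2 + (w - w') - w = y.2 - w' by ring]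
  rfl

theorem cx (hG : Gen S) (hI : I58 P S K') (hb : b.Ok P) {F : E → ℝ} {a Λ : ℝ}
    (hF : Fam C P.β P.m μ (fun w s => (b.mv w s).p P) F a) (h1 : 1 ≤ K) (h2 : K' ≤ K) (h3 : a ≤ K)
    (h4 : K ≤ P.Z) (hΛ : Λ ∈ Icc (P.t * b.s / 2) (P.t * b.s)) :
    Cx S (fun w s => (b.mv w s).p P) F a K P.Z P.B (P.sw b.s) Λ := by
  have s0 := P.lo_pos.trans_le hb.lo
  have s1 := P.le_sw s0.le
  have t0 := mul_pos P.t_pos s0
  have dn := fun w s => hG.pg.dens_smul _ _ (exp_pos Λ).le (hF.dens w s)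
  refine ⟨hG, hF, rfl, h1, h3, P.Z_ge', h4, (P.pow_le (by norm_num)).trans
    (P.pow_le_lo.trans (hb.lo.trans s1)), (mul_le_mul_of_nonneg_right (P.pow_le (by norm_num))
      (by linarith)).trans (P.sw_le_B hb.hi), P.B_mul_sw _ ▸ hΛ.1, P.B_mul_sw _ ▸ hΛ.2,
    fun w s ν lam hw hs hν hl h y hy => ?_, fun w s hw hs => ?_, fun k c s hk hc hs h y hy => ?_⟩
  · linarith [hI.dom _ ν lam (ok hb hw hs) hν (hl.trans hΛ.2) h y hy,
      mul_le_mul_of_nonneg_right h2 P.B_pos.le]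
  · refine (hI.mass _ Λ (ok hb hw hs) hΛ).trans ?_
    rw [tr hG hb w Λ (dn 0 s)]
    exact mul_le_mul_of_nonneg_right h2 (div_nonneg (hG.G_nonneg _ (dn 0 s)) (by linarith [hΛ.1]))
  · rw [Finset.smul_sum]
    refine hI.bar ℕ (Finset.range k) (fun i => b.mv (c i) s) Λ (fun i _ => ok hb (hc i) hs)
      (by rw [Finset.card_range]; exact_mod_cast hk) (fun _ _ => hΛ.2) ?_ y hy
    change ∑ _i ∈ Finset.range k, P.t * b.s / s ≤ _
    rw [Finset.sum_const, Finset.card_range, nsmul_eq_mul, ← P.B_mul_sw, ← mul_div_assoc,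
      div_le_iff₀ (by linarith [hs.1])]
    linarith [mul_le_mul_of_nonneg_left h P.B_pos.le]

theorem M_le {s M : ℝ} (h : M ∈ Icc P.M₀ (P.M₁ s)) : (P.Z : ℝ) ^ 2 * M ≤ P.sw s := by
  have h1 := h.2
  rwa [Par.M₁, Par.L, div_right_comm, le_div_iff₀' (pow_pos P.Z_pos 2)] at h1

end P58

open P58 in
/-- **HD, H, E4, E3'** -/
theorem st58 : St58 := by
  intro K'
  obtain ⟨c, c0, hc⟩ := bm.bd 1
  obtain ⟨Z₀, hZ⟩ := exists_nat_ge (max 1 (max K' |log c|))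
  set K := max 1 (max K' |log c|)
  refine ⟨10000 * K ^ 2, Z₀, by positivity, fun n Γ E _ _ _ _ _ _ C P hP μ S hG hI => ?_⟩
  have hF := fun b hb => fam (b := b) hG hI hb c0 (hc _ P.q_pos (P.q_le.trans (by norm_num)))
  have h := fun b hb Λ => cx (K := K) (Λ := Λ) hG hI hb (hF b hb) (le_max_left _ _)
    (le_max_of_le_right (le_max_left _ _)) (le_max_of_le_right (le_max_right _ _))
    (hZ.trans (by exact_mod_cast hP))
  have t := fun (b : Pb C) hb w s Λ => tr (w := 0) (s := s) hG hb w Λ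
    (hG.pg.dens_smul _ _ (exp_pos Λ).le ((hF b hb).dens 0 s))
  have e : ∀ (b : Pb C) Λ, b.Ok P → b.s' = P.sw b.s →
      S.G (b.W P Λ) = S.G ((b.mv 0 (P.sw b.s)).W P Λ) := fun b Λ hb hs =>
    hs ▸ t b hb b.w b.s' Λ
  have e' : ∀ b : Pb C, b.w = 0 → b.s' = P.sw b.s → b.W P = (b.mv 0 (P.sw b.s)).W P :=
    fun b hw hs => by rw [← hs, ← hw]; rfl
  refine ⟨fun b τ lam hb => (t b hb τ _ lam).trans (t b hb b.w _ lam).symm,
    fun b s M K₁ Λ ν hb hw hs h2 hM hM' hΛ hK hν h3 h4 => ?_, fun b τ s Λ hb hs h2 hΛ => ?_,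
    fun b τ N k M Λ hb hs hN hNZ k1 k2 hM hτ hΛ => ?_,
    fun b τ N M Λ hb hw hs hN hNZ hM hτ hΛ => ?_⟩
  · rw [e' b hw hs] at h4 ⊢
    exact (h b hb Λ hΛ).hd ⟨h2.lo', h2.hi'⟩ hM hM' hK hν h3 h4
  · rw [e b Λ hb hs, t b hb]
    refine ((h b hb Λ hΛ).hh ⟨h2.lo', h2.hi'⟩).trans (mul_le_mul_of_nonneg_right
      (mul_le_mul_of_nonneg_right (by nlinarith [sq_nonneg K]) P.Z_pos.le) ?_)
    exact add_nonneg (h b hb Λ hΛ).c0 zero_le_one
  · have h1 := (h b hb Λ hΛ).e4r hN (by exact_mod_cast hNZ) k1 k2 hM.1 (M_le hM) hτ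
    rw [Finset.smul_sum] at h1
    rw [e b Λ hb hs, t b hb]
    exact h1
  · rw [t b hb, e' b hw hs]
    exact (h b hb Λ hΛ).e3r hN (by exact_mod_cast hNZ) hM.1 (M_le hM) hτ

end Vale.Agent.P284Y
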