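import Vale.Agent.P284Y.Y.Bg

/-!
# P284Y, block Y: the rows E1 and E2 without parameters
-/

set_option linter.all false

open scoped ContDiff Topology ComplexOrder
open Filter Set Function MeasureTheory

noncomputable section

namespace Vale.Agent.P284Y.Y

open Vale.Agent.P272.K Vale.Agent.P284Z Vale.Agent.P284Z.J Real Bq

section gen
variable {N : ℕ} {M : Type} {Q : Pat N M} [TopologicalSpace M] [MeasurableSpace M] {μ : Measure M}
  {S : MAS Q μ} {ν ν' p : M → ℝ}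

theorem I_shift (hG : Gen S) (hν : Q.Dens ν) (hp : Q.Dens p) {Λ K : ℝ} (hK : 0 ≤ K) :
    S.G (ν + exp Λ • p) - S.G (ν + exp (Λ - K) • p) ≤ K * S.msl 0 p Λ := by
  have h := hG.cmpI ν p ν p (Λ - K) Λ 1 0 0 0 (S.msl 0 p Λ) hν hp hν hp (by linarith)
    fun lam hl => by
      have h1 := hG.pg.dens_smul _ p (exp_pos lam).le hp
      have := hG.ms_mono _ _ _ _ (hG.pg.dens_add _ _ hν h1) (hG.pg.dens_add _ _ hG.pg.dens_zero h1)
        h1 h1 (add_le_add_left (fun y => hν.nonneg y) _) le_rfl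
      have := hG.msl_mono 0 p hG.pg.dens_zero hp hl.2
      simp only [MAS.msl] at *
      linarith
  linarith

theorem I_cmp (hG : Gen S) (hν : Q.Dens ν) (hν' : Q.Dens ν') (hp : Q.Dens p) {Λ K : ℝ}
    (h : ∀ lam ≤ Λ - K, S.msl ν p lam ≤ S.msl ν' p (lam + K)) :
    S.I (exp (Λ - K) • p) ν ≤ S.I (exp Λ • p) ν' := by
  have p0 : 0 ≤ ∫ y, p y ∂μ := integral_nonneg hp.nonneg
  have t : Tendsto (fun a => S.I (exp Λ • p) ν' + exp a * ∫ y, p y ∂μ) atBot
      (𝓝 (S.I (exp Λ • p) ν' + 0 * ∫ y, p y ∂μ)) :=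
    tendsto_const_nhds.add (tendsto_exp_atBot.mul_const _)
  rw [zero_mul, add_zero] at t
  refine ge_of_tendsto t ((eventually_le_atBot (Λ - K)).mono fun a ha => ?_)
  have h1 := hG.cmpI ν p ν' p a (Λ - K) 1 1 1 K 0 hν hp hν' hp ha fun lam hl => by
    simpa using h lam hl.2
  have h2 := hG.pg.dens_smul _ p (exp_pos a).le hp
  have h3 := hG.pg.dens_smul _ p (exp_pos (a + K)).le hp
  have h4 := hG.G_le ν _ _ hν (hG.pg.dens_add _ _ hν h2) h2 le_rfl
  have h5 := hG.ms_le ν p 0 hν hp fun y _ => S.nonpos ν hν y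
  have h6 := hG.G_mono _ _ hν' (hG.pg.dens_add _ _ hν' h3) (le_add_of_nonneg_right h3.nonneg)
  rw [hG.ms_smul] at h4
  rw [exp_zero, one_mul] at h5
  simp only [one_mul, zero_mul, add_zero, sub_add_cancel] at h1
  simp only [MAS.I]
  linarith [mul_le_mul_of_nonneg_left h5 (exp_pos a).le]

end gen

variable {n : ℕ} {Γ E : Type} [Group Γ] [TopologicalSpace E] [MulAction Γ E] [MeasurableSpace E]
  {C : Cov n Γ E} {β m : ℝ} {μ : Measure (E × ℂ)} {S : MAS (QY C β m) μ} {X ν p : E × ℂ → ℝ}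
  {M δ κ : ℝ}

theorem Bg.free (hG : Gen S) (hX : (QY C β m).Dens X) (h : Bg S X M δ κ ν) :
    S.G (ν + X) ≤ S.G X + κ :=
  (hG.G_le X _ ν hX (hG.pg.dens_add _ _ h.dens hX) h.dens (add_comm ν X).le).trans
    (add_le_add_right h.cost _)

/-- **E1**, upper bound -/
theorem e1u (hG : Gen S) (hX : (QY C β m).Dens X) (h : Bg S X M δ κ ν)
    (hp : (QY C β m).Dens p) : S.I p X ≤ S.I p ν + κ := by
  have h1 := hG.pg.dens_add _ _ h.dens hX
  have h2 := hG.sub ν (ν + X) p h.dens h1 hp (le_add_of_nonneg_right hX.nonneg)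
  have h3 := hG.G_mono _ _ (hG.pg.dens_add _ _ hX hp) (hG.pg.dens_add _ _ h1 hp)
    (add_le_add_left (le_add_of_nonneg_left h.dens.nonneg) p)
  have h4 := h.free hG hX
  simp only [MAS.I] at *
  linarith

/-- a pole at `τ` costs `b log |w - τ|²` -/
theorem pole_low (hG : Gen S) (hX : (QY C β m).Dens X) (hp : (QY C β m).Dens p) {τ : ℂ}
    {r sb L b : ℝ} (hs : ∀ y, p y ≠ 0 → ‖y.2 - τ‖ ^ 2 ≤ exp (-sb)) (hb : ∀ y, p y ≤ exp L)
    (b0 : 0 ≤ b) (hL : L + b ≤ b * sb) (s0 : 0 ≤ sb) (hXr : ∀ y, X y ≠ 0 → ‖y.2‖ ≤ r)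
    (hr : 2 * ‖τ‖ ≤ r) (hr' : 4 * exp (-sb) ≤ r ^ 2) (r1 : r ≤ 1)
    (hg : Glu S X r (b * (4 - log (r ^ 2)) + 1)) (y : E × ℂ) (hy : ‖y.2‖ < 1 / 2) :
    S.φ X y + b * log (‖y.2 - τ‖ ^ 2 + exp (-sb)) - (2 * b + 3) ≤ S.φ (X + p) y := by
  have hP := hG.pg
  have e0 := exp_pos (-sb)
  have r0 : 0 < r := lt_of_le_of_ne (le_trans (by positivity) hr) fun o => by
    rw [← o] at hr'
    linarith
  have l2 : log 2 ≤ 1 := by linarith [log_two_lt_d9]
  have := (hg (X + p) (fun x => S.φ X x + b * log (‖x.2 - τ‖ ^ 2 + exp (-sb)) + -(2 * b + 1))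
    (hP.dens_add _ _ hX hp) (fun x o => ?_) ?_ (fun x hx => ?_) fun x hx => ?_).1 y hy
  · linarith
  · by_cases o' : X x = 0
    · have h1 := hs x fun o'' => o (by rw [Pi.add_apply, o', o'', add_zero])
      have h2 : ‖x.2 - τ‖ ≤ r / 2 := (pow_le_pow_iff_left₀ (norm_nonneg _) (by positivity)
        two_ne_zero).1 (by linarith)
      linarith [norm_le_insert' x.2 τ]
    · exact hXr x o'
  · have := hG.cont _ hX
    have : Continuous fun x : E × ℂ => log (‖x.2 - τ‖ ^ 2 + exp (-sb)) :=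
      Continuous.log (by fun_prop) fun x => by positivity
    fun_prop
  · have h1 : log (‖x.2 - τ‖ ^ 2 + exp (-sb)) ≤ 2 := (log_le_iff_le_exp (by positivity)).2 (by
      have h2 : ‖x.2 - τ‖ ≤ 3 / 2 := by linarith [norm_sub_le x.2 τ]
      have h3 := pow_le_pow_left₀ (norm_nonneg _) h2 2
      have h4 := exp_le_one_iff.2 (neg_nonpos.2 s0)
      have h5 := pow_le_pow_left₀ (by norm_num) (add_one_le_exp (1 : ℝ)) 2
      rw [← exp_nat_mul] at h5
      norm_num at h3 h5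
      linarith)
    have h2 := mul_le_mul_of_nonneg_left h1 b0
    have t0 := S.nonpos _ hX x
    refine ⟨by linarith, ?_⟩
    obtain ⟨b1, b2⟩ := hG.sp _ hX x trivial
    have hk : PW n (fun w => b * log (‖w - τ‖ ^ 2 + exp (-sb))) x.2 := (pw_lg τ e0).cmul b0
    obtain ⟨c1, c2⟩ := addW hP S.ok b1 b2 hk
    refine hP.tch _ _ _ x (sm_ad (sm_ad b1 hk.sm) (sm_c _)) (psd_ac (sm_ad b1 hk.sm) S.ok c1 _) rfl
      (Eventually.of_forall fun _ => le_rfl) ?_
    rw [hP.ma_congr _ _ (-(2 * b + 1)) x (Eventually.of_forall fun _ => rfl)]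
    refine le_trans ?_ c2
    rw [hG.ma _ hX, Pi.add_apply, ← add_assoc, mul_add]
    have h3 : ∀ t u : ℝ, t ≤ u - 1 → exp t ≤ exp u / 2 := fun t u h => by
      refine (exp_le_exp.2 h).trans ?_
      rw [exp_sub]
      exact div_le_div_of_nonneg_left (exp_pos _).le two_pos (by linarith [add_one_le_exp (1 : ℝ)])
    have x0 := hX.nonneg x
    have h4 := mul_le_mul_of_nonneg_right (h3 (S.φ X x + b * log (‖x.2 - τ‖ ^ 2 + exp (-sb)) +
      -(2 * b + 1)) (S.φ X x) (by linarith)) (by linarith : 0 ≤ 1 + X x)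
    have h5 : exp (S.φ X x + b * log (‖x.2 - τ‖ ^ 2 + exp (-sb)) + -(2 * b + 1)) * p x ≤
        exp (S.φ X x) / 2 := by
      by_cases o : p x = 0
      · rw [o, mul_zero]
        positivity
      have h6 : log (‖x.2 - τ‖ ^ 2 + exp (-sb)) ≤ 1 - sb := by
        rw [log_le_iff_le_exp (by positivity), sub_eq_add_neg 1, exp_add]
        nlinarith [hs x o, add_one_le_exp (1 : ℝ)]
      refine (mul_le_mul_of_nonneg_left (hb x) (exp_pos _).le).trans ?_
      rw [← exp_add]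
      exact h3 _ _ (by nlinarith [mul_le_mul_of_nonneg_left h6 b0])
    nlinarith [exp_pos (S.φ X x)]
  · have h1 : r / 2 ≤ ‖x.2 - τ‖ := by linarith [norm_sub_norm_le x.2 τ]
    have h2 : log ((r / 2) ^ 2) ≤ log (‖x.2 - τ‖ ^ 2 + exp (-sb)) := log_le_log (by positivity)
      ((pow_le_pow_left₀ (by positivity) h1 2).trans (le_add_of_nonneg_right e0.le))
    rw [div_pow, log_div (by positivity) (by positivity), log_pow 2 2] at h2
    push_cast at h2
    nlinarith [mul_le_mul_of_nonneg_left h2 b0]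

/-- **E1**, lower bound -/
theorem e1l (hG : Gen S) (hX : (QY C β m).Dens X) (h : Bg S X M δ κ ν)
    (hp : (QY C β m).Dens p) {τ : ℂ} {r sb Λ L b : ℝ} (δ0 : 0 ≤ δ) (M0 : 2 ≤ M)
    (hτ : ‖τ‖ ^ 2 = exp (-M)) (hs : ∀ y, p y ≠ 0 → ‖y.2 - τ‖ ^ 2 ≤ exp (-sb)) (hsb : M + 4 ≤ sb)
    (hb : ∀ y, exp Λ * p y ≤ exp L) (b0 : 0 ≤ b) (hL : L + b ≤ b * sb)
    (hX0 : ∀ y, X y ≠ 0 → ‖y.2‖ ^ 2 ≤ exp (-(M + 1))) (hr : 2 * ‖τ‖ ≤ r) (r1 : r ≤ 1)
    (hg : Glu S X r (b * (4 - log (r ^ 2)) + 1)) :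
    S.I (exp Λ • p) ν ≤ S.I (exp Λ • p) X + (δ + b * (M + 6) + 3) * S.msl 0 p Λ := by
  have hP := hG.pg
  set K := δ + b * (M + 6) + 3 with hK
  have K0 : 0 ≤ K := by positivity
  have t0 : 0 < ‖τ‖ := norm_pos_iff.2 (ne_of_gt hτ.ge)
  have ex : ∀ a : ℝ, exp (-(M + a)) = ‖τ‖ ^ 2 * exp (-a) := fun a => by
    rw [hτ, ← exp_add, neg_add]
  have e1 : exp (-1) ≤ (1 / 2 : ℝ) := by
    rw [exp_neg, one_div]
    exact inv_anti₀ two_pos (by linarith [add_one_le_exp (1 : ℝ)])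
  have t1 : ‖τ‖ ≤ 2 / 5 := (pow_le_pow_iff_left₀ t0.le (by norm_num) two_ne_zero).1 (by
    have h1 : exp (-M) ≤ exp (-1) * exp (-1) := by
      rw [← exp_add]
      exact exp_le_exp.2 (by linarith)
    nlinarith [exp_neg_one_lt_d9, exp_pos (-1 : ℝ)])
  have s0 : exp (-(M + 4)) ≤ ‖τ‖ ^ 2 / 32 := by
    have h1 : exp (-4 : ℝ) = (exp (-1) * exp (-1)) * (exp (-1) * exp (-1)) := by
      simp only [← exp_add]
      norm_num
    have h2 : exp (-1 : ℝ) * exp (-1) ≤ 1 / 6 := by nlinarith [exp_neg_one_lt_d9, exp_pos (-1 : ℝ)]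
    rw [ex, h1, div_eq_mul_inv]
    refine mul_le_mul_of_nonneg_left ?_ (by positivity)
    nlinarith [mul_pos (exp_pos (-1 : ℝ)) (exp_pos (-1 : ℝ))]
  have s1 := (exp_le_exp.2 (neg_le_neg hsb)).trans s0
  have d1 : ∀ w : ℂ, ‖w - τ‖ ≤ ‖τ‖ / 4 → exp (-(M + 1)) < ‖w‖ ^ 2 ∧ ‖w‖ ≤ 1 / 2 := fun w hw => by
    have h1 : 3 / 4 * ‖τ‖ ≤ ‖w‖ := by linarith [norm_le_insert w τ]
    refine ⟨?_, by linarith [norm_le_insert' w τ]⟩
    rw [ex]
    nlinarith [pow_le_pow_left₀ (by positivity) h1 2, pow_pos t0 2]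
  have key : ∀ lam ≤ Λ - K, ∀ y : E × ℂ, ‖y.2 - τ‖ < ‖τ‖ / 5 →
      S.φ (ν + exp lam • p) y - K ≤ S.φ (X + exp (lam + K) • p) y := by
    intro lam hl
    have p1 := hP.dens_smul _ p (exp_pos lam).le hp
    have p2 := hP.dens_smul _ p (exp_pos (lam + K)).le hp
    have n1 := hP.dens_add _ _ h.dens p1
    refine hG.vc _ {y | ‖y.2 - τ‖ < ‖τ‖ / 5} (fun y => S.φ (ν + exp lam • p) y - K)
      (hP.dens_add _ _ hX p2) (isOpen_lt (by fun_prop) continuous_const)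
      (Continuous.continuousOn (by have := hG.cont _ n1; fun_prop)).upperSemicontinuousOn
      (fun y hy => ?_) (fun ε hε => ⟨∅, isCompact_empty, fun y _ => by
        linarith [S.nonpos _ n1 y]⟩) fun y hy _ => ?_
    · have h1 : ‖y.2 - τ‖ = ‖τ‖ / 5 := frontier_lt_subset_eq (f := fun y : E × ℂ => ‖y.2 - τ‖)
        (by fun_prop) continuous_const hy
      have h2 := pole_low hG hX p2 (τ := τ) (sb := sb) (L := L)
        (fun x o => hs x (right_ne_zero_of_mul o)) (fun x => le_trans (mul_le_mul_of_nonneg_right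
          (exp_le_exp.2 (by linarith)) (hp.nonneg x)) (hb x)) b0 hL (by linarith)
        (fun x o => (pow_le_pow_iff_left₀ (norm_nonneg _) (by linarith) two_ne_zero).1
          ((hX0 x o).trans (by rw [ex]; nlinarith [pow_pos t0 2]))) hr (by nlinarith) r1 hg y
        (by linarith [norm_le_insert' y.2 τ])
      have h3 := h.up y ((exp_le_exp.2 (by linarith)).trans (d1 y.2 (by linarith)).1.le)
      have h4 := hG.mono _ _ h.dens n1 (le_add_of_nonneg_right p1.nonneg) y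
      have h5 : -(M + 4) ≤ log (‖y.2 - τ‖ ^ 2 + exp (-sb)) :=
        (le_log_iff_exp_le (by positivity)).2 (by rw [h1]; nlinarith [exp_pos (-sb), pow_pos t0 2])
      nlinarith [mul_le_mul_of_nonneg_left h5 b0]
    · obtain ⟨b1, b2⟩ := hG.sp _ n1 y trivial
      have h1 := (d1 y.2 (by have : ‖y.2 - τ‖ < ‖τ‖ / 5 := hy; linarith)).1
      refine hP.tch (fun x => S.φ (ν + exp lam • p) x + -K) _ _ y (sm_ad b1 (sm_c _))
        (psd_ac b1 S.ok b2 _) rfl (Eventually.of_forall fun _ => le_rfl) ?_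
      rw [hP.ma_congr _ _ (-K) y (Eventually.of_forall fun _ => rfl), hG.ma _ n1, Pi.add_apply,
        Pi.add_apply, not_not.1 fun o => (hX0 y o).not_gt h1,
        not_not.1 fun o => (h.supp y o).2.not_gt h1, zero_add, zero_add, Pi.smul_apply,
        Pi.smul_apply, smul_eq_mul, smul_eq_mul]
      beta_reduce
      rw [sub_eq_add_neg, exp_add, mul_assoc, mul_add, ← mul_assoc (exp (-K)), ← exp_add,
        neg_add_cancel_comm_assoc, mul_one]
      exact mul_le_mul_of_nonneg_left (add_le_add_left (exp_le_one_iff.2 (neg_nonpos.2 K0)) _)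
        (exp_pos _).le
  have h1 := I_cmp hG h.dens hX hp (Λ := Λ) (K := K) fun lam hl => by
    have p1 := hP.dens_smul _ p (exp_pos lam).le hp
    have p2 := hP.dens_smul _ p (exp_pos (lam + K)).le hp
    refine integral_mono (hP.dens_int _ _ p1 (continuous_exp.comp (hG.cont _
      (hP.dens_add _ _ h.dens p1)))) (hP.dens_int _ _ p2 (continuous_exp.comp (hG.cont _
      (hP.dens_add _ _ hX p2)))) fun y => ?_
    by_cases o : p y = 0
    · simp [o]
    have h2 := key lam hl y (lt_of_pow_lt_pow_left₀ 2 (by positivity) (by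
      nlinarith [hs y o, pow_pos t0 2]))
    simp only [Pi.smul_apply, smul_eq_mul, ← mul_assoc, ← exp_add]
    exact mul_le_mul_of_nonneg_right (exp_le_exp.2 (by linarith)) (hp.nonneg y)
  have h2 := I_shift hG h.dens hp (Λ := Λ) K0
  simp only [MAS.I] at *
  linarith

/-- the pins on a circle -/
theorem Bg.pin (hG : Gen S) (hR : Rot C β m) (hp : (QY C β m).Dens p) (hi : RInv p) {Λ : ℝ}
    (h : Bg S (exp Λ • p) M δ κ ν) {t lam : ℝ} (ht : 0 ≤ t) (hl : lam ≤ Λ + t) {ν' : E × ℂ → ℝ}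
    (hν' : (QY C β m).Dens ν') (x : E) {w w' : ℂ} (hw : ‖w‖ = ‖w'‖)
    (hw' : exp (-(M + 4)) ≤ ‖w'‖ ^ 2) :
    S.φ (ν + ν') (x, w') - (δ + t + 4) ≤ S.φ (ν + exp lam • p) (x, w) := by
  have hP := hG.pg
  have hX := hP.dens_smul _ p (exp_pos Λ).le hp
  have w0 := ne_of_gt hw'
  have h1 := inv_φ hG hR hX (fun u hu y => congrArg (exp Λ * ·) (hi u hu y)) (w / w')
    (by rw [norm_div, hw, div_self (norm_ne_zero_iff.2 w0)]) (x, w')
  simp only [div_mul_cancel₀ w w0] at h1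
  have h2 := hG.mono _ _ h.dens (hP.dens_add _ _ h.dens hν') (le_add_of_nonneg_right hν'.nonneg)
    (x, w')
  have h3 := hG.cmp _ _ t (hP.dens_add _ _ h.dens hX)
    (hP.dens_add _ _ h.dens (hP.dens_smul _ p (exp_pos lam).le hp)) ht (fun y => by
      have h4 := mul_le_mul_of_nonneg_right (exp_le_exp.2 hl) (hp.nonneg y)
      have h5 := le_mul_of_one_le_left (add_nonneg zero_le_one (h.dens.nonneg y)) (one_le_exp ht)
      rw [exp_add] at h4
      simp only [Pi.add_apply, Pi.smul_apply, smul_eq_mul]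
      linarith) (x, w)
  linarith [h.up (x, w') hw', h.low (x, w)]

/-- **E2**, the algebra -/
theorem e2_alg {g O sw s' M e κ g' I I' : ℝ} (h0 : 0 ≤ M) (h1 : M < sw) (h2 : M < s')
    (hH : g * sw ≤ s' * (g' + e)) (hg : g' ≤ O + I') (hI : I ≤ g - O + κ)
    (hD : (s' - M) * I' ≤ (sw - M) * I + e * (s' - M)) :
    g * M * (s' - sw) ≤ s' * (O * (s' - sw) + κ * (sw - M) + 2 * e * (s' - M)) := by
  have h3 := mul_le_mul_of_nonneg_left hI (sub_pos.2 h1).le
  have h4 := mul_le_mul_of_nonneg_left hg (sub_pos.2 h2).le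
  have h5 := mul_le_mul_of_nonneg_left hH (sub_pos.2 h2).le
  have h6 : (s' - M) * (g' + e) ≤ (sw - M) * g + (O * (s' - sw) + κ * (sw - M) +
    2 * e * (s' - M)) := by linarith
  nlinarith [mul_le_mul_of_nonneg_left h6 (h0.trans h2.le)]

end Vale.Agent.P284Y.Y
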