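import Vale.Agent.P284Y.Y.R61
import Vale.Agent.P284Y.Y.E12
import Vale.Agent.P284Y.Y9.Par

/-!
# P284Y, block Y: the rows Y5, E1, E2, E3
-/

set_option linter.all false

open Filter Set Function MeasureTheory

noncomputable section

namespace Vale.Agent.P284Y.Y

open Vale.Agent.P272.K Vale.Agent.P284Z Real Bq

namespace P61

theorem alg_up {c O sw M z a ε : ℝ} (hz : 100 ≤ z) (hM : z ^ 4 ≤ M) (hs : 0 < sw) (c0 : 0 ≤ c)
    (O0 : 0 ≤ O) (a0 : 0 ≤ a) (ha : a ≤ z * (z + 2) * (c + 1)) (ε0 : 0 ≤ ε) (hε : 4 * z ^ 2 * ε ≤ 1)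
    (h : c * sw * (M + 3) * (sw - sw / z - sw) ≤ (sw - sw / z) * (O * (sw - sw / z - sw) +
      1 * (sw - (M + 3)) + 2 * (a + ε * O) * (sw - sw / z - (M + 3)))) :
    O - c * M ≤ 30 / z * ((c + 1) * M) := by
  obtain ⟨u, rfl⟩ : ∃ u, sw = z * u := ⟨sw / z, by field_simp⟩
  have z0 : 0 < z := by linarith
  have u0 : 0 < u := (mul_pos_iff_of_pos_left z0).1 hs
  have M0 : 0 ≤ M := le_trans (by positivity) hM
  have e0 : 0 ≤ a + ε * O := by positivity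
  rw [mul_div_cancel_left₀ _ z0.ne'] at h
  have h1 : (z * u - u) * (1 * (z * u - (M + 3)) + 2 * (a + ε * O) * (z * u - u - (M + 3))) ≤
      (z * u) * (z * u + 2 * (a + ε * O) * (z * u)) := by
    refine (mul_le_mul_of_nonneg_left (add_le_add (by linarith : _ ≤ z * u)
      (mul_le_mul_of_nonneg_left (by linarith : _ ≤ z * u) (by positivity))) (by nlinarith)).trans
      (mul_le_mul_of_nonneg_right (by linarith) (by positivity))
  have h2 : (z - 1) * O ≤ c * z * (M + 3) + z ^ 2 * (1 + 2 * (a + ε * O)) :=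
    le_of_mul_le_mul_left (by nlinarith) (mul_pos u0 u0)
  have h3 : 2 * z ^ 2 * (ε * O) ≤ O := by nlinarith
  have h4 : z ^ 2 * a ≤ 2 * ((c + 1) * M) := by
    have := mul_le_mul_of_nonneg_left ha (sq_nonneg z)
    have h5 : z ^ 2 * (z * (z + 2)) ≤ 2 * M := by nlinarith [pow_pos z0 3]
    nlinarith
  have h5 : z ^ 2 ≤ M := le_trans (pow_le_pow_right₀ (by linarith) (by norm_num)) hM
  have h6 : c * z * 3 ≤ c * M := by
    rw [mul_assoc]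
    exact mul_le_mul_of_nonneg_left (le_trans (by nlinarith) h5) c0
  have h7 : (z - 2) * (O - c * M) ≤ 8 * ((c + 1) * M) := by nlinarith
  rw [div_mul_eq_mul_div, le_div_iff₀ z0]
  by_cases o : O - c * M ≤ 0
  · exact (mul_nonpos_of_nonpos_of_nonneg o z0.le).trans (by positivity)
  · nlinarith

theorem alg_lo {c O sw M z a ε : ℝ} (hz : 100 ≤ z) (hM : z ^ 4 ≤ M) (hs : 0 < sw) (c0 : 0 ≤ c)
    (O0 : 0 ≤ O) (a0 : 0 ≤ a) (ha : a ≤ z * (z + 2) * (c + 1)) (ε0 : 0 ≤ ε) (hε : 4 * z ^ 2 * ε ≤ 1)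
    (h : c * sw * (M + 3) * (sw + sw / z - sw) ≤ (sw + sw / z) * (O * (sw + sw / z - sw) +
      1 * (sw - (M + 3)) + 2 * (a + ε * O) * (sw + sw / z - (M + 3)))) :
    c * M - O ≤ 30 / z * ((c + 1) * M) := by
  obtain ⟨u, rfl⟩ : ∃ u, sw = z * u := ⟨sw / z, by field_simp⟩
  have z0 : 0 < z := by linarith
  have u0 : 0 < u := (mul_pos_iff_of_pos_left z0).1 hs
  have M0 : 0 ≤ M := le_trans (by positivity) hM
  have e0 : 0 ≤ a + ε * O := by positivity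
  rw [mul_div_cancel_left₀ _ z0.ne'] at h
  have h0 : z * u + u ≤ 5 / 4 * (z * u) := by nlinarith
  have h1 : (z * u + u) * (1 * (z * u - (M + 3)) + 2 * (a + ε * O) * (z * u + u - (M + 3))) ≤
      (5 / 4 * (z * u)) * (z * u + 2 * (a + ε * O) * (5 / 4 * (z * u))) := by
    refine (mul_le_mul_of_nonneg_left (add_le_add (by linarith : _ ≤ z * u)
      (mul_le_mul_of_nonneg_left (by linarith : _ ≤ 5 / 4 * (z * u)) (by positivity)))
      (by positivity)).trans (mul_le_mul_of_nonneg_right h0 (by positivity))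
  have h2 : c * z * (M + 3) ≤ (z + 1) * O + z ^ 2 * (5 / 4 + 25 / 8 * (a + ε * O)) :=
    le_of_mul_le_mul_left (by nlinarith) (mul_pos u0 u0)
  have h3 : 4 * z ^ 2 * (ε * O) ≤ O := by nlinarith
  have h4 : z ^ 2 * a ≤ 2 * ((c + 1) * M) := by
    have := mul_le_mul_of_nonneg_left ha (sq_nonneg z)
    have h5 : z ^ 2 * (z * (z + 2)) ≤ 2 * M := by nlinarith [pow_pos z0 3]
    nlinarith
  have h5 : z ^ 2 ≤ M := le_trans (pow_le_pow_right₀ (by linarith) (by norm_num)) hM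
  rw [div_mul_eq_mul_div, le_div_iff₀ z0]
  by_cases o : c * M - O ≤ 0
  · exact (mul_nonpos_of_nonpos_of_nonneg o z0.le).trans (by positivity)
  · nlinarith [mul_nonneg c0 z0.le]

theorem alg_c {z M N B : ℝ} (hz : 100 ≤ z) (hM : z * z ≤ M) (n1 : 1 ≤ N) (n2 : N ≤ z) (hB : 1 ≤ B) :
    z * B + 2 * B / N * (M + 6) + 3 ≤ 5 * (M / N) * B := by
  have k0 := mul_le_mul_of_nonneg_left n2 (by linarith : 0 ≤ z)
  have k1 : z ≤ M / N := (le_div_iff₀ (by positivity)).2 (by linarith)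
  have k2 : 6 / N ≤ M / N / 2 := by
    rw [div_right_comm]
    exact div_le_div_of_nonneg_right (by nlinarith) (by positivity)
  rw [show 2 * B / N * (M + 6) = 2 * (M / N + 6 / N) * B by ring]
  nlinarith

variable {n : ℕ} {Γ E : Type} [Group Γ] [TopologicalSpace E] [MulAction Γ E] [MeasurableSpace E]
  {C : Cov n Γ E} {μ : Measure (E × ℂ)}

theorem glu_mono {β m : ℝ} {S : MAS (QY C β m) μ} {X : E × ℂ → ℝ} {r K K' : ℝ} (h : Glu S X r K)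
    (hK : K' ≤ K) : Glu S X r K' := fun ν ψ h1 h2 h3 h4 h5 =>
  h ν ψ h1 h2 h3 h4 fun y hy => by linarith [h5 y hy]

variable {P : Par} {S : MAS (P.Q C) μ} {K₁ K₂ K₃ K : ℝ} {b b' : Pb C}

theorem num (h : b.Ok P) : (P.Z : ℝ) ^ 8 ≤ b.s ∧ P.Z * b.s ≤ P.sw b.s ∧ (P.Z : ℝ) ^ 8 ≤ P.sw b.s ∧
    100 ≤ P.sw b.s ∧ 4 * P.Z * P.sw b.s ≤ P.B := by
  have h1 := P.pow_le_lo.trans h.lo
  have h2 : 0 ≤ b.s := le_trans (by positivity) h1
  have h3 := h1.trans (P.le_sw h2)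
  refine ⟨h1, ?_, h3, (P.Z_ge'.trans (P.Z_le_pow (by norm_num))).trans h3,
    le_trans (mul_le_mul_of_nonneg_right ?_ (le_trans (by positivity) h3)) (P.sw_le_B h.hi)⟩
  · rw [P.sw_eq, mul_comm]
    exact mul_le_mul_of_nonneg_left (P.Z_le_pow (by norm_num)) h2
  · refine le_trans ?_ (P.pow_le (by norm_num : 2 ≤ 8))
    nlinarith [P.Z_ge']

theorem M_ge {M : ℝ} (h : P.M₀ ≤ M) : (P.Z : ℝ) ^ 4 ≤ M ∧ P.Z * P.Z ≤ M ∧ 100 ≤ M := by
  have h1 : (P.Z : ℝ) * P.Z ≤ M := le_trans (by rw [← sq]; exact P.pow_le (by norm_num)) h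
  exact ⟨h, h1, by nlinarith [P.Z_ge']⟩

theorem ok_mv (h : b.Ok P) {τ : ℂ} {s' : ℝ} (h1 : ‖τ‖ ^ 2 ≤ exp (-9)) (h2 : P.sw b.s / 2 ≤ s')
    (h3 : s' ≤ 4 * P.Z * P.sw b.s) : (b.mv τ s').Ok P := ⟨h.x_mem, h.fr, h.lo, h.hi, h1, h2, h3⟩

/-- the hypotheses -/
structure Hp (S : MAS (P.Q C) μ) (K₁ K₂ K₃ K : ℝ) : Prop where
  gen : Gen S
  i58 : I58 P S K₁
  r58 : R58 P S K₂
  i61 : I61 P S K₃
  K0 : 0 ≤ K
  k1 : K₁ ≤ K
  k2 : K₂ ≤ K
  k3 : K₃ ≤ K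
  kZ : K ≤ P.Z
  nZ : (2 : ℝ) ^ (n + 1) * (2 * n + 3).factorial ≤ P.Z
  nZ' : 2 * (n : ℝ) + 9 ≤ P.Z

namespace Hp
variable (h : Hp S K₁ K₂ K₃ K)
include h

theorem dW (hb : b.Ok P) (Λ : ℝ) : (P.Q C).Dens (b.W P Λ) :=
  h.gen.pg.dens_smul _ _ (exp_pos Λ).le (h.i61.dens b hb)

theorem bW (hb : b.Ok P) (Λ : ℝ) (y : E × ℂ) : exp Λ * b.p P y ≤ exp (Λ + (b.s' + P.sw b.s)) := by
  obtain ⟨h1, h2, -⟩ := num hb
  rw [exp_add]
  refine mul_le_mul_of_nonneg_left ((h.i61.sup b hb y).trans (exp_le_exp.2 ?_)) (exp_pos _).le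
  nlinarith [h.k3, h.kZ, pow_pos P.Z_pos 8]

theorem sW (hb : b.Std P) {Λ : ℝ} (y : E × ℂ) (o : b.W P Λ y ≠ 0) :
    ‖y.2‖ ^ 2 ≤ exp (-P.sw b.s) := by
  have := h.i61.supp b hb.ok y (right_ne_zero_of_mul o)
  rwa [hb.w0, sub_zero, hb.sw] at this

theorem c0 (hb : b.Ok P) (Λ : ℝ) : 0 ≤ b.c P S Λ :=
  div_nonneg (h.gen.G_nonneg _ (h.dW hb Λ)) (by linarith [(num hb).2.2.2.1])

theorem ex [T2Space E] {Λ M : ℝ} (hb : b.Std P) (hΛ : Λ ∈ Icc 0 (P.t * b.s))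
    (hM : M ∈ Icc P.M₀ (P.sw b.s / 5)) :
    ∃ ν, Bg S (b.W P Λ) M (8 * P.B) (exp (-(P.B / 2))) ν := by
  obtain ⟨h1, h2, h3, h4, h5⟩ := num hb.ok
  obtain ⟨m1, m2, m3⟩ := M_ge hM.1
  have z1 := P.Z_ge'
  have e1 := P.B_mul_sw b.s
  have b1 : 400 * P.sw b.s ≤ P.B := by nlinarith
  have b2 : (P.Z : ℝ) ≤ P.B := by nlinarith
  have hm := hM.2
  obtain ⟨ν, hν⟩ := y5 h.gen h.i61.rot (h.dW hb.ok Λ)
    (fun u hu y => congrArg (exp Λ * ·) (h.i61.inv b hb.ok hb.w0 u hu y)) (M := M) (H := 2 * P.B)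
    (A := P.B) (h.sW hb) (h.bW hb.ok Λ) (by rw [hb.sw]; linarith [hΛ.1])
    (glu_mono (h.i61.glu b Λ hb hΛ.2) (by linarith)) (exp_pos _).le
    (by rw [← exp_nat_mul]; exact exp_le_exp.2 (by push_cast; linarith)) (by linarith) (by linarith)
    (by linarith) (by rw [hb.sw]; nlinarith [hΛ.2]) (by
      refine le_trans ?_ (pow_div_factorial_le_exp _ P.B_pos.le (2 * n + 3))
      refine (pow_le_pow_left₀ (by positivity [P.B_pos]) (by nlinarith : _ ≤ 2 * P.B ^ 2) _).trans ?_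
      rw [le_div_iff₀ (by positivity), mul_pow, ← pow_mul, mul_right_comm,
        show 2 * n + 3 = 2 * (n + 1) + 1 from rfl, pow_succ' P.B]
      exact mul_le_mul_of_nonneg_right (h.nZ.trans b2) (pow_nonneg P.B_pos.le _))
    (h.nZ'.trans b2)
  refine ⟨_, (hν.scale h.gen (h.dW hb.ok Λ) P.B_pos.le).mono (by linarith) ?_⟩
  have h6 := h.i61.poly b (Λ + (b.s' + P.sw b.s) + Λ) hb (by rw [hb.sw]; nlinarith [hΛ.2])
  rw [MAS.msl, zero_add, exp_add, mul_smul] at h6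
  refine (mul_le_mul_of_nonneg_left (mul_le_mul_of_nonneg_left h6 (exp_pos _).le)
    (exp_pos _).le).trans ?_
  rw [← exp_add, ← exp_add]
  exact exp_le_exp.2 (by linarith)

theorem int {Λ M δ : ℝ} {ν} (hb : b.Std P) (hΛ : Λ ≤ P.t * b.s) (hM : P.M₀ ≤ M)
    (hν : Bg S (b.W P Λ) M δ 1 ν) : ∫ y, ν y ∂μ ≤ exp (3 * P.B * M) := by
  obtain ⟨m1, m2, m3⟩ := M_ge hM
  refine (hν.int h.gen (h.dW hb.ok Λ) fun y o =>
    h.i61.low b Λ (M + 3) hb hΛ (by linarith) y (hν.supp y o).1.le).trans ?_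
  rw [mul_one]
  have : K₃ + 6 ≤ M := by nlinarith [P.Z_ge', h.k3, h.kZ]
  exact exp_le_exp.2 (by nlinarith [P.B_pos])

theorem mass {Λ' : ℝ} {τ} {N : ℕ} (hb' : b'.Std P) (hΛ' : Λ' ∈ Icc (P.t * b'.s / 2) (P.t * b'.s))
    (N1 : 1 ≤ N) (NZ : N ≤ P.Z) (ok : (b'.mv τ (N * P.sw b'.s)).Ok P) :
    S.msl 0 ((b'.mv τ (N * P.sw b'.s)).p P) Λ' ≤ 4 * K * (b'.c P S Λ' + 1) / N / P.B := by
  obtain ⟨h1, h2, h3, h4, h5⟩ := num hb'.ok
  have e1 := P.B_mul_sw b'.s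
  have n1 : (1 : ℝ) ≤ N := by exact_mod_cast N1
  have n2 : (N : ℝ) ≤ P.Z := by exact_mod_cast NZ
  have B0 := P.B_pos
  have K0 := h.K0
  have c0 := h.c0 hb'.ok Λ'
  have g0 := h.gen.G_nonneg _ (h.dW ok Λ')
  have h7 := (abs_le.1 (h.r58.h b' τ _ Λ' hb'.ok hb'.sw ok hΛ')).2
  have l0 : 0 < P.B * P.sw b'.s := by positivity
  have h8 : S.G ((b'.mv τ (N * P.sw b'.s)).W P Λ') ≤ 2 * (b'.c P S Λ' + 1) / N * P.sw b'.s := by
    have e2 : S.G (b'.W P Λ') * (P.sw b'.s / (N * P.sw b'.s)) = b'.c P S Λ' / N * P.sw b'.s := by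
      rw [Pb.c]
      field_simp
    have h9 : K₂ * P.Z ≤ P.sw b'.s / N := by
      rw [le_div_iff₀ (by positivity)]
      refine le_trans ?_ ((P.pow_le (by norm_num : 3 ≤ 8)).trans h3)
      rw [pow_succ, sq]
      exact mul_le_mul (mul_le_mul_of_nonneg_right (h.k2.trans h.kZ) P.Z_pos.le) n2 (by positivity)
        (by positivity)
    have h10 := mul_le_mul_of_nonneg_right h9 (add_nonneg c0 zero_le_one)
    have h11 : 0 ≤ 1 / (N : ℝ) * P.sw b'.s := by positivity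
    have h12 : 0 ≤ b'.c P S Λ' / (N : ℝ) * P.sw b'.s := by positivity
    rw [e2] at h7
    change _ ≤ K₂ * P.Z * (b'.c P S Λ' + 1) at h7
    have e3 : 2 * (b'.c P S Λ' + 1) / N * P.sw b'.s = b'.c P S Λ' / N * P.sw b'.s +
      P.sw b'.s / N * (b'.c P S Λ' + 1) + 1 / N * P.sw b'.s := by ring
    linarith
  have l1 : 0 < Λ' := by linarith [hΛ'.1]
  refine (h.i58.mass _ Λ' ok hΛ').trans ((mul_le_mul_of_nonneg_right h.k1 (by positivity)).trans ?_)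
  refine (mul_le_mul_of_nonneg_left (div_le_div₀ (by positivity) h8 (half_pos l0)
    (by linarith [hΛ'.1])) h.K0).trans (le_of_eq ?_)
  field_simp
  ring

theorem e1l {Λ Λ' M δ κ : ℝ} {ν τ} {N : ℕ} (hb : b.Std P) (hΛ : Λ ≤ P.t * b.s)
    (hM : M ∈ Icc P.M₀ (P.sw b.s / 5)) (hν : Bg S (b.W P Λ) M δ κ ν) (hδ : δ ≤ P.Z * P.B)
    (hb' : b'.Std P) (hΛ' : Λ' ∈ Icc (P.t * b'.s / 2) (P.t * b'.s)) (hM' : M ≤ P.sw b'.s / 5)
    (N1 : 1 ≤ N) (NZ : N ≤ P.Z) (hτ : ‖τ‖ ^ 2 = exp (-M)) :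
    S.I ((b'.mv τ (N * P.sw b'.s)).W P Λ') ν ≤
      S.I ((b'.mv τ (N * P.sw b'.s)).W P Λ') (b.W P Λ) +
        20 * K / N * ((b'.c P S Λ' + 1) * M / N) := by
  obtain ⟨h1, h2, h3, h4, h5⟩ := num hb'.ok
  obtain ⟨m1, m2, m3⟩ := M_ge hM.1
  have z1 := P.Z_ge'
  have e1 := P.B_mul_sw b'.s
  have n1 : (1 : ℝ) ≤ N := by exact_mod_cast N1
  have n2 : (N : ℝ) ≤ P.Z := by exact_mod_cast NZ
  have B0 := P.B_pos
  have b1 : 400 * P.sw b'.s ≤ P.B := by nlinarith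
  have b2 : 4 * (P.Z : ℝ) ≤ P.B := by nlinarith
  have ok := ok_mv hb'.ok (τ := τ) (s' := N * P.sw b'.s) (hτ ▸ exp_le_exp.2 (by linarith))
    (by nlinarith) (by nlinarith)
  have b3 : 2 * P.B / N ≤ 2 * P.B := div_le_self (by positivity) n1
  have h6 := Y.e1l h.gen (h.dW hb.ok Λ) (hν.mono hδ le_rfl) (h.i61.dens _ ok) (τ := τ)
    (r := exp (-4)) (Λ := Λ') (b := 2 * P.B / N) (by positivity) (by linarith) hτ (h.i61.supp _ ok)
    (by show _ ≤ N * P.sw b'.s; nlinarith) (h.bW ok Λ') (by positivity) (by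
      show Λ' + (N * P.sw b'.s + P.sw b'.s) + _ ≤ _ * (N * P.sw b'.s)
      rw [← mul_assoc, div_mul_cancel₀ _ (by positivity)]
      nlinarith [hΛ'.2])
    (fun y o => (h.sW hb y o).trans (exp_le_exp.2 (by linarith [hM.2])))
    ((pow_le_pow_iff_left₀ (by positivity) (by positivity) two_ne_zero).1 (by
      rw [mul_pow, hτ, ← exp_nat_mul, show -M = -(M - 8) + (2 : ℕ) * -4 by push_cast; ring, exp_add,
        ← mul_assoc]
      refine mul_le_of_le_one_left (exp_pos _).le ?_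
      rw [exp_neg, mul_inv_le_iff₀ (exp_pos _)]
      linarith [add_one_le_exp (M - 8)]))
    (exp_le_one_iff.2 (by norm_num)) (glu_mono (h.i61.glu b Λ hb hΛ) (by
      rw [← exp_nat_mul, log_exp]
      push_cast
      linarith))
  refine h6.trans (add_le_add_right ((mul_le_mul (alg_c z1 m2 n1 n2 (by linarith))
    (h.mass hb' hΛ' N1 NZ ok) (h.gen.ms_nonneg _ _ (h.dW ok Λ')) (by positivity)).trans
      (le_of_eq ?_)) _)
  field_simp
  ring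

theorem e2 {Λ M δ : ℝ} {ν} (hb : b.Std P) (hΛ : Λ ∈ Icc (P.t * b.s / 2) (P.t * b.s))
    (hM : M ∈ Icc P.M₀ (P.sw b.s / 5)) (hν : Bg S (b.W P Λ) M δ 1 ν) (hδ : δ ≤ P.Z * P.B) :
    |S.G ν - b.c P S Λ * M| ≤ 30 / P.Z * ((b.c P S Λ + 1) * M) := by
  obtain ⟨h1, h2, h3, h4, h5⟩ := num hb.ok
  obtain ⟨m1, m2, m3⟩ := M_ge hM.1
  have z1 := P.Z_ge'
  have B0 := P.B_pos
  have hm := hM.2
  have c0 := h.c0 hb.ok Λ
  have O0 := h.gen.G_nonneg _ hν.dens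
  have s1 : P.sw b.s / P.Z ≤ P.sw b.s / 100 := div_le_div_of_nonneg_left (by linarith) (by norm_num) z1
  have s2 : 0 ≤ P.sw b.s / P.Z := by positivity
  have key : ∀ s₂, P.sw b.s / 2 ≤ s₂ → s₂ ≤ 2 * P.sw b.s →
      b.c P S Λ * P.sw b.s * (M + 3) * (s₂ - P.sw b.s) ≤ s₂ * (S.G ν * (s₂ - P.sw b.s) +
        1 * (P.sw b.s - (M + 3)) + 2 * (K * (P.Z + 2) * (b.c P S Λ + 1) + exp (-P.B) * S.G ν) *
          (s₂ - (M + 3))) := by
    intro s₂ a1 a2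
    have ok := ok_mv hb.ok (τ := 0) (s' := s₂) (by simp [(exp_pos _).le]) a1 (by nlinarith)
    have d1 := h.r58.hd b s₂ (M + 3) (P.Z * P.B + 0 + 4) Λ ν hb.ok hb.w0 hb.sw ok (by linarith)
      (by linarith) hΛ (by positivity) hν.dens (fun y o => (hν.supp y o).1.le) fun z w w' o o' => by
        have := (hν.mono hδ le_rfl).pin h.gen h.i61.rot (h.i61.dens b hb.ok)
          (h.i61.inv b hb.ok hb.w0) le_rfl (add_zero Λ).ge h.gen.pg.dens_zero z (w := w') (w' := w)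
          ((pow_left_inj₀ (norm_nonneg _) (norm_nonneg _) two_ne_zero).1 (o'.trans o.symm))
          (o ▸ exp_le_exp.2 (by linarith))
        rwa [add_zero ν] at this
    have d2 := (abs_le.1 (h.r58.h b 0 s₂ Λ hb.ok hb.sw ok hΛ)).1
    have d3 := h.gen.G_mono _ _ (h.dW ok Λ) (h.gen.pg.dens_add _ _ hν.dens (h.dW ok Λ))
      (le_add_of_nonneg_left hν.dens.nonneg)
    have d4 := hν.free h.gen (h.dW hb.ok Λ)
    change _ ≤ _ + K₂ * _ * (b.c P S Λ + 1) + _ at d1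
    change -(K₂ * P.Z * (b.c P S Λ + 1)) ≤ _ at d2
    have d5 : K₂ * ((P.Z * P.B + 0 + 4) / P.B + 1) ≤ K * (P.Z + 2) :=
      (mul_le_mul_of_nonneg_right h.k2 (by positivity)).trans (mul_le_mul_of_nonneg_left (by
        have : (P.Z * P.B + 0 + 4) / P.B ≤ P.Z + 1 := (div_le_iff₀ B0).2 (by nlinarith)
        linarith) h.K0)
    have d6 : K₂ * P.Z ≤ K * (P.Z + 2) :=
      (mul_le_mul_of_nonneg_right h.k2 P.Z_pos.le).trans (mul_le_mul_of_nonneg_left (by linarith) h.K0)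
    have d7 := mul_le_mul_of_nonneg_right d5 (add_nonneg c0 zero_le_one)
    have d8 := mul_le_mul_of_nonneg_right d6 (add_nonneg c0 zero_le_one)
    have d9 : 0 ≤ exp (-P.B) * S.G ν := by positivity
    have p1 : 0 < s₂ - (M + 3) := by linarith
    have p2 : 0 < s₂ := by linarith
    rw [Pb.c, div_mul_cancel₀ _ (by positivity), ← Pb.c]
    refine e2_alg (g' := S.G ((b.mv 0 s₂).W P Λ)) (I := S.I (b.W P Λ) ν)
      (I' := S.I ((b.mv 0 s₂).W P Λ) ν) (by linarith) (by linarith) (by linarith) ?_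
      (by simp only [MAS.I]; linarith) (by simp only [MAS.I]; linarith) ?_
    · rw [← div_le_iff₀' p2, mul_div_assoc]
      linarith
    · rw [mul_comm (_ + _), ← sub_le_iff_le_add, ← mul_sub, ← le_div_iff₀' p1, mul_comm (_ - _),
        mul_div_assoc]
      linarith
  have a0 : 0 ≤ K * (P.Z + 2) * (b.c P S Λ + 1) := by positivity [h.K0]
  have a1 : K * (P.Z + 2) * (b.c P S Λ + 1) ≤ P.Z * (P.Z + 2) * (b.c P S Λ + 1) := by
    gcongr
    exact h.kZ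
  have a2 : 4 * (P.Z : ℝ) ^ 2 * exp (-P.B) ≤ 1 := by
    rw [exp_neg, mul_inv_le_iff₀ (exp_pos _)]
    nlinarith [add_one_le_exp P.B, (P.pow_le (by norm_num : 1 ≤ 8)).trans h3]
  exact abs_sub_le_iff.2 ⟨alg_up z1 m1 (by linarith) c0 O0 a0 a1 (exp_pos _).le a2
    (key _ (by linarith) (by linarith)), alg_lo z1 m1 (by linarith) c0 O0 a0 a1 (exp_pos _).le a2
    (key _ (by linarith) (by linarith))⟩

end Hp

end P61

open P61 in
/-- the rows Y5, E1, E2, E3 -/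
theorem _root_.Vale.Agent.P284Y.st61 : St61 := by
  intro n K₁ K₂ K₃
  set K := |K₁| + |K₂| + |K₃| with hK
  have K0 : 0 ≤ K := by positivity
  refine ⟨21 * K + 30, ⌈K⌉₊ + 2 ^ (n + 1) * (2 * n + 3).factorial + (2 * n + 9), by positivity, ?_⟩
  intro Γ E _ _ _ _ _ C P hZ μ S hG h1 h2 h3
  have h : Hp S K₁ K₂ K₃ K := ⟨hG, h1, h2, h3, K0,
    by linarith [le_abs_self K₁, abs_nonneg K₂, abs_nonneg K₃],
    by linarith [le_abs_self K₂, abs_nonneg K₁, abs_nonneg K₃],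
    by linarith [le_abs_self K₃, abs_nonneg K₂, abs_nonneg K₁],
    Nat.ceil_le.1 (by omega), by exact_mod_cast (by omega), by exact_mod_cast (by omega)⟩
  have mo : ∀ {a x y : ℝ}, a ≤ 21 * K + 30 → 0 ≤ x → 0 ≤ y → a / x * y ≤ (21 * K + 30) / x * y :=
    fun h1 h2 h3 => mul_le_mul_of_nonneg_right (div_le_div_of_nonneg_right h1 h2) h3
  refine ⟨fun b Λ M => h.ex, fun b Λ M δ ν => h.int,
    fun b Λ M δ κ ν p hb hν hp => e1u hG (h.dW hb Λ) hν hp,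
    fun b b' Λ Λ' M δ κ ν τ N a1 a2 a3 a4 a5 a6 a7 a8 a9 a10 a11 => ?_,
    fun b Λ M δ ν a1 a2 a3 a4 a5 => ?_, fun b Λ M δ κ ν τ N a1 a2 a3 a4 a5 a6 a7 a8 => ?_⟩
  · have := h.c0 a6.ok Λ'
    have := (M_ge a3.1).2.2
    exact (h.e1l a1 a2 a3 a4 a5 a6 a7 a8 a9 a10 a11).trans
      (add_le_add_right (mo (by linarith) (by positivity) (by positivity)) _)
  · have := h.c0 a1.ok Λ
    have := (M_ge a3.1).2.2
    exact (h.e2 a1 a2 a3 a4 a5).trans (mo (by linarith) (by positivity) (by positivity))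
  · have c0 := h.c0 a1.ok Λ
    have m0 := (M_ge a3.1).2.2
    have s0 := (num a1.ok).2.2.2.1
    have b1 : M ≤ P.sw b.s / 5 := a3.2.trans (by
      rw [Par.M₁, Par.L, div_right_comm]
      exact div_le_div_of_nonneg_left (by change 0 ≤ P.sw b.s; linarith) (by norm_num)
        (by nlinarith [P.Z_ge']))
    have b2 := h.e1l a1 a2.2 ⟨a3.1, b1⟩ a4 a5 a1 a2 b1 a6 a7 a8
    have b3 := h2.e3 b τ N M Λ a1.ok a1.w0 a1.sw a6 a7 a3 a8 a2
    change _ ≤ _ - 2 * (b.c P S Λ * M / N) + K₂ / P.Z * ((b.c P S Λ + 1) * M / N) at b3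
    have b4 : K₂ / P.Z ≤ K / N := (div_le_div_of_nonneg_right h.k2 P.Z_pos.le).trans
      (div_le_div_of_nonneg_left K0 (by exact_mod_cast a6) (by exact_mod_cast a7))
    have y0 : 0 ≤ (b.c P S Λ + 1) * M / N := by positivity
    have b5 := mul_le_mul_of_nonneg_right b4 y0
    have b6 := mo (a := 20 * K + K) (by linarith) (N.cast_nonneg) y0
    rw [add_div, add_mul] at b6
    linarith

end Vale.Agent.P284Y.Y
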