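import Vale.Agent.P284Y.Y.P87b

/-!
# P284Y, block Y, one stage: the two point function, frames, charts, pins
-/

set_option linter.all false

open scoped ContDiff Topology ComplexOrder ENNReal Matrix
open Filter Set Function Metric MeasureTheory

noncomputable section

namespace Vale.Agent.P284Y.S87

open Vale.Agent.P272.K Vale.Agent.P284Z Vale.Agent.P284Z.J Vale.Agent.P284Y.Y Real
  Vale.Agent.P284Y.S12

theorem inf_min {f : ℝ → ℝ} {a b : ℝ} (hab : a ≤ b) (hf : ContinuousOn f (Icc a b)) :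
    (∃ M ∈ Icc a b, sInf (f '' Icc a b) = f M) ∧ ∀ M ∈ Icc a b, sInf (f '' Icc a b) ≤ f M :=
  ⟨isCompact_Icc.exists_sInf_image_eq (nonempty_Icc.2 hab) hf, fun M hM =>
    csInf_le (isCompact_Icc.image_of_continuousOn hf).bddBelow (mem_image_of_mem f hM)⟩

theorem inf_add {f : ℝ → ℝ} {a b : ℝ} (hab : a ≤ b) (hf : ContinuousOn f (Icc a b)) (c : ℝ) :
    sInf ((fun M => f M + c) '' Icc a b) = sInf (f '' Icc a b) + c := by
  obtain ⟨⟨M, hM, e⟩, h⟩ := inf_min hab hf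
  obtain ⟨⟨M', hM', e'⟩, h'⟩ := inf_min hab (hf.add (continuousOn_const (c := c)))
  have h1 := h M' hM'
  have h2 := h' M hM
  simp only [Pi.add_def] at e' h2
  linarith

variable {n : ℕ} {Γ E : Type} [Group Γ] [TopologicalSpace E] [MulAction Γ E] {C : Cov n Γ E}
  [MeasurableSpace E] {μ : Measure (E × ℂ)} {P : Par} {S : MAS (P.Q C) μ} {s K₁ K₂ K₃ K : ℝ}
  {γ γ' : Γ} {a b : C.I} {x y : Cm n} {ξ : Mx n} {N : ℕ} {κ : ℝ}

theorem M0_gt (P : Par) : 9 < P.M₀ := by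
  linarith [P.Z_le_pow (a := 4) (by norm_num), P.Z_ge', show P.M₀ = (P.Z : ℝ) ^ 4 from rfl]

variable (c : Cx P S s K₁ K₂ K₃ K)
include c

theorem vM_cont (hξ : Fr (s / 8) ξ) (h1 : 1 ≤ N) (h2 : N ≤ P.Z) :
    ContinuousOn (fun q : (Cm n × Cm n) × ℝ => P.vM S N κ s a q.1.1 γ b q.1.2 ξ q.2)
      ((C.B (5 / 2) a ×ˢ C.B (5 / 2) b) ×ˢ Ioi 9) := by
  have h := (J_psh (a := a) (b := b) (γ := γ) c hξ h1 h2 le_rfl).1.comp
    (f := fun q : (Cm n × Cm n) × ℝ => (q.1, (q.2 : ℂ))) (s := (_ ×ˢ _) ×ˢ Ioi 9)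
    (by fun_prop) fun q hq => ⟨hq.1, hq.2⟩
  unfold Par.vM Par.cor
  refine ContinuousOn.mul (ContinuousOn.add (((ContinuousOn.add h ?_).sub continuousOn_const).sub
    continuousOn_const) ?_) continuousOn_const <;> fun_prop

theorem vM_cont₁ (hξ : Fr (s / 8) ξ) (h1 : 1 ≤ N) (h2 : N ≤ P.Z) (hx : x ∈ C.B (5 / 2) a)
    (hy : y ∈ C.B (5 / 2) b) : ContinuousOn (P.vM S N κ s a x γ b y ξ) (Ioi 9) :=
  (vM_cont (κ := κ) (γ := γ) c hξ h1 h2).comp (f := fun M : ℝ => ((x, y), M)) (by fun_prop)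
    fun _ hM => ⟨⟨hx, hy⟩, hM⟩

omit c in
theorem Icc_sub : Icc P.M₀ (P.M₁ s) ⊆ Ioi 9 := fun _ h => (M0_gt P).trans_le h.1

theorem v_min (hξ : Fr (s / 8) ξ) (h1 : 1 ≤ N) (h2 : N ≤ P.Z) (hx : x ∈ C.B (5 / 2) a)
    (hy : y ∈ C.B (5 / 2) b) : (∃ M ∈ Icc P.M₀ (P.M₁ s),
      P.vv S N κ s a x γ b y ξ = P.vM S N κ s a x γ b y ξ M) ∧
      ∀ M ∈ Icc P.M₀ (P.M₁ s), P.vv S N κ s a x γ b y ξ ≤ P.vM S N κ s a x γ b y ξ M :=
  inf_min c.M0_lt.le ((vM_cont₁ c hξ h1 h2 hx hy).mono Icc_sub)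

theorem J_cvx (hξ : Fr (s / 8) ξ) (h1 : 1 ≤ N) (h2 : N ≤ P.Z) (hx : x ∈ C.B (5 / 2) a)
    (hy : y ∈ C.B (5 / 2) b) :
    ConvexOn ℝ (Ioi 9) fun M => P.J S N s a x γ b y ξ M + P.cor S N s M := by
  obtain ⟨k1, k2⟩ := J_psh (a := a) (b := b) (γ := γ) c hξ h1 h2 le_rfl
  have k3 := (k2.affine ((x, y), 0) (.inr ℂ _ ℂ)).mono (U' := {t | t.re ∈ Ioi 9})
    fun t ht => ⟨by simpa using ⟨hx, hy⟩, by simpa using ht⟩
  have k4 := k1.comp (f := fun t : ℂ => ((x, y), t)) (s := {t | t.re ∈ Ioi 9}) (by fun_prop)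
    fun t ht => ⟨⟨hx, hy⟩, ht⟩
  have k5 := Lib.cvx₁ (f := fun M => P.J S N s a x γ b y ξ M + P.cor S N s M +
    P.q * (P.GG S s / s) * (nsq x + nsq y)) isOpen_Ioi ordConnected_Ioi (by simpa using k3)
    (.of_cont ((ContinuousOn.add k4 (by unfold Par.cor; fun_prop)).add continuousOn_const))
  simpa [Pi.add_def] using k5.add_const (-(P.q * (P.GG S s / s) * (nsq x + nsq y)))

theorem v_psh (hξ : Fr (s / 8) ξ) (h1 : 1 ≤ N) (h2 : N ≤ P.Z) :
    ContinuousOn (fun q : Cm n × Cm n => P.vv S N κ s a q.1 γ b q.2 ξ)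
      (C.B (5 / 2) a ×ˢ C.B (5 / 2) b) ∧
    Psh (fun q : Cm n × Cm n => P.vv S N κ s a q.1 γ b q.2 ξ + P.Z * P.q * (nsq q.1 + nsq q.2))
      (C.B (5 / 2) a ×ˢ C.B (5 / 2) b) := by
  have n0 : (0 : ℝ) < N := by exact_mod_cast h1
  have n2 : (N : ℝ) ≤ P.Z := by exact_mod_cast h2
  have g := c.G_pos
  have s0 := c.s_pos
  have q0 := P.q_pos
  have cn : Continuous fun q : Cm n × Cm n => P.Z * P.q * (nsq q.1 + nsq q.2) :=
    continuous_const.mul ((cont_nsq.comp continuous_fst).add (cont_nsq.comp continuous_snd))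
  obtain ⟨k1, k2⟩ := J_psh (a := a) (b := b) (γ := γ) c hξ h1 h2
    (δ := P.Z / N * (P.q * (P.GG S s / s)))
    (le_mul_of_one_le_left (by positivity) ((one_le_div n0).2 n2))
  have k3 := psh_re (U := DJ C a b) (f := fun q : (Cm n × Cm n) × ℂ =>
    (((-P.GG S s - P.GG S s / N) * (s * N / P.GG S s) : ℝ) : ℂ) +
      ((2 * (P.cb S s / N) * (1 - κ) * (s * N / P.GG S s) : ℝ) : ℂ) * q.2)
    (((C.isOpen_B _ a).prod (C.isOpen_B _ b)).prod (isOpen_Ioi.preimage Complex.continuous_re))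
    (by fun_prop)
  have k4 := (k2.const_mul (c := s * N / P.GG S s) (by positivity)).add k3
    (.of_cont (continuousOn_const.mul ((k1.add (by unfold Par.cor; fun_prop)).add
      (continuous_const.mul ((cont_nsq.comp (by fun_prop)).add
        (cont_nsq.comp (by fun_prop)))).continuousOn))) (.of_cont (by fun_prop))
  obtain ⟨k5, k6⟩ := Lib.kiselman_Icc (u := fun (q : Cm n × Cm n) M =>
    P.vM S N κ s a q.1 γ b q.2 ξ M + P.Z * P.q * (nsq q.1 + nsq q.2))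
    ((C.isOpen_B (5 / 2) a).prod (C.isOpen_B (5 / 2) b)) c.M0_lt
    ((k4.congr fun q _ => by
      simp only [Par.vM, Complex.add_re, Complex.ofReal_re, Complex.re_ofReal_mul]
      field_simp
      ring).mono fun q hq => ⟨hq.1, Icc_sub (Ioo_subset_Icc_self hq.2)⟩)
    (((vM_cont c hξ h1 h2).mono (prod_mono le_rfl Icc_sub)).add
      (cn.comp continuous_fst).continuousOn)
  have e : ∀ q ∈ C.B (5 / 2) a ×ˢ C.B (5 / 2) b, P.vv S N κ s a q.1 γ b q.2 ξ +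
      P.Z * P.q * (nsq q.1 + nsq q.2) = sInf ((fun M => P.vM S N κ s a q.1 γ b q.2 ξ M +
        P.Z * P.q * (nsq q.1 + nsq q.2)) '' Icc P.M₀ (P.M₁ s)) := fun q hq =>
    (inf_add c.M0_lt.le ((vM_cont₁ c hξ h1 h2 hq.1 hq.2).mono Icc_sub) _).symm
  exact ⟨(k6.sub cn.continuousOn).congr fun q hq => eq_sub_of_add_eq (e q hq), k5.congr e⟩

/-- comparison of the minima -/
theorem v_le {a' b' : C.I} {x' y' : Cm n} {ξ' : Mx n} {e : ℝ} (hξ : Fr (s / 8) ξ)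
    (hξ' : Fr (s / 8) ξ') (h1 : 1 ≤ N) (h2 : N ≤ P.Z) (hx : x ∈ C.B (5 / 2) a)
    (hy : y ∈ C.B (5 / 2) b) (hx' : x' ∈ C.B (5 / 2) a') (hy' : y' ∈ C.B (5 / 2) b')
    (h : ∀ M ∈ Icc P.M₀ (P.M₁ s), (P.J S N s a x γ b y ξ M - P.J S N s a' x' γ' b' y' ξ' M) *
      (s * N / P.GG S s) ≤ e) :
    P.vv S N κ s a x γ b y ξ ≤ P.vv S N κ s a' x' γ' b' y' ξ' + e := by
  obtain ⟨M, hM, e'⟩ := (v_min (κ := κ) (γ := γ') c hξ' h1 h2 hx' hy').1
  have h3 := (v_min (κ := κ) (γ := γ) c hξ h1 h2 hx hy).2 M hM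
  have h4 := h M hM
  rw [e']
  unfold Par.vM at *
  linarith

theorem tau9 {M : ℝ} (hM : M ∈ Icc P.M₀ (P.M₁ s)) :
    ‖((exp (-(M / 2)) : ℝ) : ℂ)‖ ^ 2 ≤ exp (-9) :=
  (Cx.norm_tau M).trans_le (exp_le_exp.2 (neg_le_neg (le_of_lt (Icc_sub hM))))

theorem unit_le (h1 : 1 ≤ N) (h2 : N ≤ P.Z) : s * N / P.GG S s ≤ P.q := by
  have n2 : (N : ℝ) ≤ P.Z := by exact_mod_cast h2
  have h3 : (N : ℝ) ≤ P.cb S s := n2.trans (le_trans (le_trans
    (le_mul_of_one_le_right P.Z_pos.le P.one_le_β) P.Zβ_le_B) c.B_le_cb)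
  rw [← c.cb_mul, mul_div_right_comm, mul_comm]
  exact mul_le_mul_of_nonneg_right h3 (div_pos c.s_pos c.G_pos).le

/-- contraction of the frame -/
theorem mono {b : Pb C} (hb : b.Ok P) (e : b.s = s) (hξ : ∀ u, nsq (b.ξ *ᵥ u) ≤ nsq u)
    {ν : E × ℂ → ℝ} (hν : (P.Q C).Dens ν) (h1 : 1 ≤ N) (h2 : N ≤ P.Z)
    (hD : S.G (b.W P (P.t * s)) ≤ 3 * K * (P.GG S s / N)) :
    (S.G (ν + b.W P (P.t * s)) - S.G (ν + ({ b with ξ := 1 } : Pb C).W P (P.t * s))) *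
      (s * N / P.GG S s) ≤ P.Z * P.q := by
  have l := c.Λ_pos
  have k := c.K1
  have g := c.G_pos
  have s0 := c.s_pos
  have q0 := P.q_pos
  have B0 := P.B_pos
  have n0 : (0 : ℝ) < N := by exact_mod_cast h1
  have h := c.r41.move₀ { b with ξ := 1 } b (P.t * s) ν ⟨hb.x_mem, e ▸ c.fr1, hb.lo, hb.hi, hb.w_le,
    hb.lo', hb.hi'⟩ hb rfl (by rw [show Pb.s _ = s from e]; linarith)
    (by rw [show Pb.s _ = s from e]; linarith) hν fun y ⟨⟨u, hu, e1⟩, e2⟩ =>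
      ⟨⟨b.ξ *ᵥ u, (hξ u).trans (hu.trans (by nlinarith)), by simpa [Pb.z] using e1⟩,
        e2.trans (mul_le_mul_of_nonneg_right (by norm_num) (exp_pos _).le)⟩
  have h3 : K₁ * P.B * S.G (b.W P (P.t * s)) / (P.t * s) ≤
      K * P.B * (3 * K * (P.GG S s / N)) / (P.t * s) := by
    have := c.gen.G_nonneg _ (c.r41.densW b (P.t * s) hb)
    gcongr
    exact c.k₁
  have h4 : K * P.B * (3 * K * (P.GG S s / N)) / (P.t * s) * (s * N / P.GG S s) =
      3 * K ^ 2 * P.q := by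
    have := P.t_pos
    unfold Par.B
    field_simp
  have h5 := mul_le_mul_of_nonneg_right (show S.G (ν + b.W P (P.t * s)) -
    S.G (ν + ({ b with ξ := 1 } : Pb C).W P (P.t * s)) ≤
      K * P.B * (3 * K * (P.GG S s / N)) / (P.t * s) + 1 by linarith)
    (by positivity : 0 ≤ s * N / P.GG S s)
  rw [add_mul, h4, one_mul] at h5
  have h6 : (3 * K ^ 2 + 1) * P.q ≤ P.Z * P.q :=
    mul_le_mul_of_nonneg_right (by linarith [c.K2_le, one_le_pow₀ (n := 2) k]) q0.le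
  linarith [unit_le c h1 h2]

/-- change of chart -/
theorem chart {b b' : Pb C} (hb : b.Ok P) (hb' : b'.Ok P) (e : b.s = s) (e' : b'.s = s)
    (x1 : b.ξ = 1) (x2 : b'.ξ = 1) (w : b'.w = b.w) (w' : b'.s' = b.s')
    (p : C.pt b'.γ b'.a b'.x = C.pt b.γ b.a b.x) {ν : E × ℂ → ℝ} (hν : (P.Q C).Dens ν) {D : ℝ}
    (hD : S.G (b.W P (P.t * s)) + 1 ≤ D) :
    S.G (ν + b'.W P (P.t * s)) ≤ S.G (ν + b.W P (P.t * s)) + 2 * K ^ 2 * D / s + 1 := by
  have l := c.Λ_pos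
  have k := c.K1
  have k1 := c.r41.K_ge
  have s0 := c.s_pos
  have d0 : 0 ≤ D := by linarith [c.gen.G_nonneg _ (c.r41.densW b (P.t * s) hb)]
  have h := (c.r41.move b b' (P.t * s) K₁ D ν hb hb' (x1 ▸ fr_one (by linarith [hb.lo, P.lo_pos]))
    (e'.trans e.symm) (by rw [e]; linarith) (by rw [e]; linarith) hν (by linarith)
    (by rw [e]; linarith [c.K1_le, c.k₁, P.Z_le_lo, c.lo_le]) (fun y ⟨⟨u, hu, e1⟩, e2⟩ => by
      obtain ⟨u', h1, h2⟩ := c.r41.geo b' b 1 (exp K₁) hb' hb (e.trans e'.symm) p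
        (one_le_exp (by linarith)) (fun u hu => ⟨jm (C.tr (b.γ⁻¹ * b'.γ) b'.a b.a) b'.x *ᵥ u, by
          refine (c.r41.jac _ _ _ _ _ hb'.x_mem _ hb.x_mem p u).2.trans ?_
          rw [← exp_nat_mul]
          exact mul_le_of_le_one_right (exp_pos _).le (by simpa using hu),
          by rw [x1, x2, Matrix.one_mulVec, Matrix.one_mulVec]⟩) zero_le_one one_le_two u hu
      exact ⟨⟨u', h1, e1.trans h2⟩, by
        rw [← w, ← w']
        exact e2.trans (mul_le_mul_of_nonneg_right (by norm_num) (exp_pos _).le)⟩) hD).2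
  rw [e] at h
  refine h.trans (add_le_add_left (add_le_add_right (div_le_div_of_nonneg_right
    (mul_le_mul_of_nonneg_right ?_ d0) s0.le) _) _)
  nlinarith [c.k₁, P.q_le, P.q_pos]

theorem r87 : R87 P S s K where
  f_cont a ξ hξ := f_cont c hξ
  f_psh a ξ hξ := f_psh c hξ
  f_mono a ξ hξ h z hz := by
    have h1 := mono (N := 1) c (c.std₀ (γ := 1) hz hξ).ok rfl h c.gen.pg.dens_zero le_rfl
      (by linarith [P.Z_ge]) ((c.top (c.std₀ (γ := 1) hz hξ).ok rfl).trans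
        (by simpa using by nlinarith [c.K1, c.G_pos]))
    simp only [zero_add, Nat.cast_one, mul_one] at h1
    change (P.g S s a z ξ - P.g S s a z 1) * _ ≤ _ at h1
    simp only [Par.f, mul_div_assoc]
    linarith
  f_ch γ a γ' b z hz z' hz' h := by
    have k := c.K1
    have g := c.G1
    have s0 := c.s_pos
    have o := (c.std₀ (γ := γ') hz' c.fr1).ok
    have h1 := chart (D := 3 * K * P.GG S s) c o (c.std₀ (γ := γ) hz c.fr1).ok rfl rfl rfl rfl rfl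
      rfl h c.gen.pg.dens_zero (by nlinarith [c.top o rfl])
    rw [zero_add, zero_add] at h1
    change S.G (P.at0 C s γ a z 1) ≤ S.G (P.at0 C s γ' b z' 1) + _ + _ at h1
    rw [c.g_eq hz c.fr1, c.g_eq hz' c.fr1] at h1
    have h2 := mul_le_mul_of_nonneg_right h1 (by positivity : 0 ≤ s / P.GG S s)
    have h3 : 2 * K ^ 2 * (3 * K * P.GG S s) / s * (s / P.GG S s) = 6 * K ^ 3 := by field_simp; ring
    have h4 := unit_le (N := 1) c le_rfl (by linarith [P.Z_ge])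
    rw [add_mul, add_mul, h3] at h2
    simp only [Par.f, mul_div_assoc, Nat.cast_one, mul_one] at h4 ⊢
    linarith [P.q_le, one_le_pow₀ (n := 3) k]
  J_cvx N a γ b ξ h1 h2 hξ x hx y hy := ⟨J_cvx c hξ h1 h2 hx hy, vM_cont₁ c hξ h1 h2 hx hy⟩
  v_min N κ a γ b ξ h1 h2 hξ x hx y hy := v_min c hξ h1 h2 hx hy
  v_cont N κ a γ b ξ h1 h2 hξ := (v_psh c hξ h1 h2).1
  v_psh N κ a γ b ξ h1 h2 hξ := (v_psh c hξ h1 h2).2
  v_mono N κ a γ b ξ h1 h2 hξ h x hx y hy := v_le c hξ c.fr1 h1 h2 hx hy hx hy fun M hM =>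
    mono c (c.okw (γ := γ) hy hξ h1 h2 (tau9 c hM)) rfl h (c.dens0 hx c.fr1) h1 h2
      (c.gb_le hy hξ h1 h2 (tau9 c hM))
  v_ch N κ g a a' γ γ' b b' h1 h2 x hx x' hx' y hy y' hy' e e' :=
    v_le c c.fr1 c.fr1 h1 h2 hx hy hx' hy' fun M hM => by
      have k := c.K1
      have g1 := c.G1
      have s0 := c.s_pos
      have n1 : (1 : ℝ) ≤ N := by exact_mod_cast h1
      have t := tau9 c hM
      have u := unit_le c h1 h2
      have o := (c.std₀ (γ := g) hx' c.fr1).ok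
      have o' := c.okw (γ := g * γ') hy' c.fr1 h1 h2 t
      have gN : 1 ≤ P.GG S s / N := (one_le_div (by linarith)).2 (by
        have := (div_le_iff₀ c.G_pos).1 u
        nlinarith [P.q_le, P.pow_le_lo, c.lo_le, one_le_pow₀ (n := 8) P.one_le_Z])
      have k1 := chart (D := 3 * K * P.GG S s) c o (c.std₀ (γ := 1) hx c.fr1).ok rfl rfl rfl rfl
        rfl rfl e (c.densw (γ := γ) hy c.fr1 h1 h2 t) (by nlinarith [c.top o rfl])
      have k2 := chart (D := 4 * K * (P.GG S s / N)) c o' (c.okw (γ := γ) hy c.fr1 h1 h2 t) rfl rfl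
        rfl rfl rfl rfl e' (c.dens0 (γ := g) hx' c.fr1)
        ((add_le_add_left (c.gb_le (γ := g * γ') hy' c.fr1 h1 h2 t) 1).trans (by nlinarith))
      have k3 := c.J_eq (γ := g) (γ' := g * γ') hx' hy' c.fr1 h1 h2 (le_of_lt (Icc_sub hM))
        (Cx.norm_tau M)
      rw [inv_mul_cancel_left] at k3
      rw [add_comm (Par.atw _ _ _ _ _ _ _ _ _), add_comm (Par.atw _ _ _ _ _ _ _ _ _)] at k1
      have k4 : P.J S N s a x γ b y 1 M - P.J S N s a' x' γ' b' y' 1 M ≤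
          2 * K ^ 2 * (3 * K * P.GG S s) / s + 2 * K ^ 2 * (4 * K * (P.GG S s / N)) / s + 2 := by
        have := k1.trans (add_le_add_left (add_le_add_left (k2.trans_eq
          (congrArg (· + _ + 1) k3)) _) _)
        change P.J S N s a x γ b y 1 M ≤ _ at this
        linarith
      have k5 := mul_le_mul_of_nonneg_right k4 (by positivity : 0 ≤ s * N / P.GG S s)
      have k6 : (2 * K ^ 2 * (3 * K * P.GG S s) / s + 2 * K ^ 2 * (4 * K * (P.GG S s / N)) / s) *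
          (s * N / P.GG S s) = 6 * K ^ 3 * N + 8 * K ^ 3 := by field_simp; ring
      rw [add_mul, k6] at k5
      nlinarith [P.q_le, one_le_pow₀ (n := 3) k]

theorem r87p {p : ℕ} {V : Set E} {sh : E → Cm p} {R ε : ℝ} (h0 : 0 ≤ R) (hR : R ≤ s / 8)
    (hL : P.Low S s) (hP : P.Pin S s V sh R ε) : R87p P S s V sh R ε where
  pin_f γ a z ξ γ' b z' ξ' hz hz' hξ hξ' e hV := by
    have g := c.G_pos
    have w := c.sw_pos
    have o := (c.std₀ (γ := γ) hz.1 c.fr1).ok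
    have lo : (1 - (P.Z : ℝ)⁻¹) * (P.GG S s * P.sw s / P.sw s) ≤ S.I (P.at0 C s γ a z 1) 0 := by
      have h1 := (le_div_iff₀ g).1 hz.2
      have h2 : (P.Z : ℝ)⁻¹ * (P.Z : ℝ) ^ 2 = P.Z := by have := P.Z_pos; field_simp
      rw [MAS.I, zero_add, S.G0, c.g_eq hz.1 c.fr1, mul_div_cancel_right₀ _ w.ne']
      refine le_of_mul_le_mul_right ?_ c.s_pos
      have h3 : P.L s * P.GG S s ≤ (P.Z : ℝ)⁻¹ * s * P.GG S s := by
        refine mul_le_mul_of_nonneg_right ?_ g.le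
        nth_rewrite 2 [c.s_eq]
        rw [mul_left_comm, h2]
        exact le_mul_of_one_le_right c.L_pos.le P.one_le_Z
      linarith
    have k1 := hP 0 1 (b0 P s γ a z 1) (b0 P s γ a z ξ) c.gen.pg.dens_zero o
      (c.std₀ hz.1 (fr_mono hξ hR)).ok rfl rfl rfl rfl (fr_one h0) hξ rfl
      (by simpa [Pb.y, b0] using hV) lo
    have k2 := hP 0 1 (b0 P s γ a z 1) (b0 P s γ' b z' ξ') c.gen.pg.dens_zero o
      (c.std₀ hz' (fr_mono hξ' hR)).ok rfl rfl rfl rfl (fr_one h0) hξ'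
      (by simpa [Pb.y, b0] using e.symm) (by simpa [Pb.y, b0] using hV) lo
    rw [zero_add, zero_add] at k1 k2
    change |(S.G (P.at0 C s γ a z 1) - S.G (P.at0 C s γ a z ξ)) * s /
      (P.GG S s * P.sw s / P.sw s) - _| ≤ ε at k1
    change |(S.G (P.at0 C s γ a z 1) - S.G (P.at0 C s γ' b z' ξ')) * s /
      (P.GG S s * P.sw s / P.sw s) - _| ≤ ε at k2
    rw [c.g_eq hz.1 c.fr1, mul_div_cancel_right₀ _ w.ne'] at k1 k2
    rw [c.g_eq hz.1 (fr_mono hξ hR)] at k1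
    rw [c.g_eq hz' (fr_mono hξ' hR)] at k2
    simp only [Pb.ld, b0, one_mul, Par.f, mul_div_assoc, abs_le] at k1 k2 ⊢
    constructor <;> linarith [k1.1, k1.2, k2.1, k2.2]
  pin_v N κ g a₀ x γ a z ξ γ' b z' ξ' h1 h2 hx hz hz' hξ hξ' e hV := by
    have f1 := fr_mono hξ hR
    have f2 := fr_mono hξ' hR
    have key : ∀ M ∈ Icc P.M₀ (P.M₁ s), |(P.J S N s a₀ x γ a z ξ M - P.J S N s a₀ x γ' b z' ξ' M) *
        (s * N / P.GG S s) - (ld (fun w => sh (C.pt (g * γ) a w)) z ξ -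
          ld (fun w => sh (C.pt (g * γ') b w)) z' ξ')| ≤ 2 * ε := fun M hM => by
      have t := tau9 c hM
      have o := c.okw (γ := γ) hz.1 c.fr1 h1 h2 t
      have lo := hL N a₀ x γ a z h1 h2 hx hz M hM
      have k1 := hP _ g _ _ (c.dens0 (γ := 1) hx c.fr1) o (c.okw (γ := γ) hz.1 f1 h1 h2 t) rfl rfl
        rfl rfl (fr_one h0) hξ rfl hV lo
      have k2 := hP _ g _ _ (c.dens0 (γ := 1) hx c.fr1) o (c.okw (γ := γ') hz' f2 h1 h2 t) rfl rfl
        rfl rfl (fr_one h0) hξ' (by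
          change C.pt (g * γ') b z' = C.pt (g * γ) a z
          rw [← C.smul_pt, ← C.smul_pt, e]) hV lo
      have e3 : ∀ u : ℝ, u * s / (P.GG S s * P.sw s / (N * P.sw s)) = u * (s * N / P.GG S s) :=
        fun u => by
          have := c.sw_pos
          have := c.G_pos
          have : (0 : ℝ) < N := by exact_mod_cast h1
          field_simp
      change |(P.J S N s a₀ x γ a z 1 M - P.J S N s a₀ x γ a z ξ M) * s /
        (P.GG S s * P.sw s / (N * P.sw s)) - (ld (fun w => sh (C.pt (g * γ) a w)) z 1 -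
          ld (fun w => sh (C.pt (g * γ) a w)) z ξ)| ≤ ε at k1
      change |(P.J S N s a₀ x γ a z 1 M - P.J S N s a₀ x γ' b z' ξ' M) * s /
        (P.GG S s * P.sw s / (N * P.sw s)) - (ld (fun w => sh (C.pt (g * γ) a w)) z 1 -
          ld (fun w => sh (C.pt (g * γ') b w)) z' ξ')| ≤ ε at k2
      rw [e3, abs_le] at k1 k2
      rw [abs_le]
      constructor <;> linarith [k1.1, k1.2, k2.1, k2.2]
    have k1 := v_le (κ := κ) c f1 f2 h1 h2 hx hz.1 hx hz' fun M hM =>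
      sub_le_iff_le_add.1 (abs_le.1 (key M hM)).2
    have k2 := v_le (κ := κ) (e := 2 * ε - (ld (fun w => sh (C.pt (g * γ) a w)) z ξ -
      ld (fun w => sh (C.pt (g * γ') b w)) z' ξ')) c f2 f1 h1 h2 hx hz' hx hz.1 fun M hM => by
        linarith [(abs_le.1 (key M hM)).1]
    rw [abs_le]
    constructor <;> linarith

end Vale.Agent.P284Y.S87

theorem Vale.Agent.P284Y.st87 : Vale.Agent.P284Y.St87 := fun _ _ _ _ _ _ _ _ _ _ _ _ _ _ _ _ c =>
  ⟨S87.r87 c, fun _ _ _ _ _ h0 hR hL hP => S87.r87p c h0 hR hL hP⟩
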