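import Vale.Agent.P284Y.Y.BgDefs
import Vale.Agent.P284Y.Y.Blk
import Vale.Agent.P284Z.L.Gc

/-!
# P284Y, block Y: functions of `w`, doubling
-/

set_option linter.all false

open scoped ContDiff Topology ComplexOrder
open Filter Set Function MeasureTheory

noncomputable section

namespace Vale.Agent.P284Y.Y.Bq

open Vale.Agent.P272.K Vale.Agent.P284Z Vale.Agent.P284Z.J Vale.Agent.P284Z.L Real

section pat
variable {N : ℕ} {M : Type} {Q : Pat N M} {f g : M → ℝ} {y : M}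

theorem sm_c (c : ℝ) : Q.SmAt (fun _ => c) y := fun _ _ _ _ => contDiffAt_const

theorem sm_ad (hf : Q.SmAt f y) (hg : Q.SmAt g y) : Q.SmAt (fun x => f x + g x) y :=
  fun i z hz e => (hf i z hz e).add (hg i z hz e)

theorem sm_ml (hf : Q.SmAt f y) (hg : Q.SmAt g y) : Q.SmAt (fun x => f x * g x) y :=
  fun i z hz e => (hf i z hz e).mul (hg i z hz e)

theorem sm_cp {φ : ℝ → ℝ} (hφ : ContDiff ℝ ∞ φ) (hf : Q.SmAt f y) :
    Q.SmAt (fun x => φ (f x)) y := fun i z hz e => hφ.contDiffAt.comp z (hf i z hz e)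

variable [TopologicalSpace M] [MeasurableSpace M] {μ : Measure M}

theorem ev_pt (hP : PG Q μ) {i : Q.ι} {z : Cm N} (hz : z ∈ Q.U i) {p : M → Prop}
    (h : ∀ᶠ x in 𝓝 (Q.pt i z), p x) : ∀ᶠ w in 𝓝 z, p (Q.pt i w) := by
  rw [← hP.map_pt i z hz] at h
  exact h

theorem sm_cg (hP : PG Q μ) (h : f =ᶠ[𝓝 y] g) (hg : Q.SmAt g y) : Q.SmAt f y := by
  rintro i z hz rfl
  exact (hg i z hz rfl).congr_of_eventuallyEq (ev_pt hP hz h)

theorem psd_ac (hf : Q.SmAt f y) (hO : Q.Ok) (h : Q.PsdAt f y) (c : ℝ) :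
    Q.PsdAt (fun x => f x + c) y := by
  intro i z hz e
  have h1 := ((hO.ρ_sm i z hz).add (hf i z hz e)).of_le two_le
  have h2 : Q.om (fun x => f x + c) i z = Q.om f i z := by
    simp only [Pat.om, ← add_assoc]
    rw [C2.cHess_add h1 contDiffAt_const, C2.cHess_const, add_zero]
  rw [h2]
  exact h i z hz e

variable {S : MAS Q μ}

theorem ma_nonneg (hP : PG Q μ) (hO : Q.Ok) (hf : Q.SmAt f y) (h : Q.PsdAt f y) :
    0 ≤ Q.MA f y := by
  obtain ⟨i, z, hz, rfl⟩ := hO.cover y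
  rw [hP.ma_pt f i z hz ((hf i z hz rfl).of_le two_le)]
  exact div_nonneg (Complex.nonneg_iff.1 (h i z hz rfl).det_nonneg).1 (hP.vol_pos i z hz).1.le

theorem off {ν : M → ℝ} (hν : Q.Dens ν) {ε : ℝ} (hε : 0 < ε) :
    ∃ K, IsCompact K ∧ ∀ y ∉ K, -ε < S.φ ν y := by
  obtain ⟨K, h1, h2⟩ := mem_cocompact.1 ((S.decay ν hν).eventually (lt_mem_nhds (neg_lt_zero.2 hε)))
  exact ⟨K, h1, fun y hy => h2 hy⟩

/-- **doubling** -/
theorem dbl (hG : Gen S) {X : M → ℝ} (hX : Q.Dens X) {L : ℝ} (hL : 0 ≤ L)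
    (hb : ∀ y, X y ≤ exp L) (y : M) : S.φ (exp L • X) y / 2 - (N + 1) ≤ S.φ X y := by
  have hP := hG.pg
  have hX' := hP.dens_smul _ X (exp_pos L).le hX
  refine hG.vc X univ (fun y => S.φ (exp L • X) y / 2 - (N + 1)) hX isOpen_univ
    (Continuous.continuousOn (by have := hG.cont _ hX'; fun_prop)).upperSemicontinuousOn
    (by simp) (fun ε hε => ⟨∅, isCompact_empty, fun y _ => ?_⟩) (fun y _ _ => ?_) y trivial
  · have := S.nonpos _ hX' y
    have : (0 : ℝ) ≤ N := N.cast_nonneg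
    linarith
  obtain ⟨a1, a2⟩ := hG.sp _ hP.dens_zero y trivial
  obtain ⟨b1, b2⟩ := hG.sp _ hX' y trivial
  obtain ⟨c1, c2, c3, -⟩ := hP.ma_cvx _ _ (1 / 2) y (by norm_num) (by norm_num) a1 b1 a2 b2
  have d1 := sm_ad (sm_ml (sm_c (1 - 1 / 2)) a1) (sm_ml (sm_c (1 / 2)) b1)
  rw [hG.ma _ hP.dens_zero] at c2
  rw [hG.ma _ hX'] at c3
  rw [hG.zero] at c1 c2 c3 d1
  refine hP.tch (fun x => (1 - 1 / 2) * (0 : M → ℝ) x + 1 / 2 * S.φ (exp L • X) x + -(N + 1)) _ _ y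
    (sm_ad d1 (sm_c _)) (psd_ac d1 S.ok c1 _) (by simp; ring)
    (Eventually.of_forall fun x => by simp; linarith) ?_
  rw [hP.ma_congr _ _ (-(N + 1)) y (Eventually.of_forall fun x => rfl)]
  have h1 : exp (-(N + 1) : ℝ) * 2 ≤ (1 / 2) ^ N := by
    have : (2 : ℝ) ^ (N + 1) ≤ exp (N + 1 : ℕ) := by
      rw [← mul_one ((N + 1 : ℕ) : ℝ), exp_nat_mul]
      exact pow_le_pow_left₀ (by norm_num) (by linarith [add_one_le_exp (1 : ℝ)]) _
    rw [exp_neg, one_div, inv_pow, inv_mul_eq_div, div_le_iff₀ (exp_pos _),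
      le_inv_mul_iff₀ (by positivity), ← pow_succ]
    exact_mod_cast this
  set t := S.φ (exp L • X) y with ht
  have t0 : exp (t / 2) ≤ 1 := exp_le_one_iff.2 (by have := S.nonpos _ hX' y; linarith)
  have t1 := exp_pos (t / 2)
  have x0 := hX.nonneg y
  have e1 : exp (t / 2 - (N + 1)) = exp (-(N + 1) : ℝ) * exp (t / 2) := by
    rw [← exp_add]
    congr 1
    ring
  have e0 := exp_pos (-(N + 1) : ℝ)
  rw [e1]
  by_cases o : X y * exp (t / 2) ≤ 1
  · refine le_trans ?_ c2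
    simp only [Pi.zero_apply, exp_zero, add_zero, mul_one]
    rw [show (1 - 1 / 2 : ℝ) = 1 / 2 by norm_num, mul_assoc]
    exact (mul_le_mul_of_nonneg_left (by linarith) e0.le).trans h1
  · refine le_trans ?_ c3
    push Not at o
    have e2 : exp t = exp (t / 2) * exp (t / 2) := by rw [← exp_add, add_halves]
    have h2 : 1 ≤ exp L * exp (t / 2) := o.le.trans (mul_le_mul_of_nonneg_right (hb y) t1.le)
    have h3 : 1 ≤ X y := by nlinarith
    have h4 : exp (t / 2) * (1 + X y) ≤ 2 * (exp t * (1 + exp L * X y)) := by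
      rw [e2]
      have h5 : exp (t / 2) * X y ≤ exp (t / 2) * X y * (exp L * exp (t / 2)) :=
        le_mul_of_one_le_right (by positivity) h2
      nlinarith [mul_pos t1 t1]
    rw [Pi.smul_apply, smul_eq_mul, mul_assoc]
    exact (mul_le_mul_of_nonneg_left h4 e0.le).trans (by
      rw [← mul_assoc]
      exact mul_le_mul_of_nonneg_right h1 (by positivity))

end pat

variable {n : ℕ} {k k' : ℂ → ℝ} {w : ℂ}

/-- `k` is smooth and subharmonic at `w` -/
def PW (n : ℕ) (k : ℂ → ℝ) (w : ℂ) : Prop := ∀ v : Cm (n + 1), v 0 = w →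
  ContDiffAt ℝ ∞ (fun u : Cm (n + 1) => k (u 0)) v ∧
    (cHess (fun u : Cm (n + 1) => k (u 0)) v).PosSemidef

theorem PW.congr (h : PW n k w) (e : k' =ᶠ[𝓝 w] k) : PW n k' w := by
  rintro v rfl
  have e1 : (fun u : Cm (n + 1) => k' (u 0)) =ᶠ[𝓝 v] fun u => k (u 0) :=
    (continuous_apply 0).continuousAt.eventually e
  rw [C2.cHess_congr e1]
  exact ⟨(h v rfl).1.congr_of_eventuallyEq e1, (h v rfl).2⟩

theorem PW.cmul (h : PW n k w) {c : ℝ} (hc : 0 ≤ c) : PW n (fun w => c * k w) w := fun v hv =>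
  ⟨contDiffAt_const.mul (h v hv).1, by
    rw [C2.cHess_const_mul c ((h v hv).1.of_le two_le)]
    exact psd_smul (h v hv).2 hc⟩

theorem PW.add (h : PW n k w) (h' : PW n k' w) : PW n (fun w => k w + k' w) w := fun v hv =>
  ⟨(h v hv).1.add (h' v hv).1, by
    rw [C2.cHess_add ((h v hv).1.of_le two_le) ((h' v hv).1.of_le two_le)]
    exact (h v hv).2.add (h' v hv).2⟩

theorem pw_c (c : ℝ) : PW n (fun _ => c) w := fun v _ =>
  ⟨contDiffAt_const, by rw [C2.cHess_const]; exact .zero⟩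

theorem pw_lg (a : ℂ) {e : ℝ} (he : 0 < e) : PW n (fun w => log (‖w - a‖ ^ 2 + e)) w := by
  intro v _
  obtain ⟨h1, h2⟩ := hess_lg a v (e := e) (by positivity)
  exact ⟨h1, h2 ▸ bk_psd (by positivity) .zero⟩

theorem hess_log0 {v : Cm (n + 1)} (h : v 0 ≠ 0) (c : ℝ) :
    ContDiffAt ℝ ∞ (fun u : Cm (n + 1) => log (‖u 0‖ ^ 2) + c) v ∧
    cHess (fun u : Cm (n + 1) => log (‖u 0‖ ^ 2) + c) v = 0 := by
  obtain ⟨h1, h2⟩ := hess_lg 0 v (e := 0) (by rw [sub_zero, add_zero]; positivity)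
  simp only [sub_zero, add_zero, zero_div] at h1 h2
  refine ⟨h1.add contDiffAt_const, ?_⟩
  rw [C2.cHess_add (h1.of_le two_le) contDiffAt_const, C2.cHess_const, h2, add_zero]
  exact (bk_ext (M := 0) rfl (fun _ => rfl) (fun _ => rfl) fun _ _ => rfl).symm

theorem pw_log (h : w ≠ 0) (b c : ℝ) : PW n (fun w => b * (log (‖w‖ ^ 2) + c)) w := by
  rintro v rfl
  obtain ⟨h1, h2⟩ := hess_log0 h c
  refine ⟨contDiffAt_const.mul h1, ?_⟩
  rw [C2.cHess_const_mul b (h1.of_le two_le), h2, smul_zero]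
  exact .zero

theorem pw_gc (h : w ≠ 0) (c : ℝ) : PW n (fun w => Gc (log (‖w‖ ^ 2) + c)) w := by
  rintro v rfl
  obtain ⟨h1, h2⟩ := hess_log0 h c
  refine ⟨contDiff_Gc.contDiffAt.comp v h1, ?_⟩
  rw [cHess_comp' (contDiff_Gc.of_le two_le).contDiffAt (h1.of_le two_le), h2, smul_zero, zero_add,
    deriv_Gc]
  exact psd_smul (gg_psd _ _) (st'_nonneg _)

variable {Γ E : Type} [Group Γ] [TopologicalSpace E] [MulAction Γ E] [MeasurableSpace E]
  {C : Cov n Γ E} {β m : ℝ} {μ : Measure (E × ℂ)} {u : E × ℂ → ℝ} {y : E × ℂ}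

theorem PW.sm (h : PW n k y.2) : (QY C β m).SmAt (fun x => k x.2) y := by
  rintro i z - rfl
  exact (h z rfl).1

theorem addW (hP : PG (QY C β m) μ) (hO : (QY C β m).Ok) (hu : (QY C β m).SmAt u y)
    (hp : (QY C β m).PsdAt u y) (hk : PW n k y.2) :
    (QY C β m).PsdAt (fun x => u x + k x.2) y ∧
      (QY C β m).MA u y ≤ (QY C β m).MA (fun x => u x + k x.2) y := by
  have key : ∀ i, ∀ z ∈ (QY C β m).U i, (QY C β m).pt i z = y →
      (QY C β m).om (fun x => u x + k x.2) i z =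
        (QY C β m).om u i z + cHess (fun u : Cm (n + 1) => k (u 0)) z := by
    rintro i z hz rfl
    simp only [Pat.om, ← add_assoc]
    exact C2.cHess_add (((hO.ρ_sm i z hz).add (hu i z hz rfl)).of_le two_le)
      ((hk z rfl).1.of_le two_le)
  refine ⟨fun i z hz e => ?_, ?_⟩
  · rw [key i z hz e]
    exact (hp i z hz e).add (hk z (congrArg Prod.snd e)).2
  · obtain ⟨i, z, hz, rfl⟩ := hO.cover y
    rw [hP.ma_pt _ i z hz ((hu i z hz rfl).of_le two_le),
      hP.ma_pt _ i z hz ((sm_ad hu hk.sm i z hz rfl).of_le two_le), key i z hz rfl]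
    refine div_le_div_of_nonneg_right (det_mono (hp i z hz rfl) ?_) (hP.vol_pos i z hz).1.le
    rw [add_sub_cancel_left]
    exact (hk z rfl).2

theorem addH (hP : PG (QY C β m) μ) (hO : (QY C β m).Ok) (hu : (QY C β m).SmAt u y)
    (hp : (QY C β m).PsdAt u y) (h : y.2 ≠ 0) (b c : ℝ) :
    (QY C β m).MA (fun x => u x + b * (log (‖x.2‖ ^ 2) + c)) y = (QY C β m).MA u y := by
  obtain ⟨h1, h2⟩ := addW hP hO hu hp (pw_log h b c)
  have h3 := (addW hP hO (sm_ad hu (pw_log h b c).sm) h1 (pw_log h (-b) c)).2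
  simp only [neg_mul, add_neg_cancel_right] at h3
  exact le_antisymm h3 h2

end Vale.Agent.P284Y.Y.Bq
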