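import Vale.Agent.P284Y.Y.R41
import Vale.Agent.P284Y.Y.Bg1
import Vale.Agent.P284Y.Y.Cov
import Vale.Agent.P284Y.Y9.Par

/-!
# P284Y, block Y: the row Y1 (gluing, point masses)
-/

set_option linter.all false

open scoped ContDiff Topology ComplexOrder
open Filter Set Function MeasureTheory

noncomputable section

namespace Vale.Agent.P284Y

open Vale.Agent.P272.K Vale.Agent.P284Z Vale.Agent.P284Z.J Real Y Y.Bq

namespace S41b

section pat
variable {N : ℕ} {M : Type} [TopologicalSpace M] [MeasurableSpace M] {Q : Pat N M}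
  {μ : Measure M}

theorem tch_mono (hP : PG Q μ) (hO : Q.Ok) {ψ Ψ : M → ℝ} {b b' c : ℝ} {y : M} (h : Q.Tch ψ b y)
    (e : Ψ y = ψ y + c) (hl : ∀ᶠ x in 𝓝 y, ψ x + c ≤ Ψ x) (hb : b' ≤ b) : Q.Tch Ψ b' y := by
  obtain ⟨i, z, hz, rfl, u, h1, h2, h3, h4, h5⟩ := h
  have h6 : cHess (fun w => Q.ρ i w + (u w + c)) z = cHess (fun w => Q.ρ i w + u w) z := by
    simp only [← add_assoc]
    rw [C2.cHess_add (((hO.ρ_sm i z hz).of_le two_le).add h1) contDiffAt_const, C2.cHess_const,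
      add_zero]
  refine ⟨i, z, hz, rfl, fun w => u w + c, h1.add contDiffAt_const, by rw [e, ← h2], ?_, ?_, ?_⟩
  · filter_upwards [h3, ev_pt hP hz hl] with w a1 a2
    linarith
  · rw [h6]
    exact h4
  · rw [h6]
    exact (mul_le_mul_of_nonneg_right hb (hP.vol_pos i z hz).1.le).trans h5

end pat

variable {n : ℕ}

theorem pw_sq {w : ℂ} : PW n (fun w => ‖w‖ ^ 2) w := by
  intro v _
  have h1 := (sm_w (n := n) 0).contDiffAt (x := v)
  have h2 := hess_w 0 v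
  simp only [sub_zero] at h1 h2
  refine ⟨h1, ?_⟩
  rw [h2]
  exact bk_psd (c := 1) zero_le_one .zero

theorem pw_sum {J : Type} (I : Finset J) {k : J → ℂ → ℝ} {w : ℂ} (h : ∀ j ∈ I, PW n (k j) w) :
    PW n (fun w => ∑ j ∈ I, k j w) w := by
  classical
  induction I using Finset.induction_on with
  | empty => simpa using pw_c 0
  | insert a s ha ih =>
    simp only [Finset.sum_insert ha]
    exact (h a (Finset.mem_insert_self _ _)).add (ih fun j hj => h j (Finset.mem_insert_of_mem hj))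

theorem bh_le {m : ℝ} (hm : 0 ≤ m) {w : ℂ} (h : w ≠ 0) : bh m w ≤ -1 := by
  have h1 := log_le_sub_one_of_pos (x := 4 * ‖w‖ ^ 2) (by positivity)
  have h2 : m / 8 * (log (4 * ‖w‖ ^ 2) + 1 - 4 * ‖w‖ ^ 2) ≤ 0 :=
    mul_nonpos_of_nonneg_of_nonpos (by positivity) (by linarith)
  rw [bh]
  linarith

theorem bh_half {m : ℝ} {w : ℂ} (h : ‖w‖ = 1 / 2) : bh m w = -1 := by
  rw [bh, h]
  norm_num

theorem bh_eq (m : ℝ) {w : ℂ} (h : w ≠ 0) :
    bh m w = -(m / 2) * ‖w‖ ^ 2 + (m / 8 * (log (‖w‖ ^ 2) + (log 4 + 1)) + -1) := by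
  rw [bh, log_mul (by norm_num) (by positivity)]
  ring

theorem bh_cont (m : ℝ) {w : ℂ} (h : w ≠ 0) : ContinuousAt (bh m) w := by
  have h1 : 4 * ‖w‖ ^ 2 ≠ 0 := by positivity
  unfold bh
  fun_prop (disch := exact h1)

theorem exp_half {t : ℝ} (h : t ≤ -1) : exp t ≤ 1 / 2 := by
  refine (exp_le_exp.2 h).trans ?_
  rw [exp_neg, one_div]
  exact inv_anti₀ two_pos (by linarith [add_one_le_exp (1 : ℝ)])

variable {Γ E : Type} [Group Γ] [TopologicalSpace E] [MulAction Γ E] [MeasurableSpace E]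
  {C : Cov n Γ E} {β m : ℝ} {μ : Measure (E × ℂ)}

theorem om_half (i : Γ × C.I) {v : Cm (n + 1)} (hv : v ∈ (QY C β m).U i) :
    (QY C β m).om (fun x => -(m / 2) * ‖x.2‖ ^ 2) i v =
      bk (m / 2 : ℝ) ((β : ℂ) • cHess (C.ρ i.2) (Fin.tail v)) := by
  have h3 := (pw_sq (n := n) v rfl).1.of_le two_le
  have h4 := hess_w 0 v
  simp only [sub_zero] at h4
  refine (C2.cHess_add ((ρY_sm C i.2 hv).of_le two_le) (contDiffAt_const.mul h3)).trans ?_
  rw [ρY_hess C i.2 hv, C2.cHess_const_mul _ h3, h4, bk_smul, bk_add]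
  congr 1
  · push_cast
    ring
  · simp

/-- functions `-(m / 2) |w|² + k w` with `k` subharmonic -/
theorem tch_w (hP : PG (QY C β m) μ) (hO : (QY C β m).Ok) (hβ : 0 < β) (hm : 0 < m) {k : ℂ → ℝ}
    {ψ : E × ℂ → ℝ} {b : ℝ} {y : E × ℂ} (hk : PW n k y.2)
    (e : -(m / 2) * ‖y.2‖ ^ 2 + k y.2 = ψ y)
    (hl : ∀ᶠ x in 𝓝 y, -(m / 2) * ‖x.2‖ ^ 2 + k x.2 ≤ ψ x) (hb : b ≤ 1 / 2) :
    (QY C β m).Tch ψ b y := by
  have h1 : (QY C β m).SmAt (fun x => -(m / 2) * ‖x.2‖ ^ 2) y := sm_ml (sm_c _) pw_sq.sm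
  have h2 : (QY C β m).PsdAt (fun x => -(m / 2) * ‖x.2‖ ^ 2) y := fun i z hz _ => by
    rw [om_half i hz]
    exact bk_psd (by positivity) (psd_smul (C.ρ_pos _ _ hz).posSemidef hβ.le)
  obtain ⟨h3, h4⟩ := addW hP hO h1 h2 hk
  refine hP.tch _ _ _ y (sm_ad h1 hk.sm) h3 e hl (hb.trans (le_trans (ge_of_eq ?_) h4))
  obtain ⟨i, z, hz, rfl⟩ := hO.cover y
  have h5 := (hP.vol_pos i z hz).1
  rw [hP.ma_pt _ i z hz ((h1 i z hz rfl).of_le two_le), om_half i hz, div_eq_iff h5.ne',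
    QY_vol C i hz, bk_det, Matrix.det_smul, Fintype.card_fin, ← mul_assoc,
    ← Complex.ofReal_pow, ← Complex.ofReal_mul, Complex.re_ofReal_mul]
  ring

variable {S : MAS (QY C β m) μ}

/-- **GLUE** -/
theorem glue (hG : Gen S) (hβ : 0 < β) (hm : 0 < m) (ν ψ : E × ℂ → ℝ) (r : ℝ)
    (hν : (QY C β m).Dens ν) (r0 : 0 < r) (r1 : r < 1 / 2) (hs : ∀ y, ν y ≠ 0 → ‖y.2‖ ≤ r)
    (hψ : ∀ y : E × ℂ, ‖y.2‖ < 1 / 2 → ContinuousAt ψ y ∧ ψ y ≤ 0 ∧
      (S.φ ν y < ψ y - 2 → (QY C β m).Sub ν ψ y))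
    (hc : ∀ y : E × ℂ, ‖y.2‖ = r → bh m y.2 + 2 ≤ ψ y) :
    (∀ y : E × ℂ, ‖y.2‖ < 1 / 2 → ψ y - 2 ≤ S.φ ν y) ∧
      (∀ y : E × ℂ, r ≤ ‖y.2‖ → bh m y.2 ≤ S.φ ν y) ∧
        ∀ y : E × ℂ, 1 / 2 ≤ ‖y.2‖ → -2 ≤ S.φ ν y := by
  have hP := hG.pg
  obtain ⟨A, a1, a2⟩ : ∃ A : E × ℂ → ℝ, (∀ y, ‖y.2‖ < 1 / 2 → A y = ψ y - 2) ∧
      ∀ y, 1 / 2 ≤ ‖y.2‖ → A y = -2 :=
    ⟨fun y => if ‖y.2‖ < 1 / 2 then ψ y - 2 else -2, fun y h => if_pos h,
      fun y h => if_neg h.not_gt⟩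
  obtain ⟨Ψ, b1, b2⟩ : ∃ Ψ : E × ℂ → ℝ, (∀ y, ‖y.2‖ < r → Ψ y = A y) ∧
      ∀ y, r ≤ ‖y.2‖ → Ψ y = max (A y) (bh m y.2) :=
    ⟨fun y => if ‖y.2‖ < r then A y else max (A y) (bh m y.2), fun y h => if_pos h,
      fun y h => if_neg h.not_gt⟩
  have n0 : ∀ y : E × ℂ, r ≤ ‖y.2‖ → y.2 ≠ 0 := fun y h => norm_pos_iff.1 (r0.trans_le h)
  have cn : Continuous fun y : E × ℂ => ‖y.2‖ := by fun_prop
  have a3 : ∀ y, A y ≤ -2 := fun y => by
    rcases lt_or_ge ‖y.2‖ (1 / 2) with o | o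
    · linarith [a1 y o, (hψ y o).2.1]
    · exact (a2 y o).le
  have b3 : ∀ y, A y ≤ Ψ y := fun y => by
    rcases lt_or_ge ‖y.2‖ r with o | o
    · exact (b1 y o).ge
    · exact (le_max_left _ _).trans (b2 y o).ge
  have b4 : ∀ y, Ψ y ≤ max (A y) (bh m y.2) := fun y => by
    rcases lt_or_ge ‖y.2‖ r with o | o
    · exact (b1 y o).le.trans (le_max_left _ _)
    · exact (b2 y o).le
  have b5 : ∀ y, Ψ y ≤ -1 := fun y => by
    rcases lt_or_ge ‖y.2‖ r with o | o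
    · linarith [b1 y o, a3 y]
    · exact (b2 y o).le.trans (max_le (by linarith [a3 y]) (bh_le hm.le (n0 y o)))
  have a4 : ∀ y t, A y < t → ∀ᶠ x in 𝓝 y, A x < t := fun y t ht => by
    rcases lt_or_ge ‖y.2‖ (1 / 2) with o | o
    · rw [a1 y o] at ht
      filter_upwards [cn.continuousAt.eventually (gt_mem_nhds o),
        ((hψ y o).1.sub continuousAt_const).eventually (gt_mem_nhds ht)] with x c1 c2
      rwa [a1 x c1]
    · exact .of_forall fun x => (a3 x).trans_lt ((a2 y o).symm.trans_lt ht)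
  have key : ∀ y, Ψ y ≤ S.φ ν y := fun y => by
    refine hG.vc ν univ Ψ hν isOpen_univ (UpperSemicontinuous.upperSemicontinuousOn
      (upperSemicontinuous_iff.2 fun y => upperSemicontinuousAt_iff.2 fun t ht => ?_) _) (by simp)
      (fun ε hε => ⟨∅, isCompact_empty, fun y _ => by linarith [b5 y]⟩) (fun y _ hy => ?_) y trivial
    · rcases lt_or_ge ‖y.2‖ r with o | o
      · filter_upwards [cn.continuousAt.eventually (gt_mem_nhds o), a4 y t ((b3 y).trans_lt ht)]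
          with x c1 c2
        rwa [b1 x c1]
      · rw [b2 y o, max_lt_iff] at ht
        filter_upwards [a4 y t ht.1, ((bh_cont m (n0 y o)).comp continuous_snd.continuousAt).eventually
          (gt_mem_nhds ht.2)] with x c1 c2
        exact (b4 x).trans_lt (max_lt c1 c2)
    have z0 : r < ‖y.2‖ → exp (Ψ y) * (1 + ν y) ≤ 1 / 2 := fun o => by
      rw [not_not.1 fun o' => (hs y o').not_gt o, add_zero, mul_one]
      exact exp_half (b5 y)
    by_cases o : r ≤ ‖y.2‖ ∧ A y < bh m y.2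
    · have o1 : r < ‖y.2‖ := o.1.lt_of_ne fun e => by
        linarith [o.2, hc y e.symm, a1 y (e ▸ r1)]
      refine tch_w hP S.ok hβ hm ((pw_log (n0 y o.1) (m / 8) (log 4 + 1)).add (pw_c (-1))) ?_ ?_
        (z0 o1)
      · rw [← bh_eq m (n0 y o.1), b2 y o.1, max_eq_right o.2.le]
      · filter_upwards [cn.continuousAt.eventually (lt_mem_nhds o1)] with x c1
        rw [← bh_eq m (n0 x c1.le), b2 x c1.le]
        exact le_max_right _ _
    have o1 : Ψ y = A y := by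
      rcases lt_or_ge ‖y.2‖ r with o1 | o1
      · exact b1 y o1
      · rw [b2 y o1, max_eq_left (not_lt.1 fun o2 => o ⟨o1, o2⟩)]
    rcases lt_or_ge ‖y.2‖ (1 / 2) with o2 | o2
    · rw [a1 y o2] at o1
      refine tch_mono hP S.ok (c := -2) ((hψ y o2).2.2 (o1 ▸ hy)) o1 ?_
        (mul_le_mul_of_nonneg_right (exp_le_exp.2 (by linarith)) (by linarith [hν.nonneg y]))
      filter_upwards [cn.continuousAt.eventually (gt_mem_nhds o2)] with x c1
      linarith [a1 x c1, b3 x]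
    · have o3 : 1 / 2 < ‖y.2‖ := o2.lt_of_ne fun e =>
        o ⟨r1.le.trans o2, by linarith [a3 y, bh_half (m := m) e.symm]⟩
      refine tch_w hP S.ok hβ hm ((pw_sq.cmul (c := m / 2) (by positivity)).add (pw_c (-2))) ?_ ?_
        (z0 (r1.trans o3))
      · linarith [a2 y o2]
      · filter_upwards [cn.continuousAt.eventually (lt_mem_nhds o3)] with x c1
        linarith [a2 x c1.le, b3 x]
  exact ⟨fun y h => by linarith [key y, b3 y, a1 y h],
    fun y h => ((le_max_right _ _).trans (b2 y h).ge).trans (key y),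
    fun y h => by linarith [key y, b3 y, a2 y h]⟩

/-- the isometry as a homeomorphism -/
def iso (C : Cov n Γ E) (g : Γ) {u : ℂ} (hu : ‖u‖ = 1) (c : ℂ) : E × ℂ ≃ₜ E × ℂ :=
  (Homeomorph.mk (MulAction.toPerm g) (C.cont g) (C.cont g⁻¹)).prodCongr
    ((Homeomorph.mulLeft₀ u (norm_ne_zero_iff.1 (by simp [hu]))).trans (Homeomorph.addRight c))

theorem s'_ge {P : Par} {b : Pb C} (h : b.Ok P) : 9 ≤ b.s' := by
  have h1 := P.Z_le_lo.trans h.lo
  have h2 := P.Z_ge'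
  linarith [h.lo', P.le_sw (s := b.s) (by linarith)]

theorem w_le {P : Par} {b : Pb C} (h : b.Ok P) : ‖b.w‖ ≤ exp (-(9 / 2)) := by
  refine (pow_le_pow_iff_left₀ (norm_nonneg _) (exp_pos _).le two_ne_zero).1 (h.w_le.trans_eq ?_)
  rw [← exp_nat_mul]
  norm_num

theorem e_lt : exp (-(9 / 2)) < 1 / 4 := by
  rw [exp_neg, one_div]
  exact inv_strictAnti₀ (by norm_num) (by linarith [add_one_le_exp (9 / 2 : ℝ)])

theorem B_ge (P : Par) : 100 * (P.Z : ℝ) ≤ P.B := by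
  refine le_trans ?_ P.Zβ_le_B
  rw [mul_comm]
  refine mul_le_mul_of_nonneg_left (P.Z_ge'.trans (le_trans ?_ P.hi_le_β)) P.Z_pos.le
  exact ((P.Z_le_pow (by norm_num)).trans (le_mul_of_one_le_right (pow_pos P.Z_pos _).le
    P.one_le_TT)).trans (le_mul_of_one_le_right (mul_pos (pow_pos P.Z_pos _) P.TT_pos).le
      P.one_le_hi)

theorem num (P : Par) : exp (2 - 3 * P.B) +
    4 * P.Z * exp (2 - 3 * P.B + 3 * P.B * log 2 + P.B / P.Z) ≤ 1 / 2 := by
  have h1 := B_ge P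
  have h2 := P.Z_ge'
  have h3 : P.B / P.Z ≤ P.B / 100 := div_le_div_of_nonneg_left P.B_pos.le (by norm_num) h2
  have h4 : P.B * log 2 ≤ P.B * 0.7 :=
    mul_le_mul_of_nonneg_left (by linarith [log_two_lt_d9]) P.B_pos.le
  have h5 : ∀ t : ℝ, t ≤ -(20 * P.Z) → exp t ≤ (20 * P.Z : ℝ)⁻¹ := fun t ht => by
    refine (exp_le_exp.2 ht).trans ?_
    rw [exp_neg]
    exact inv_anti₀ (by linarith) (by linarith [add_one_le_exp (20 * P.Z : ℝ)])
  have h6 := h5 (2 - 3 * P.B) (by linarith)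
  have h7 := mul_le_mul_of_nonneg_left
    (h5 (2 - 3 * P.B + 3 * P.B * log 2 + P.B / P.Z) (by linarith)) (by linarith : 0 ≤ 4 * (P.Z : ℝ))
  have h8 : (20 * P.Z : ℝ)⁻¹ ≤ 4⁻¹ := inv_anti₀ (by norm_num) (by linarith)
  have h9 : 4 * P.Z * (20 * P.Z : ℝ)⁻¹ = 1 / 5 := by
    field_simp
    norm_num
  linarith

/-- **Y1** -/
theorem low {P : Par} {K : ℝ} {S : MAS (P.Q C) μ} (hG : Gen S) (ha : R41a P C μ K) (J : Type)
    (I : Finset J) (b : J → Pb C) (lam : J → ℝ) (ν : E × ℂ → ℝ) (hν : (P.Q C).Dens ν)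
    (hb : ∀ j ∈ I, (b j).Ok P ∧ 0 ≤ lam j) (hI : I.card ≤ 4 * P.Z)
    (hs : ∑ j ∈ I, lam j / (b j).s' ≤ 3 * P.B) (hle : ν ≤ ∑ j ∈ I, (b j).W P (lam j)) :
    (∀ y : E × ℂ, ‖y.2‖ < 1 / 2 → ∑ j ∈ I, lam j / (b j).s' *
      log (‖y.2 - (b j).w‖ ^ 2 + exp (-(b j).s')) - 32 * P.B * ‖y.2‖ ^ 2 - 3 * P.B ≤
        S.φ ν y) ∧ ∀ y : E × ℂ, 1 / 2 ≤ ‖y.2‖ → -2 ≤ S.φ ν y := by
  have B1 := P.one_le_B
  have e1 := e_lt
  have e0 := exp_pos (-(9 / 2) : ℝ)
  have e2 : exp (-(9 / 2)) ^ 2 = exp (-9 : ℝ) := by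
    rw [← exp_nat_mul]
    norm_num
  have s0 : ∀ j ∈ I, 0 < (b j).s' := fun j hj => by linarith [s'_ge (hb j hj).1]
  have c0 : ∀ j ∈ I, 0 ≤ lam j / (b j).s' := fun j hj => div_nonneg (hb j hj).2 (s0 j hj).le
  have hW : ∀ y, ν y ≤ ∑ j ∈ I, exp (lam j) * (b j).p P y := fun y => by
    simpa [Pb.W] using hle y
  have bx : ∀ j ∈ I, ∀ y, (b j).p P y ≠ 0 → ‖y.2 - (b j).w‖ ≤ exp (-((b j).s' / 2)) :=
    fun j hj y o => by simpa using (ha.supp _ (hb j hj).1 y o).2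
  obtain ⟨k, hk⟩ : ∃ k : ℂ → ℝ, k = fun w => ∑ j ∈ I, lam j / (b j).s' *
      log (‖w - (b j).w‖ ^ 2 + exp (-(b j).s')) := ⟨_, rfl⟩
  have pk : ∀ w, PW n (fun w => k w + (2 - 3 * P.B)) w := fun w => by
    rw [hk]
    exact (pw_sum I fun j hj => (pw_lg _ (exp_pos _)).cmul (c0 j hj)).add (pw_c _)
  have t0 : ∀ w : ℂ, ‖w‖ < 1 / 2 → ∀ j ∈ I, lam j / (b j).s' *
      log (‖w - (b j).w‖ ^ 2 + exp (-(b j).s')) ≤ 0 := fun w hw j hj => by
    refine mul_nonpos_of_nonneg_of_nonpos (c0 j hj) (log_nonpos (by positivity) ?_)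
    have h1 : ‖w - (b j).w‖ ≤ 3 / 4 := by linarith [norm_sub_le w (b j).w, w_le (hb j hj).1]
    have h2 : exp (-(b j).s') ≤ exp (-(9 / 2)) := exp_le_exp.2 (by linarith [s'_ge (hb j hj).1])
    nlinarith [norm_nonneg (w - (b j).w)]
  have mm : P.m / 2 = 32 * P.B := by
    rw [Par.m]
    ring
  refine And.elim (fun h1 h2 => ?_) (glue hG P.β_pos P.m_pos ν
    (fun y => -(P.m / 2) * ‖y.2‖ ^ 2 + (k y.2 + (2 - 3 * P.B))) (2 * exp (-(9 / 2))) hν
    (by positivity) (by linarith) (fun y o => ?_) (fun y hy => ?_) fun y hy => ?_)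
  · refine ⟨fun y hy => le_trans (le_of_eq ?_) (h1 y hy), h2.2⟩
    simp only [mm, hk]
    ring
  · obtain ⟨j, hj, h3⟩ := Finset.exists_ne_zero_of_sum_ne_zero
      (((hν.nonneg y).lt_of_ne' o).trans_le (hW y)).ne'
    have h4 := (bx j hj y (right_ne_zero_of_mul h3)).trans
      (exp_le_exp.2 (by linarith [s'_ge (hb j hj).1] : _ ≤ -(9 / 2 : ℝ)))
    linarith [norm_sub_norm_le y.2 (b j).w, w_le (hb j hj).1]
  · have k0 : k y.2 ≤ 0 := by
      rw [hk]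
      exact Finset.sum_nonpos (t0 _ hy)
    have q0 : 0 ≤ P.m / 2 * ‖y.2‖ ^ 2 := by
      have := P.m_pos
      positivity
    refine ⟨hG.pg.cont _ y (sm_ad (sm_ml (sm_c _) pw_sq.sm) (pk _).sm), by linarith, fun _ =>
      tch_w hG.pg S.ok P.β_pos P.m_pos (pk _) rfl (.of_forall fun _ => le_rfl)
        (le_trans ?_ (num P))⟩
    have h3 : exp (-(P.m / 2) * ‖y.2‖ ^ 2 + (k y.2 + (2 - 3 * P.B))) ≤
        exp (k y.2 + (2 - 3 * P.B)) := exp_le_exp.2 (by linarith)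
    refine (mul_le_mul h3 (add_le_add_right (hW y) 1) (by linarith [hν.nonneg y])
      (exp_pos _).le).trans ?_
    rw [mul_add, mul_one, Finset.mul_sum]
    refine add_le_add (exp_le_exp.2 (by linarith)) ((Finset.sum_le_card_nsmul _ _
      (exp (2 - 3 * P.B + 3 * P.B * log 2 + P.B / P.Z)) fun j hj => ?_).trans ?_)
    · by_cases o : (b j).p P y = 0
      · rw [o, mul_zero, mul_zero]
        positivity
      have h4 : log (‖y.2 - (b j).w‖ ^ 2 + exp (-(b j).s')) ≤ log 2 - (b j).s' := by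
        have h5 := pow_le_pow_left₀ (norm_nonneg _) (bx j hj y o) 2
        rw [← exp_nat_mul, show (2 : ℕ) * -((b j).s' / 2) = -(b j).s' by push_cast; ring] at h5
        rw [log_le_iff_le_exp (by positivity), sub_eq_add_neg (log 2), exp_add, exp_log two_pos]
        linarith
      have h5 : k y.2 ≤ lam j / (b j).s' * log (‖y.2 - (b j).w‖ ^ 2 + exp (-(b j).s')) := by
        classical
        rw [hk]
        simp only
        rw [← Finset.add_sum_erase I _ hj]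
        exact add_le_of_nonpos_right
          (Finset.sum_nonpos fun i hi => t0 _ hy i (Finset.mem_of_mem_erase hi))
      have h6 := mul_le_mul_of_nonneg_left h4 (c0 j hj)
      rw [mul_sub, div_mul_cancel₀ _ (s0 j hj).ne'] at h6
      have h7 := mul_le_mul_of_nonneg_right ((Finset.single_le_sum c0 hj).trans hs)
        (log_nonneg one_le_two)
      rw [← mul_assoc, ← exp_add, exp_add _ (P.B / P.Z)]
      exact mul_le_mul (exp_le_exp.2 (by linarith)) (ha.sup _ (hb j hj).1 y).2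
        ((ha.dens _ (hb j hj).1).1.nonneg y) (exp_pos _).le
    · rw [nsmul_eq_mul]
      exact mul_le_mul_of_nonneg_right (by exact_mod_cast hI) (exp_pos _).le
  · have h3 : -(9 * (3 * P.B)) ≤ k y.2 := by
      refine le_trans (b := ∑ j ∈ I, lam j / (b j).s' * -9) ?_ ?_
      · rw [← Finset.sum_mul]
        linarith
      rw [hk]
      refine Finset.sum_le_sum fun j hj => mul_le_mul_of_nonneg_left ?_ (c0 j hj)
      have h4 : exp (-(9 / 2)) ≤ ‖y.2 - (b j).w‖ := by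
        linarith [norm_sub_norm_le y.2 (b j).w, w_le (hb j hj).1]
      rw [le_log_iff_exp_le (by positivity), ← e2]
      exact (pow_le_pow_left₀ e0.le h4 2).trans (le_add_of_nonneg_right (exp_pos _).le)
    have h4 : log (4 * ‖y.2‖ ^ 2) = 4 * log 2 - 9 := by
      rw [hy, mul_pow, e2, ← mul_assoc, log_mul (by norm_num) (exp_pos _).ne', log_exp,
        show (4 * 2 ^ 2 : ℝ) = 2 ^ 4 by norm_num, log_pow]
      push_cast
      ring
    have h5 : P.B * log 2 ≤ P.B * 0.7 :=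
      mul_le_mul_of_nonneg_left (by linarith [log_two_lt_d9]) P.B_pos.le
    rw [bh, h4, Par.m]
    linarith

theorem glu {P : Par} {K : ℝ} {S : MAS (P.Q C) μ} (hG : Gen S) (ha : R41a P C μ K) (b : Pb C)
    (lam κ r A : ℝ) (hb : b.Ok P) (k0 : 0 ≤ κ) (k3 : κ ≤ 3) (hl : lam ≤ κ * P.B * b.s')
    (r0 : 0 < r) (hw : 2 * ‖b.w‖ ≤ r) (r1 : r < 1 / 2)
    (hA : A ≤ (8 - κ) * P.B * -log (r ^ 2) - 28 * P.B) : Y.Glu S (b.W P lam) r A := by
  intro ν ψ hν hs hc hψ hr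
  have B1 := P.one_le_B
  have s0 : 0 < b.s' := by linarith [s'_ge hb]
  have h1 : max lam 0 / b.s' ≤ κ * P.B := (div_le_iff₀ s0).2 (max_le hl (by positivity))
  have h0 : 0 ≤ max lam 0 / b.s' := div_nonneg (le_max_right _ _) s0.le
  obtain ⟨h2, -⟩ := low hG ha Unit {()} (fun _ => b) (fun _ => max lam 0) _ (ha.densW b lam hb)
    (fun _ _ => ⟨hb, le_max_right _ _⟩) (by
      have := P.Z_ge
      rw [Finset.card_singleton]
      omega) (by
      rw [Finset.sum_singleton]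
      nlinarith) (by
      rw [Finset.sum_singleton]
      exact fun y => mul_le_mul_of_nonneg_right (exp_le_exp.2 (le_max_left _ _))
        ((ha.dens b hb).1.nonneg y))
  refine And.imp_right And.right (glue hG P.β_pos P.m_pos ν ψ r hν r0 r1 hs (fun y hy =>
    ⟨hc.continuousAt, (hψ y (by linarith)).1, fun _ => (hψ y (by linarith)).2⟩) fun y hy => ?_)
  have h3 := h2 y (hy ▸ r1)
  rw [Finset.sum_singleton] at h3
  have l2 := log_nonneg (one_le_two (α := ℝ))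
  have e4 : log 4 = 2 * log 2 := by
    rw [show (4 : ℝ) = 2 ^ 2 by norm_num, log_pow]
    norm_num
  have h4 : log (r ^ 2) - 2 * log 2 ≤ log (‖y.2 - b.w‖ ^ 2 + exp (-b.s')) := by
    rw [← e4, ← log_div (by positivity) (by norm_num)]
    refine log_le_log (by positivity) (le_trans ?_ (le_add_of_nonneg_right (exp_pos _).le))
    have h5 : r / 2 ≤ ‖y.2 - b.w‖ := by linarith [norm_sub_norm_le y.2 b.w]
    nlinarith
  have h5 : log (r ^ 2) ≤ 0 := log_nonpos (by positivity) (by nlinarith)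
  have h6 := (mul_le_mul_of_nonpos_right h1 (by linarith : log (r ^ 2) - 2 * log 2 ≤ 0)).trans
    (mul_le_mul_of_nonneg_left h4 h0)
  have h7 : P.B * log 2 ≤ P.B * 0.7 :=
    mul_le_mul_of_nonneg_left (by linarith [log_two_lt_d9]) P.B_pos.le
  have h8 : κ * (P.B * log 2) ≤ 3 * (P.B * log 2) :=
    mul_le_mul_of_nonneg_right k3 (by positivity)
  have h9 := hr y hy
  rw [bh, log_mul (by norm_num) (by rw [hy]; positivity), e4, Par.m]
  rw [hy] at h3 ⊢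
  linarith

end S41b

/-- **the row Y1** -/
theorem st41b : St41b := fun n Γ E _ _ _ _ _ _ _ C K P μ S hG ha =>
  ⟨fun g u c ν hu hν => ⟨(hG.pg.aut (S41b.iso C g hu c) (ha.aut g u c hu)).2.2.2.2 ν hν,
      hG.aut (S41b.iso C g hu c) (ha.aut g u c hu) ν hν⟩,
    S41b.glue hG P.β_pos P.m_pos, S41b.low hG ha, S41b.glu hG ha⟩

end Vale.Agent.P284Y
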