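import Vale.Agent.P284Y.Y.R41g
import Vale.Agent.P284Y.A.Lip
import Vale.Agent.P284Y.Y9.Par
import Vale.Agent.P284Z.J.JB
import Mathlib.Analysis.Complex.Schwarz

/-!
# P284Y, block Y: changes of charts for the probes (proof)
-/

open scoped Matrix Topology
open Filter Set Metric

noncomputable section

namespace Vale.Agent.P284Y

open Vale.Agent.P272.K Vale.Agent.P284Z Vale.Agent.P284Z.J

namespace G44

variable {n : ℕ}

theorem nsq_nn (x : Cm n) : 0 ≤ nsq x := Finset.sum_nonneg fun _ _ => sq_nonneg _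

theorem nsq_up (x : Cm n) : nsq x ≤ n * ‖x‖ ^ 2 := by
  simpa [nsq] using Finset.sum_le_card_nsmul Finset.univ (fun b => ‖x b‖ ^ 2) _
    fun b _ => pow_le_pow_left₀ (norm_nonneg _) (norm_le_pi_norm x b) 2

theorem nsq_lo (x : Cm n) : ‖x‖ ^ 2 ≤ nsq x := by
  refine (Real.le_sqrt (norm_nonneg _) (nsq_nn x)).1 ?_
  exact (pi_norm_le_iff_of_nonneg (Real.sqrt_nonneg _)).2 fun b => Real.le_sqrt_of_sq_le
    (Finset.single_le_sum (f := fun b => ‖x b‖ ^ 2) (fun _ _ => sq_nonneg _) (Finset.mem_univ b))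

theorem nsq_sm (c : ℝ) (x : Cm n) : nsq ((c : ℂ) • x) = c ^ 2 * nsq x := by
  simp [nsq, Finset.mul_sum, mul_pow]

theorem nsq_tri {x y : Cm n} {a b : ℝ} (ha : 0 ≤ a) (hb : 0 ≤ b) (hx : nsq x ≤ a ^ 2)
    (hy : nsq y ≤ b ^ 2) : nsq (x + y) ≤ (a + b) ^ 2 := by
  have e : ∀ v : Cm n, nsq v = ‖(WithLp.toLp 2 v : EuclideanSpace ℂ (Fin n))‖ ^ 2 := fun v =>
    (EuclideanSpace.norm_sq_eq (WithLp.toLp 2 v)).symm
  rw [e] at hx hy ⊢
  rw [WithLp.toLp_add]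
  exact pow_le_pow_left₀ (norm_nonneg _) ((norm_add_le _ _).trans (add_le_add
    (le_of_pow_le_pow_left₀ two_ne_zero ha hx) (le_of_pow_le_pow_left₀ two_ne_zero hb hy))) 2

/-- a framed matrix is onto -/
theorem fr_surj {R : ℝ} {ξ : Mx n} (h : Fr R ξ) (w : Cm n) : ∃ v, ξ *ᵥ v = w := by
  refine (LinearMap.injective_iff_surjective (f := ξ.mulVecLin)).1
    ((injective_iff_map_eq_zero _).2 fun v hv => ?_) w
  have h1 := (h v).1
  rw [show ξ *ᵥ v = 0 from hv, show nsq (0 : Cm n) = 0 by simp [nsq]] at h1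
  have h2 := (nsq_lo v).trans (le_of_mul_le_mul_left (h1.trans_eq (mul_zero _).symm)
    (Real.exp_pos _))
  exact norm_eq_zero.1 (pow_eq_zero_iff two_ne_zero |>.1 (le_antisymm h2 (sq_nonneg _)))

/-- the derivative and the second order remainder of a holomorphic map -/
theorem rem {T : Cm n → Cm n} {x : Cm n} {δ K : ℝ} (hδ : 0 < δ) (hK : 0 ≤ K)
    (hd : ∀ z, ‖z - x‖ ≤ δ → DifferentiableAt ℂ T z ∧ ‖T z - T x‖ ≤ K * ‖z - x‖) :
    ‖fderiv ℂ T x‖ ≤ K ∧ ∀ h, ‖h‖ < δ →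
      ‖T (x + h) - T x - fderiv ℂ T x h‖ ≤ 2 * K / δ * ‖h‖ ^ 2 := by
  have h0 := (hd x (by simpa using hδ.le)).1.hasFDerivAt
  have h1 : ‖fderiv ℂ T x‖ ≤ K := h0.le_of_lip' hK (by
    filter_upwards [closedBall_mem_nhds x hδ] with z hz
    exact (hd z (mem_closedBall_iff_norm.1 hz)).2)
  refine ⟨h1, fun h hh => ?_⟩
  have h2 := Complex.dist_le_mul_div_pow_of_mapsTo_ball_of_isLittleO (n := 1)
    (f := fun z => T z - fderiv ℂ T x (z - x)) (c := x) (z := x + h) (R₁ := δ) (R₂ := 2 * K * δ)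
    (fun z hz => ((hd z (mem_ball_iff_norm.1 hz).le).1.sub (by fun_prop)).differentiableWithinAt)
    (fun z hz => ?_) ?_ (by simpa using hh)
  · simp only [dist_eq_norm, add_sub_cancel_left, sub_self, map_zero, sub_zero] at h2
    rw [sub_right_comm]
    refine h2.trans_eq ?_
    rw [one_add_one_eq_two]
    field_simp
  · have h3 := (mem_ball_iff_norm.1 hz).le
    rw [mem_closedBall_iff_norm, sub_self, map_zero, sub_zero, sub_right_comm]
    have h4 := ((fderiv ℂ T x).le_opNorm (z - x)).trans (mul_le_mul h1 h3 (norm_nonneg _) hK)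
    have h5 := (hd z h3).2.trans (mul_le_mul_of_nonneg_left h3 hK)
    linarith [norm_sub_le (T z - T x) (fderiv ℂ T x (z - x))]
  · simp only [sub_self, map_zero, sub_zero, pow_one]
    refine (h0.isLittleO.congr_left fun z => ?_).norm_right
    exact sub_right_comm _ _ _

/-- the scale is large -/
theorem small (P : Par) {s : ℝ} (h : P.lo ≤ s) : Real.exp (-(s / 4)) * (P.Z : ℝ) ^ 13 ≤ 1 := by
  have h1 := P.pow_le_lo.trans h
  have hZ := P.Z_ge'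
  have h2 : 0 ≤ s / 4 := by linarith [P.lo_pos]
  have h3 := Real.quadratic_le_exp_of_nonneg h2
  have h4 : ((P.Z : ℝ) ^ 8) ^ 2 ≤ s ^ 2 := pow_le_pow_left₀ (by positivity) h1 2
  have h5 : (P.Z : ℝ) ^ 13 * 32 ≤ ((P.Z : ℝ) ^ 8) ^ 2 := by
    rw [← pow_mul, show 8 * 2 = 13 + 3 from rfl, pow_add]
    exact mul_le_mul_of_nonneg_left (by linarith [P.Z_le_pow (a := 3) (by norm_num)])
      (by positivity)
  rw [Real.exp_neg, inv_mul_le_iff₀ (Real.exp_pos _)]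
  nlinarith

variable {Γ E : Type} [Group Γ] [TopologicalSpace E] [MulAction Γ E]

/-- uniform bounds for the changes of charts -/
theorem unif [T2Space E] (C : Cov n Γ E) : ∃ δ > (0 : ℝ), ∃ K ≥ (1 : ℝ),
    ∀ γ a γ' a', ∀ x ∈ C.B 3 a, ∀ x' ∈ C.B 3 a', C.pt γ a x = C.pt γ' a' x' →
      (C.Ov (γ'⁻¹ * γ) a a' x ∧ C.tr (γ'⁻¹ * γ) a a' x = x') ∧
      ‖fderiv ℂ (C.tr (γ'⁻¹ * γ) a a') x‖ ≤ K ∧ ∀ h, ‖h‖ < δ →
      C.pt γ a (x + h) = C.pt γ' a' (C.tr (γ'⁻¹ * γ) a a' (x + h)) ∧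
      ‖C.tr (γ'⁻¹ * γ) a a' (x + h) - x' - fderiv ℂ (C.tr (γ'⁻¹ * γ) a a') x h‖ ≤
        2 * K / δ * ‖h‖ ^ 2 := by
  obtain ⟨δ, hδ, K, hK, h⟩ := A.lip C (k := 3) (by norm_num)
  refine ⟨δ, hδ, K, hK, fun γ a γ' a' x hx x' hx' e => ?_⟩
  have o := C.Ov_of_eq (C.B_mono (by norm_num) a hx) (C.B_mono (by norm_num) a' hx') e
  have h1 : ∀ z, ‖z - x‖ ≤ δ → C.Ov (γ'⁻¹ * γ) a a' z ∧
      ‖C.tr (γ'⁻¹ * γ) a a' z - C.tr (γ'⁻¹ * γ) a a' x‖ ≤ K * ‖z - x‖ := fun z hz => by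
    obtain ⟨h2, w, h3, h4, h5⟩ := h γ a γ' a' x (C.B_sub_cB _ _ hx) x' (C.B_sub_cB _ _ hx') e z hz
    have o' := C.Ov_of_eq h2 h3 h4
    exact ⟨o'.1, by rwa [o'.2, o.2]⟩
  obtain ⟨h2, h3⟩ := rem hδ (zero_le_one.trans hK) fun z hz =>
    ⟨(C.an_tr (h1 z hz).1).differentiableAt, (h1 z hz).2⟩
  refine ⟨o, h2, fun v hv => ⟨?_, o.2 ▸ h3 v hv⟩⟩
  rw [C.pt_tr (h1 _ (by simpa using hv.le)).1, mul_inv_cancel_left]

end G44

open G44 in
theorem stGeo : StGeo := by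
  intro n Γ E _ _ _ _ C
  obtain ⟨δ, hδ, K, hK, h⟩ := unif C
  obtain ⟨Z₀, hZ₀⟩ := exists_nat_ge (n * (8 * K / δ) ^ 2 + 5 / δ ^ 2)
  refine ⟨n * K ^ 2, Z₀, fun K' hK' γ a γ' a' x hx x' hx' e u => ?_,
    fun P hP b b' r r' ok ok' hs e hr' hu r0 r2 u hur => ?_⟩
  · have k1 : n * K ^ 2 ≤ Real.exp (2 * K') := by
      have : (0 : ℝ) ≤ n * K ^ 2 := by positivity
      linarith [Real.add_one_le_exp (2 * K')]
    have key : ∀ (L : Cm n →L[ℂ] Cm n), ‖L‖ ≤ K → ∀ v, nsq (L v) ≤ Real.exp (2 * K') * nsq v :=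
      fun L hL v => by
      have h1 := pow_le_pow_left₀ (norm_nonneg _)
        ((L.le_opNorm v).trans (mul_le_mul_of_nonneg_right hL (norm_nonneg _))) 2
      calc nsq (L v) ≤ n * (K * ‖v‖) ^ 2 :=
            (nsq_up _).trans (mul_le_mul_of_nonneg_left h1 n.cast_nonneg)
        _ = n * K ^ 2 * ‖v‖ ^ 2 := by ring
        _ ≤ _ := mul_le_mul k1 (nsq_lo v) (sq_nonneg _) (Real.exp_pos _).le
    obtain ⟨o, h1, -⟩ := h γ a γ' a' x hx x' hx' e
    obtain ⟨-, h2, -⟩ := h γ' a' γ a x' hx' x hx e.symm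
    rw [jm_mulVec]
    refine ⟨?_, key _ h1 u⟩
    have h3 := C.fderiv_tr_inv o.1 u
    rw [o.2, mul_inv_rev, inv_inv] at h3
    have h4 := key _ h2 (fderiv ℂ (C.tr (γ'⁻¹ * γ) a a') x u)
    rw [h3] at h4
    rwa [Real.exp_neg, inv_mul_le_iff₀ (Real.exp_pos _)]
  · obtain ⟨-, -, h1⟩ := h _ _ _ _ _ ok.x_mem _ ok'.x_mem e
    obtain ⟨u', hu', e'⟩ := hu u hur
    rw [jm_mulVec] at e'
    have f := ok.fr
    have f' := hs ▸ ok'.fr
    have hε := small P ok.lo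
    have ε0 := Real.exp_pos (-(b.s / 4))
    have e1 : Real.exp (-(b.s / 2)) = Real.exp (-(b.s / 4)) ^ 2 := by
      rw [← Real.exp_nat_mul]
      congr 1
      push_cast
      ring
    have e2 : Real.exp (2 * (b.s / 8)) = (Real.exp (-(b.s / 4)))⁻¹ := by
      rw [← Real.exp_neg]
      congr 1
      ring
    have e3 : Real.exp (-(2 * (b.s / 8))) = Real.exp (-(b.s / 4)) := by
      congr 1
      ring
    simp only [Fr, e2, e3] at f f'
    simp only [Pb.z, hs, e1]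
    generalize Real.exp (-(b.s / 4)) = ε at *
    have hZ : n * (8 * K / δ) ^ 2 + 5 / δ ^ 2 ≤ P.Z := hZ₀.trans (by exact_mod_cast hP)
    have p1 : (0 : ℝ) ≤ n * (8 * K / δ) ^ 2 := by positivity
    have p2 : (0 : ℝ) < 5 / δ ^ 2 := by positivity
    have εZ : ε * P.Z ≤ 1 :=
      (mul_le_mul_of_nonneg_left (P.Z_le_pow (by norm_num)) ε0.le).trans hε
    have ε1 : ε ≤ 1 := (le_mul_of_one_le_right ε0.le P.one_le_Z).trans εZ
    have εδ : ε * 5 ≤ δ ^ 2 := by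
      have := (mul_le_mul_of_nonneg_left (show 5 / δ ^ 2 ≤ P.Z by linarith) ε0.le).trans εZ
      rwa [← mul_div_assoc, div_le_one (by positivity)] at this
    set v := ((ε ^ 2 : ℝ) : ℂ) • b.ξ *ᵥ u with hv
    have v1 : ‖v‖ ^ 2 ≤ 4 * ε ^ 3 := by
      refine (nsq_lo v).trans ?_
      rw [hv, nsq_sm]
      have h2 : nsq u ≤ 4 := hur.trans (by nlinarith)
      calc (ε ^ 2) ^ 2 * nsq (b.ξ *ᵥ u) ≤ (ε ^ 2) ^ 2 * (ε⁻¹ * 4) :=
            mul_le_mul_of_nonneg_left ((f u).2.trans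
              (mul_le_mul_of_nonneg_left h2 (by positivity))) (by positivity)
        _ = 4 * ε ^ 3 := by field_simp
    have v2 : ‖v‖ < δ := by
      refine lt_of_pow_lt_pow_left₀ 2 hδ.le (v1.trans_lt ?_)
      have : ε ^ 3 ≤ ε := pow_le_of_le_one ε0.le ε1 (by norm_num)
      linarith
    obtain ⟨h2, h3⟩ := h1 v v2
    set R := C.tr (b'.γ⁻¹ * b.γ) b.a b'.a (b.x + v) - b'.x -
      fderiv ℂ (C.tr (b'.γ⁻¹ * b.γ) b.a b'.a) b.x v with hR
    obtain ⟨w, hw⟩ := fr_surj ok'.fr ((((ε ^ 2)⁻¹ : ℝ) : ℂ) • R)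
    have R1 : ‖R‖ ≤ 8 * K / δ * ε ^ 3 := h3.trans ((mul_le_mul_of_nonneg_left v1
      (by positivity)).trans_eq (by ring))
    have w1 : nsq w ≤ n * (8 * K / δ) ^ 2 * ε := by
      refine le_of_mul_le_mul_left ((f' w).1.trans ?_) ε0
      rw [hw, nsq_sm]
      calc (ε ^ 2)⁻¹ ^ 2 * nsq R ≤ (ε ^ 2)⁻¹ ^ 2 * (n * (8 * K / δ * ε ^ 3) ^ 2) :=
            mul_le_mul_of_nonneg_left ((nsq_up R).trans (mul_le_mul_of_nonneg_left
              (pow_le_pow_left₀ (norm_nonneg _) R1 2) n.cast_nonneg)) (by positivity)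
        _ = _ := by field_simp
    have w2 : nsq w ≤ (P.q * r') ^ 2 := by
      have q0 := P.q_pos
      have h4 : (P.Z : ℝ) * ε ≤ P.q ^ 2 := by
        refine le_of_mul_le_mul_right ?_ (pow_pos (pow_pos P.Z_pos 6) 2)
        rw [← mul_pow, P.q_mul, one_pow]
        exact le_of_eq_of_le (by ring) hε
      calc nsq w ≤ P.Z * ε := w1.trans (mul_le_mul_of_nonneg_right (by linarith) ε0.le)
        _ ≤ P.q ^ 2 := h4
        _ ≤ _ := pow_le_pow_left₀ q0.le (le_mul_of_one_le_right q0.le hr') 2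
    refine ⟨u' + w, (nsq_tri (by linarith) (mul_nonneg P.q_pos.le (by linarith)) hu' w2).trans_eq
      (by ring), h2.trans (congrArg _ ?_)⟩
    rw [Matrix.mulVec_add, hw, smul_add, smul_smul, ← Complex.ofReal_mul,
      mul_inv_cancel₀ (by positivity), Complex.ofReal_one, one_smul, ← e', ← map_smul, ← hv, hR]
    abel

end Vale.Agent.P284Y
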