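import Vale.Agent.P284Y.Y.S41c0
import Vale.Agent.P284Y.Y.S41g
import Vale.Agent.P284Y.Y.Cov
import Vale.Agent.P284Y.Y9.Par

/-!
# P284Y, row Y2: mass, domination
-/

set_option linter.all false

open scoped ContDiff Topology ComplexOrder ENNReal Matrix
open Filter Set Function Metric MeasureTheory Real

noncomputable section

namespace Vale.Agent.P284Y

open Vale.Agent.P272.K Vale.Agent.P284Z Vale.Agent.P284Z.J Vale.Agent.P284Y.Y

namespace Y2

theorem ev_pow (c : ℝ) (k : ℕ) : ∃ Z₀ : ℕ, ∀ x : ℝ, Z₀ ≤ x → c * x ^ k ≤ exp x := by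
  obtain ⟨a, ha⟩ := eventually_atTop.1 (((tendsto_exp_div_pow_atTop k).eventually_ge_atTop c).and
    (eventually_gt_atTop 0))
  obtain ⟨Z, hZ⟩ := exists_nat_ge a
  exact ⟨Z, fun x hx => (le_div_iff₀ (pow_pos (ha x (hZ.trans hx)).2 k)).1 (ha x (hZ.trans hx)).1⟩

variable {n : ℕ}

theorem nsq_smul (t : ℂ) (u : Cm n) : nsq (t • u) = ‖t‖ ^ 2 * nsq u := by
  simp [nsq, mul_pow, Finset.mul_sum]

theorem diff_cons {f : ℂ → ℂ} {g : ℂ → Cm n} (hf : Differentiable ℂ f) (hg : Differentiable ℂ g) :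
    Differentiable ℂ fun t => (Fin.cons (f t) (g t) : Cm (n + 1)) :=
  differentiable_pi.2 fun j => Fin.cases hf (fun j => differentiable_pi.1 hg j) j

theorem exp_half {x : ℝ} (h : 1 ≤ x) : exp (-x) ≤ 1 / 2 := by
  rw [exp_neg, ← one_div]
  exact one_div_le_one_div_of_le two_pos (by linarith [add_one_le_exp x])

theorem exp_three : 4 * exp (-3) ≤ 1 / 2 := by
  have h := exp_half le_rfl
  have h1 := (exp_pos (-1)).le
  rw [show exp (-3) = exp (-1) ^ 3 by rw [← exp_nat_mul]; norm_num]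
  linarith [pow_le_pow_left₀ h1 h 3]

variable {Γ E : Type} [Group Γ] [TopologicalSpace E] [MulAction Γ E] {C : Cov n Γ E} {P : Par}
  {b : Pb C}

/-- normalised coordinates -/
def V (b : Pb C) (ζ : ℂ) (u : Cm n) : Cm (n + 1) :=
  Fin.cons (b.w + (exp (-(b.s' / 2)) : ℝ) * ζ) (b.z u)

theorem aff (b : Pb C) (u : Cm (n + 1)) :
    Fin.cons b.w b.x + b.A *ᵥ u = V b (u 0) (Fin.tail u) := by
  funext j
  refine Fin.cases ?_ (fun j => ?_) j <;>
    simp [V, Pb.z, Pb.A, bd, Matrix.mulVec, dotProduct, Fin.sum_univ_succ, Fin.tail,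
      Finset.mul_sum, mul_assoc]

theorem s_ge (hb : b.Ok P) : (100 : ℝ) * P.Z ≤ b.s := by
  have h := P.Z_ge'
  have h1 := P.pow_le (show 2 ≤ 8 by norm_num)
  nlinarith [P.pow_le_lo, hb.lo]

theorem s_pos (hb : b.Ok P) : 0 < b.s := P.lo_pos.trans_le hb.lo

theorem s_le (hb : b.Ok P) : b.s ≤ b.s' := by
  have h := P.Z_le_pow (show 1 ≤ 6 by norm_num)
  have h1 := hb.lo'
  rw [P.sw_eq] at h1
  nlinarith [P.Z_ge', s_pos hb]

theorem w_le (hb : b.Ok P) : ‖b.w‖ ≤ 1 / 2 := by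
  have h := exp_three
  have h1 := exp_le_exp.2 (show (-9 : ℝ) ≤ -3 by norm_num)
  exact le_of_sq_le_sq (by linarith [hb.w_le]) (by norm_num)

theorem w_one (hb : b.Ok P) {v : ℂ} (h : ‖v‖ ≤ 1 / 2) : ‖b.w + v‖ ≤ 1 :=
  (norm_add_le _ _).trans (by linarith [w_le hb])

theorem norm_e (s : ℝ) (ζ : ℂ) : ‖((exp s : ℝ) : ℂ) * ζ‖ = exp s * ‖ζ‖ := by
  rw [norm_mul, Complex.norm_real, norm_eq_abs, abs_exp]

theorem nsq_z (hb : b.Ok P) (u : Cm n) : nsq (b.z u - b.x) ≤ exp (-(3 * b.s / 4)) * nsq u := by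
  rw [Pb.z, add_sub_cancel_left, G44.nsq_sm]
  refine (mul_le_mul_of_nonneg_left (hb.fr u).2 (sq_nonneg _)).trans_eq ?_
  rw [← mul_assoc, ← exp_nat_mul, ← exp_add]
  congr 2
  push_cast
  ring

variable [T2Space E] [MeasurableSpace E] [BorelSpace E] {μ : Measure (E × ℂ)}
  {S : MAS (P.Q C) μ} {K lam : ℝ} {ν : E × ℂ → ℝ}

theorem inv_sq (hA : R41a P C μ K) {x : ℝ} (h : 2 * K ≤ x) : exp (-x) ≤ K⁻¹ ^ 2 := by
  have h0 := one_pos.trans_le hA.K_ge
  have h1 : K ≤ exp K := by linarith [add_one_le_exp K]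
  rw [inv_pow, exp_neg]
  refine inv_anti₀ (by positivity) ((pow_le_pow_left₀ h0.le h1 2).trans ?_)
  rw [← exp_nat_mul]
  exact exp_le_exp.2 (by push_cast; linarith)

theorem rho_bd (hA : R41a P C μ K) (hK : K ≤ P.Z) (γ : Γ) {a : C.I} {z : Cm n} {w : ℂ}
    (hz : z ∈ C.B (7 / 2) a) (hw : ‖w‖ ≤ 1) : Fin.cons w z ∈ (P.Q C).U (γ, a) ∧
      -P.B ≤ (P.Q C).ρ (γ, a) (Fin.cons w z) ∧ (P.Q C).ρ (γ, a) (Fin.cons w z) ≤ 65 * P.B := by
  refine ⟨C.B_mono (by norm_num) a hz, ?_⟩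
  change _ ≤ P.β * C.ρ a z + 64 * P.B * ‖w‖ ^ 2 ∧ P.β * C.ρ a z + 64 * P.B * ‖w‖ ^ 2 ≤ _
  have h := abs_le.1 ((hA.hess a z hz).2.2.trans hK)
  have h1 := pow_le_one₀ (norm_nonneg _) hw (n := 2)
  have h2 := P.Zβ_le_B
  have h3 := P.β_pos
  have h4 := P.B_pos
  constructor <;> nlinarith [sq_nonneg ‖w‖]

theorem mass (hG : Gen S) (hA : R41a P C μ K) (hK : K ≤ P.Z)
    (hZ : ∀ x : ℝ, P.Z ≤ x → ((18 * K ^ 2) ^ (n + 1) * vN (n + 1) + 1) * x ^ (2 * (n + 1)) ≤ exp x)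
    (hb : b.Ok P) (hl : lam ≤ 4 * (P.t * b.s)) : S.msl 0 (b.p P) lam ≤ exp (P.B / P.Z) := by
  have K1 := hA.K_ge
  have K0 := one_pos.trans_le K1
  have hβ := P.one_le_β
  have hd := hA.dens b hb
  have hs := s_pos hb
  have h0 := mul_pos P.t_pos hs
  have k2 : 1 ≤ K ^ 2 := one_le_pow₀ K1
  have h := mass_le (i := (b.γ, b.a)) (c := Fin.cons b.w b.x) (e := K⁻¹ ^ 2 / 2)
    (Λ := P.β * K + P.m) (d := 4 * (P.t * b.s)) hG
    (hG.pg.dens_add _ _ hG.pg.dens_zero (hA.densW b lam hb)) (hA.densW b lam hb) (zero_add _).ge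
    (by positivity) (by linarith [pow_le_one₀ (inv_pos.2 K0).le (inv_le_one_of_one_le₀ K1) (n := 2)])
    (add_nonneg (by positivity) P.m_pos.le) (by positivity)
    (fun v hv => by
      have hz := hA.ball b.a b.x hb.x_mem (Fin.tail v) (by
        rw [nsq_succ] at hv
        change _ + nsq (Fin.tail v - b.x) < _ at hv
        linarith [sq_nonneg ‖(v - Fin.cons b.w b.x : Cm (n + 1)) 0‖])
      have hv' : v ∈ (P.Q C).U (b.γ, b.a) := C.B_mono (by norm_num) _ hz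
      refine ⟨hv', ?_⟩
      rw [QY_hess C _ hv', ← bk_one, bk_smul, bk_sub, mul_one, ← Complex.ofReal_sub]
      refine bk_psd (by linarith [mul_pos P.β_pos K0]) ?_
      convert ((hA.hess _ _ hz).1.smul (show (0 : ℂ) ≤ P.β by exact_mod_cast P.β_pos.le)).add
        (Matrix.PosSemidef.one.smul (show (0 : ℂ) ≤ P.m by exact_mod_cast P.m_pos.le)) using 1
      push_cast
      module)
    (fun y hy => by
      obtain ⟨⟨u, h1, h2⟩, h3⟩ := hA.supp b hb y (right_ne_zero_of_mul hy)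
      refine ⟨Fin.cons y.2 (b.z u), ?_, Prod.ext h2 rfl⟩
      rw [nsq_succ]
      change ‖y.2 - b.w‖ ^ 2 + nsq (b.z u - b.x) ≤ _
      have h4 := (nsq_z hb u).trans (mul_le_of_le_one_right (exp_pos _).le (by simpa using h1))
      have h5 := pow_le_pow_left₀ (norm_nonneg _) h3 2
      rw [one_mul, ← exp_nat_mul] at h5
      have h6 : exp (-(3 + 2 * K)) ≤ K⁻¹ ^ 2 / 8 := by
        rw [neg_add, exp_add]
        nlinarith [exp_three, inv_sq hA le_rfl, exp_pos (-3), exp_pos (-(2 * K))]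
      have h7 := s_ge hb
      have h8 := s_le hb
      have h9 := exp_le_exp.2 (show -(3 * b.s / 4) ≤ -(3 + 2 * K) by linarith)
      have h10 := exp_le_exp.2 (show (2 : ℕ) * -(b.s' / 2) ≤ -(3 + 2 * K) by push_cast; linarith)
      linarith)
  refine le_trans (h.trans ?_) ((hZ P.β (P.Z_le_TT.trans ((le_mul_of_one_le_right P.TT_pos.le
    P.one_le_hi).trans ((mul_le_mul_of_nonneg_right (le_mul_of_one_le_left P.TT_pos.le
      (one_le_pow₀ P.one_le_Z)) (zero_le_one.trans P.one_le_hi)).trans P.hi_le_β)))).trans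
    (exp_le_exp.2 ((le_div_iff₀' P.Z_pos).2 P.Zβ_le_B)))
  have h1 : P.t * P.hi ≤ P.β ^ 2 := by
    rw [Par.t, mul_assoc, sq]
    exact mul_le_mul_of_nonneg_left ((mul_le_mul_of_nonneg_right (le_mul_of_one_le_left P.TT_pos.le
      (one_le_pow₀ P.one_le_Z)) (zero_le_one.trans P.one_le_hi)).trans P.hi_le_β) P.β_pos.le
  have h2 := (mul_le_mul_of_nonneg_left hb.hi P.t_pos.le).trans h1
  have h3 := P.m_le_t.trans ((le_mul_of_one_le_right P.t_pos.le P.one_le_hi).trans h1)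
  rw [add_mul, one_mul, mul_right_comm, pow_mul, ← mul_pow]
  refine add_le_add (mul_le_mul_of_nonneg_right (pow_le_pow_left₀
    (add_nonneg (add_nonneg (by positivity) P.m_pos.le) (by positivity)) ?_ _) (vN_pos _).le) ?_
  · rw [show 2 * (4 * (P.t * b.s)) / (K⁻¹ ^ 2 / 2) = 16 * K ^ 2 * (P.t * b.s) by field_simp; ring]
    have h4 : P.β * K ≤ K ^ 2 * P.β ^ 2 := by nlinarith [mul_le_mul hβ K1 zero_le_one P.β_pos.le]
    nlinarith [sq_nonneg P.β]
  · simp only [Pb.W, Pi.smul_apply, smul_eq_mul]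
    rw [integral_const_mul, hd.2, mul_one, ← exp_add]
    exact (exp_le_one_iff.2 (by linarith)).trans (one_le_pow₀ (one_le_pow₀ hβ))

/-- the constant of the sub-mean inequality -/
def Sb (n : ℕ) (P : Par) : Prop := ∃ c₀ > (0 : ℝ), (∀ u : Cm (n + 1), ‖u 0‖ ^ 2 ≤ 1 - P.q →
  nsq (Fin.tail u) ≤ 1 - P.q → c₀ ≤ bmp₂ n P.q u) ∧
  exp (-P.B) ≤ (P.q / (n + 1)) ^ (2 * (n + 1)) * vN (n + 1) * c₀

theorem ev_sb (n : ℕ) : ∃ Z₀ : ℕ, ∀ P : Par, Z₀ ≤ P.Z → Sb n P := by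
  obtain ⟨c₁, p₁, h₁⟩ := bm.bd 1
  obtain ⟨c₂, p₂, h₂⟩ := bm.bd n
  have v := vN_pos (n + 1)
  obtain ⟨Z₀, h⟩ := ev_pow ((n + 1) ^ (2 * (n + 1)) / (vN (n + 1) * (c₁ * c₂))) (6 * (2 * (n + 1)))
  refine ⟨Z₀, fun P hP => ⟨c₁ * c₂, mul_pos p₁ p₂, fun u h0 h1 => ?_, ?_⟩⟩
  · have q := P.q_le.trans (show (1 : ℝ) / 100 ≤ 1 / 2 by norm_num)
    have := (h₁ _ P.q_pos q fun _ => u 0).2 (by simpa [nsq] using h0)
    exact mul_le_mul this ((h₂ _ P.q_pos q _).2 h1) p₂.le (p₁.le.trans this)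
  · have h1 := (h P.Z (by exact_mod_cast hP)).trans (exp_le_exp.2
      ((le_mul_of_one_le_right P.Z_pos.le P.one_le_β).trans P.Zβ_le_B))
    have z := P.Z_pos
    rw [exp_neg]
    refine (inv_anti₀ (by positivity) h1).trans_eq ?_
    rw [Par.q, pow_mul (P.Z : ℝ) 6, div_pow, inv_pow]
    field_simp

section dom
variable (hG : Gen S) (hA : R41a P C μ K) (hK : K ≤ P.Z) (hS : Sb n P) (hb : b.Ok P)
  (hm : S.msl 0 (b.p P) lam ≤ exp (P.B / P.Z)) (hν : (P.Q C).Dens ν) (hle : b.W P lam ≤ ν)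

/-- the potential in the chart of the probe -/
def F (S : MAS (P.Q C) μ) (ν : E × ℂ → ℝ) (b : Pb C) (v : Cm (n + 1)) : ℝ :=
  (P.Q C).ρ (b.γ, b.a) v + S.φ ν ((P.Q C).pt (b.γ, b.a) v)

include hA hK hν in
theorem F_le {z : Cm n} {w : ℂ} (hz : z ∈ C.B (7 / 2) b.a) (hw : ‖w‖ ≤ 1) {A : ℝ}
    (h : 65 * P.B ≤ A) : Fin.cons w z ∈ (P.Q C).U (b.γ, b.a) ∧ F S ν b (Fin.cons w z) ≤ A := by
  have h1 := rho_bd hA hK b.γ hz hw
  exact ⟨h1.1, (add_le_add h1.2.2 (S.nonpos ν hν _)).trans (by linarith)⟩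

include hν in
theorem three_F {g : ℂ → Cm (n + 1)} (hg : Differentiable ℂ g) {a c A l : ℝ} (ha : 0 ≤ a)
    (hc : 0 < c) (hl : 0 ≤ l)
    (hR : ∀ ζ, ‖ζ‖ ≤ exp c → g ζ ∈ (P.Q C).U (b.γ, b.a) ∧ F S ν b (g ζ) ≤ A)
    (hr : ∀ ζ, ‖ζ‖ ≤ exp (-a) → F S ν b (g ζ) ≤ A - l) :
    F S ν b (g 1) ≤ A - l + l * (a / (a + c)) :=
  three_one (psh_pt hν _) (lb_pt hν _) (S.ok.opn _) hg ha hc hl hR hr

include hG hA hK hS hb hm hν hle

theorem deep₀ {ζ : ℂ} {u : Cm n} (hζ : ‖ζ‖ ≤ 1 / 2) (hu : nsq u ≤ (1 - 2 * P.q) ^ 2) :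
    F S ν b (V b ζ u) ≤ 67 * P.B - lam := by
  obtain ⟨c₀, p₀, h₀, h₁⟩ := hS
  have q0 := P.q_pos
  have q1 := P.q_le
  have hd := (hA.dens b hb).1
  have h := sub_mean (u := Fin.cons ζ u) (δ := P.q / (n + 1)) (R := 65 * P.B) hG hν hA.ker.1
    (hA.inn b hb) (by positivity) p₀ fun u' hu' => by
      rw [mem_closedBall_iff_norm] at hu'
      have n0 : (0 : ℝ) ≤ n := n.cast_nonneg
      have h1 : ‖u' 0‖ ≤ 1 / 2 + P.q := by
        have := (norm_le_pi_norm _ 0).trans (hu'.trans (div_le_self q0.le (by linarith)))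
        linarith [norm_le_norm_add_norm_sub' (u' 0) ζ, show ‖u' 0 - ζ‖ ≤ P.q from this]
      have h2 : ‖u' 0‖ ^ 2 ≤ 1 - P.q := by nlinarith [norm_nonneg (u' 0)]
      have h3 : nsq (Fin.tail u') ≤ 1 - P.q := by
        have h4 : ‖Fin.tail u' - u‖ ≤ P.q / (n + 1) := (pi_norm_le_iff_of_nonneg (by positivity)).2
          fun j => (norm_le_pi_norm (u' - Fin.cons ζ u) j.succ).trans hu'
        have h5 := G44.nsq_tri (by linarith) q0.le hu (y := Fin.tail u' - u)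
          ((G44.nsq_up _).trans ((mul_le_mul_of_nonneg_left
            (pow_le_pow_left₀ (norm_nonneg _) h4 2) n0).trans (by
              rw [div_pow, ← mul_div_assoc, div_le_iff₀ (by positivity)]
              nlinarith [sq_nonneg P.q, mul_nonneg (sq_nonneg P.q) (sq_nonneg (n : ℝ))])))
        rw [add_sub_cancel] at h5
        nlinarith
      refine ⟨?_, h₀ u' h2 h3, ?_⟩
      · rw [← Fin.cons_self_tail u', norm_cons_le zero_le_one]
        exact ⟨by linarith, PGa.norm_le (by linarith)⟩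
      · rw [aff]
        refine (rho_bd hA hK _ (hA.mem b hb _ (by linarith [one_le_exp (half_pos (s_pos hb)).le]))
          (w_one hb ?_)).2.2
        rw [norm_e]
        nlinarith [exp_half (show 1 ≤ b.s' / 2 by linarith [s_le hb, s_ge hb, P.Z_ge']),
          exp_pos (-(b.s' / 2))]
  rw [aff] at h
  have h2 : exp lam * S.ms ν (b.p P) ≤ exp P.B := by
    refine le_trans ?_ (hm.trans (exp_le_exp.2 (div_le_self P.B_pos.le P.one_le_Z)))
    rw [MAS.msl, zero_add, hG.ms_smul]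
    exact mul_le_mul_of_nonneg_left (hG.ms_mono _ _ _ _ hν (hA.densW b lam hb) hd hd hle le_rfl)
      (exp_pos _).le
  have h3 : exp (F S ν b (V b ζ u)) * exp (-P.B) * exp lam ≤ exp (65 * P.B) * exp P.B :=
    calc _ ≤ exp (65 * P.B) * S.ms ν (b.p P) * exp lam := mul_le_mul_of_nonneg_right
          ((mul_le_mul_of_nonneg_left h₁ (exp_pos _).le).trans ((mul_assoc _ _ _).ge.trans h))
          (exp_pos _).le
      _ ≤ _ := by
        rw [mul_assoc, mul_comm _ (exp lam)]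
        exact mul_le_mul_of_nonneg_left h2 (exp_pos _).le
  rw [← exp_add, ← exp_add, ← exp_add, exp_le_exp] at h3
  linarith

variable (l0 : 0 ≤ lam) (hl : lam ≤ 4 * (P.t * b.s))
include l0 hl

theorem deep₁ {ζ : ℂ} {u : Cm n} {h' : ℝ} (h0 : 0 ≤ h') (h1 : h' ≤ b.s' / 4) (hζ : ‖ζ‖ ≤ 4 * exp h')
    (hu : nsq u ≤ (1 - 2 * P.q) ^ 2) :
    F S ν b (V b ζ u) ≤ 115 * P.B + lam * (3 * h' / b.s') - lam := by
  have s0 : 100 ≤ b.s' := by linarith [s_le hb, s_ge hb, P.Z_ge']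
  have hB := P.B_pos
  have h := three_F (g := fun t => V b (t * ζ) u) (a := h' + 3) (c := b.s' / 2 - h' - 3)
    (A := 67 * P.B) hν (diff_cons (by fun_prop) (differentiable_const _)) (by linarith) (by linarith)
    l0 (fun t ht => F_le hA hK hν (hA.mem b hb _ (by
      nlinarith [one_le_exp (half_pos (s_pos hb)).le, P.q_pos, P.q_le])) (w_one hb (by
        rw [norm_e, norm_mul]
        refine le_trans ?_ exp_three
        rw [show (-3 : ℝ) = -(b.s' / 2) + (b.s' / 2 - h' - 3 + h') by ring, exp_add, exp_add,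
          mul_left_comm 4, mul_left_comm 4]
        gcongr)) (by linarith))
    fun t ht => deep₀ hG hA hK hS hb hm hν hle (by
      rw [norm_mul]
      refine le_trans ?_ exp_three
      rw [show (-3 : ℝ) = -(h' + 3) + h' by ring, exp_add, mul_left_comm]
      gcongr) hu
  simp only [one_mul] at h
  refine h.trans ?_
  have h2 : lam ≤ 8 * P.B * b.s' := by
    rw [← P.B_mul_sw] at hl
    nlinarith [hb.lo']
  have h3 : lam * ((h' + 3) / (h' + 3 + (b.s' / 2 - h' - 3))) ≤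
      48 * P.B + lam * (3 * h' / b.s') := by
    rw [show h' + 3 + (b.s' / 2 - h' - 3) = b.s' / 2 by ring, ← mul_div_assoc, ← mul_div_assoc,
      div_div_eq_mul_div, add_div' _ _ _ (by linarith), add_comm]
    gcongr
    nlinarith [mul_nonneg l0 h0]
  linarith

theorem dom {h h' : ℝ} (h0 : 0 ≤ h) (h1 : h ≤ b.s / 8) (h0' : 0 ≤ h') (h1' : h' ≤ b.s' / 4)
    {y : E × ℂ} (hy : y ∈ b.Box ((1 + P.q) * exp h) (4 * exp h')) :
    S.φ ν y ≤ -lam + 164 * P.B + lam * (3 * h / b.s + 3 * h' / b.s') := by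
  obtain ⟨⟨u, hu, e⟩, hw⟩ := hy
  have s0 : 100 ≤ b.s := by linarith [s_ge hb, P.Z_ge']
  have s1 := s_le hb
  have hB := P.B_pos
  have q0 := P.q_pos
  have q1 := P.q_le
  have hζ : ‖((exp (b.s' / 2) : ℝ) : ℂ) * (y.2 - b.w)‖ ≤ 4 * exp h' := by
    rw [norm_e, ← le_div_iff₀' (exp_pos _), div_eq_mul_inv, ← exp_neg]
    exact hw
  have e1 : b.w + (exp (-(b.s' / 2)) : ℝ) * (((exp (b.s' / 2) : ℝ) : ℂ) * (y.2 - b.w)) = y.2 := by
    rw [← mul_assoc, ← Complex.ofReal_mul, ← exp_add]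
    simp
  have hw1 : ‖y.2‖ ≤ 1 := by
    rw [← add_sub_cancel b.w y.2]
    refine w_one hb (hw.trans (le_trans ?_ exp_three))
    rw [mul_assoc, ← exp_add]
    gcongr
    linarith
  have e2 : exp (-(4 * P.q)) * (1 + P.q) ≤ 1 - 2 * P.q := by
    rw [exp_neg, inv_mul_le_iff₀ (exp_pos _)]
    nlinarith [add_one_le_exp (4 * P.q)]
  have hz : ∀ t : ℂ, ‖t‖ ≤ exp (b.s / 3 - h - 4 * P.q) → b.z (t • u) ∈ C.B (7 / 2) b.a :=
    fun t ht => hA.ball _ _ hb.x_mem _ ((nsq_z hb _).trans (le_trans ?_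
      (inv_sq hA (x := b.s / 12) (by linarith [s_ge hb]))))
  swap
  · rw [nsq_smul, show -(b.s / 12) = -(3 * b.s / 4) + (2 : ℕ) * (b.s / 3) by push_cast; ring, exp_add,
      exp_nat_mul]
    refine mul_le_mul_of_nonneg_left ((mul_le_mul (pow_le_pow_left₀ (norm_nonneg _) ht 2) hu
      (G44.nsq_nn _) (sq_nonneg _)).trans ?_) (exp_pos _).le
    rw [← mul_pow]
    refine pow_le_pow_left₀ (by positivity) ?_ 2
    rw [show b.s / 3 - h - 4 * P.q = b.s / 3 - h + -(4 * P.q) by ring, exp_add, mul_assoc,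
      ← mul_assoc (exp (-_)), mul_left_comm, ← exp_add, sub_add_cancel]
    exact mul_le_of_le_one_left (exp_pos _).le (by linarith)
  have h2 : 0 ≤ lam * (3 * h' / b.s') := mul_nonneg l0 (div_nonneg (by linarith) (by linarith))
  have hh := three_F (g := fun t => V b ((exp (b.s' / 2) : ℝ) * (y.2 - b.w)) (t • u))
    (a := h + 4 * P.q) (c := b.s / 3 - h - 4 * P.q) (A := 115 * P.B + lam * (3 * h' / b.s')) hν
    (diff_cons (differentiable_const _) (by
      simp only [Pb.z, Matrix.mulVec_smul]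
      fun_prop)) (by linarith) (by linarith) l0
    (fun t ht => F_le hA hK hν (hz t ht) (by rwa [e1]) (by linarith))
    fun t ht => deep₁ hG hA hK hS hb hm hν hle l0 hl h0' h1' hζ (by
      rw [nsq_smul]
      refine (mul_le_mul (pow_le_pow_left₀ (norm_nonneg _) ht 2) hu (G44.nsq_nn _)
        (sq_nonneg _)).trans ?_
      rw [← mul_pow]
      refine pow_le_pow_left₀ (by positivity) ?_ 2
      rwa [mul_left_comm, ← exp_add, show -(h + 4 * P.q) + h = -(4 * P.q) by ring, mul_comm])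
  have h3 := (rho_bd hA hK b.γ (hz 1 (norm_one.trans_le (one_le_exp (by linarith)))) hw1).2.1
  simp only [one_smul, V, e1, F] at hh h3
  have e3 : (P.Q C).pt (b.γ, b.a) (Fin.cons y.2 (b.z u)) = y := Prod.ext e.symm rfl
  rw [e3] at hh
  have h4 : lam * ((h + 4 * P.q) / (h + 4 * P.q + (b.s / 3 - h - 4 * P.q))) ≤
      48 * P.B + lam * (3 * h / b.s) := by
    rw [show h + 4 * P.q + (b.s / 3 - h - 4 * P.q) = b.s / 3 by ring, ← mul_div_assoc,
      ← mul_div_assoc, div_div_eq_mul_div, add_div' _ _ _ (by linarith), add_comm, Par.B]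
    gcongr
    nlinarith [mul_le_mul_of_nonneg_left hl q0.le]
  linarith

theorem jt {σ : ℝ} (hξ : b.ξ = 1) (hs : b.s' = P.sw b.s) (h0 : 0 ≤ σ) (h1 : σ ≤ b.s) {z : Cm n}
    {w : ℂ} (hz : nsq (z - b.x) ≤ 4 * exp (-σ)) (hw : ‖w - b.w‖ ^ 2 ≤ exp (-P.sw σ)) :
    S.φ ν (C.pt b.γ b.a z, w) ≤ -(lam * σ / b.s) + (15 + 16 * K) * P.t := by
  have s0 : 100 ≤ b.s := by linarith [s_ge hb, P.Z_ge']
  have s1 := s_le hb
  have hB := P.B_pos
  have ht := P.t_pos
  have K1 := hA.K_ge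
  have l1 : lam / b.s ≤ 4 * P.t := (div_le_iff₀ (by linarith)).2 (by linarith)
  have l2 := div_nonneg l0 (s_pos hb).le
  rw [mul_div_right_comm]
  rcases le_or_gt σ (4 * K) with h2 | h2
  · nlinarith [S.nonpos ν hν (C.pt b.γ b.a z, w), mul_le_mul l1 h2 h0 (by linarith)]
  have hw' : ‖w - b.w‖ ≤ exp (-(σ / 2)) ^ (P.Z ^ 6) := le_of_sq_le_sq (hw.trans_eq (by
    rw [← exp_nat_mul, ← exp_nat_mul, P.sw_eq]
    congr 1
    push_cast
    ring)) (by positivity)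
  have hw2 : ∀ (t : ℂ) (c : ℝ), ‖t‖ ≤ exp c → ‖t ^ (P.Z ^ 6) * (w - b.w)‖ ≤
      exp (c - σ / 2) ^ (P.Z ^ 6) := fun t c h => by
    rw [norm_mul, norm_pow, sub_eq_add_neg c, exp_add, mul_pow]
    gcongr
  have hz2 : ∀ (t : ℂ) (c : ℝ), ‖t‖ ≤ exp c → nsq (t • (z - b.x)) ≤ 4 * exp (2 * c - σ) :=
    fun t c h => by
      rw [nsq_smul, sub_eq_add_neg (2 * c), exp_add, mul_left_comm, two_mul, exp_add, ← sq]
      exact mul_le_mul (pow_le_pow_left₀ (norm_nonneg _) h 2) hz (G44.nsq_nn _) (sq_nonneg _)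
  have hR : ∀ t : ℂ, ‖t‖ ≤ exp (σ / 2 - 2 * K) → b.x + t • (z - b.x) ∈ C.B (7 / 2) b.a ∧
      ‖b.w + t ^ (P.Z ^ 6) * (w - b.w)‖ ≤ 1 := fun t ht => ⟨hA.ball _ _ hb.x_mem _ (by
        rw [add_sub_cancel_left]
        refine (hz2 t _ ht).trans ?_
        rw [show 2 * (σ / 2 - 2 * K) - σ = -(2 * K) + -(2 * K) by ring, exp_add, ← mul_assoc]
        refine (mul_le_of_le_one_left (exp_pos _).le ?_).trans (inv_sq hA le_rfl)
        have h3 := exp_half le_rfl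
        have h4 := exp_le_exp.2 (show -(2 * K) ≤ -1 + -1 by linarith)
        rw [exp_add] at h4
        nlinarith [exp_pos (-1)]),
      w_one hb ((hw2 t _ ht).trans ((pow_le_of_le_one (exp_pos _).le
        (exp_le_one_iff.2 (by linarith)) (pow_pos (by linarith [P.Z_ge]) _).ne').trans
        ((exp_le_exp.2 (by linarith)).trans (exp_half le_rfl))))⟩
  have h := three_F (g := fun t => Fin.cons (b.w + t ^ (P.Z ^ 6) * (w - b.w)) (b.x + t • (z - b.x)))
    (a := (b.s - σ) / 2) (c := σ / 2 - 2 * K) (A := 229 * P.B + lam * (3 / b.s)) hν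
    (diff_cons (by fun_prop) (by fun_prop)) (by linarith) (by linarith) l0
    (fun t ht => F_le hA hK hν (hR t ht).1 (hR t ht).2
      (by linarith [mul_nonneg l0 (div_nonneg zero_le_three (s_pos hb).le)]))
    fun t ht => by
      have h3 := hR t (ht.trans (exp_le_exp.2 (by linarith)))
      have h4 := dom hG hA hK hS hb hm hν hle l0 hl (h := 1) (h' := 0) zero_le_one (by linarith)
        le_rfl (by linarith) (y := (C.pt b.γ b.a (b.x + t • (z - b.x)),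
          b.w + t ^ (P.Z ^ 6) * (w - b.w))) ⟨⟨((exp (b.s / 2) : ℝ) : ℂ) • t • (z - b.x), by
            rw [G44.nsq_sm]
            refine (mul_le_mul_of_nonneg_left (hz2 t _ ht) (sq_nonneg _)).trans ?_
            rw [mul_left_comm, ← exp_nat_mul, ← exp_add, show ((2 : ℕ) : ℝ) * (b.s / 2) +
              (2 * -((b.s - σ) / 2) - σ) = 0 by push_cast; ring, exp_zero]
            have h5 : 2 ≤ (1 + P.q) * exp 1 := by nlinarith [add_one_le_exp 1, P.q_pos]
            nlinarith, by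
            rw [Pb.z, hξ, Matrix.one_mulVec, smul_smul, ← Complex.ofReal_mul, ← exp_add]
            simp⟩, by
            rw [add_sub_cancel_left]
            refine (hw2 t _ ht).trans ?_
            rw [← exp_nat_mul, hs, P.sw_eq, exp_zero, show ((P.Z ^ 6 : ℕ) : ℝ) *
              (-((b.s - σ) / 2) - σ / 2) = -(b.s * P.Z ^ 6 / 2) by push_cast; ring]
            linarith [exp_pos (-(b.s * P.Z ^ 6 / 2))]⟩
      refine (add_le_add (rho_bd hA hK b.γ h3.1 h3.2).2.2 h4).trans_eq ?_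
      ring
  have h3 := hR 1 (norm_one.trans_le (one_le_exp (by linarith)))
  have h4 := (rho_bd hA hK b.γ h3.1 h3.2).2.1
  simp only [one_pow, one_mul, one_smul, add_sub_cancel, F] at h h4
  change _ + S.φ ν (C.pt b.γ b.a z, w) ≤ _ at h
  have h5 : lam * ((b.s - σ) / 2 / ((b.s - σ) / 2 + (σ / 2 - 2 * K))) ≤
      lam - lam / b.s * (σ - 4 * K) := by
    rw [div_mul_eq_mul_div, mul_div_assoc, ← mul_one_sub]
    refine mul_le_mul_of_nonneg_left ?_ l0
    rw [div_le_iff₀ (by linarith), one_sub_div (by linarith), div_mul_eq_mul_div,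
      le_div_iff₀ (by linarith)]
    nlinarith
  have h6 := mul_le_mul_of_nonneg_right P.Z_ge' hB.le
  have h7 := mul_le_mul_of_nonneg_right l1 (zero_le_one.trans K1)
  rw [← mul_div_assoc, mul_div_right_comm] at h
  linarith [P.ZB_le_t]

end dom

end Y2

open Y2 in
/-- **Y2** -/
theorem st41c : St41c := by
  intro n Γ E _ _ _ _ _ _ _ C K
  obtain ⟨Z₁, h₁⟩ := ev_pow ((18 * K ^ 2) ^ (n + 1) * vN (n + 1) + 1) (2 * (n + 1))
  obtain ⟨Z₂, h₂⟩ := ev_sb n
  obtain ⟨Z₃, h₃⟩ := exists_nat_ge K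
  refine ⟨164 + 16 * K, fun K' hK' => ⟨Z₁ + Z₂ + Z₃, fun P hP μ S hG hA => ?_⟩⟩
  have hK : K ≤ P.Z := h₃.trans (by exact_mod_cast (by omega))
  have hS := h₂ P (by omega)
  have K1 := hA.K_ge
  have hm : ∀ (b : Pb C) lam, b.Ok P → lam ≤ 4 * (P.t * b.s) →
      S.msl 0 (b.p P) lam ≤ exp (P.B / P.Z) := fun b lam hb hl =>
    mass hG hA hK (fun x hx => h₁ x (le_trans (by exact_mod_cast (by omega)) hx)) hb hl
  have hB := mul_le_mul_of_nonneg_right (show 164 ≤ K' by linarith) P.B_pos.le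
  refine ⟨hm, fun b lam h h' ν hb l0 hl hν hle h0 h1 h0' h1' y hy => ?_,
    fun b lam ν p hb hl hν hle hp h1 h2 => ?_,
    fun b lam σ ν hb hξ hs l0 hl hν hle h0 h1 z _ w hz hw => ?_⟩
  · linarith [dom hG hA hK hS hb (hm b lam hb hl) hν hle l0 hl h0 h1 h0' h1' hy]
  · have hp' := hG.pg.dens_smul _ _ (exp_pos (lam - K' * P.B)).le hp
    refine (hG.G_le ν _ _ hν (hG.pg.dens_add _ _ hν hp') hp' le_rfl).trans (add_le_add_right ?_ _)
    rw [hG.ms_smul]
    refine (mul_le_mul_of_nonneg_left (hG.ms_le ν p (-(lam - K' * P.B)) hν hp fun y hy => ?_)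
      (exp_pos _).le).trans (by rwa [← mul_assoc, ← exp_add, add_neg_cancel, exp_zero, one_mul])
    rcases le_total lam 0 with l0 | l0
    · linarith [S.nonpos ν hν y, P.B_pos]
    · have := dom hG hA hK hS hb (hm b lam hb hl) hν hle l0 hl (h := 0) (h' := 0) le_rfl
        (by linarith [s_pos hb]) le_rfl (by linarith [s_pos hb, s_le hb]) (y := y)
        (by simpa using h2 y hy)
      simp only [mul_zero, zero_div, add_zero] at this
      linarith
  · linarith [jt hG hA hK hS hb (hm b lam hb hl) hν hle l0 hl hξ hs h0 h1 hz hw,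
      mul_le_mul_of_nonneg_right (show 15 + 16 * K ≤ K' by linarith) P.t_pos.le]

end Vale.Agent.P284Y
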