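import Vale.Agent.P284Y.Y.R41
import Vale.Agent.P284Y.Y9.Par

/-!
# P284Y, block Y: doubling, slope, comparisons of probes
-/

open scoped ContDiff Topology ComplexOrder ENNReal Matrix
open Filter Set Function Metric MeasureTheory

noncomputable section

namespace Vale.Agent.P284Y

open Vale.Agent.P272.K Vale.Agent.P284Z Vale.Agent.P284Z.J

namespace D41

section gen
variable {N : ℕ} {M : Type} [TopologicalSpace M] [MeasurableSpace M] {Q : Pat N M}
  {μ : Measure M} {S : MAS Q μ} (hG : Gen S) {ν p : M → ℝ}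
include hG

theorem inc_lo (hν : Q.Dens ν) (hp : Q.Dens p) {a b : ℝ} (h : a ≤ b) :
    S.msl ν p a * (b - a) ≤ S.G (ν + Real.exp b • p) - S.G (ν + Real.exp a • p) := by
  have h1 := hG.cmpI ν p ν p a b 0 1 1 0 (-S.msl ν p a) hν hp hν hp h fun l hl => by
    have := hG.msl_mono ν p hν hp hl.1
    simp only [one_mul, add_zero]
    linarith
  simp only [one_mul, add_zero] at h1
  linarith

theorem inc_up (hν : Q.Dens ν) (hp : Q.Dens p) {a b : ℝ} (h : a ≤ b) :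
    S.G (ν + Real.exp b • p) - S.G (ν + Real.exp a • p) ≤ S.msl ν p b * (b - a) := by
  have h1 := hG.cmpI ν p ν p a b 1 0 1 0 (S.msl ν p b) hν hp hν hp h fun l hl => by
    have := hG.msl_mono ν p hν hp hl.2
    linarith
  linarith

theorem dens_exp (hp : Q.Dens p) (l : ℝ) : Q.Dens (Real.exp l • p) :=
  hG.pg.dens_smul _ _ (Real.exp_pos l).le hp

theorem exp_mono (hp : Q.Dens p) {l l' : ℝ} (h : l ≤ l') :
    S.G (Real.exp l • p) ≤ S.G (Real.exp l' • p) :=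
  hG.G_mono _ _ (dens_exp hG hp l) (dens_exp hG hp l') fun y =>
    mul_le_mul_of_nonneg_right (Real.exp_le_exp.2 h) (hp.nonneg y)

/-- a probability is free where the solution is very negative -/
theorem free (hν : Q.Dens ν) (hp : Q.Dens p) (h1 : ∫ y, p y ∂μ = 1) {l : ℝ}
    (h : ∀ y, p y ≠ 0 → S.φ ν y ≤ -l) : S.G (Real.exp l • p) ≤ S.G ν + 1 := by
  have h2 := hG.G_le ν _ _ hν (dens_exp hG hp l) (dens_exp hG hp l) fun y =>
    le_add_of_nonneg_left (hν.nonneg y)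
  have h3 := mul_le_mul_of_nonneg_left (hG.ms_le ν p _ hν hp h) (Real.exp_pos l).le
  rw [h1, mul_one, ← Real.exp_add, add_neg_cancel, Real.exp_zero, ← hG.ms_smul] at h3
  linarith

theorem G_le_exp (hp : Q.Dens p) (h1 : ∫ y, p y ∂μ = 1) (l : ℝ) :
    S.G (Real.exp l • p) ≤ Real.exp l := by
  have h0 := hG.pg.dens_zero
  have h2 := hG.G_le 0 _ _ h0 (dens_exp hG hp l) (dens_exp hG hp l) (zero_add _).ge
  have h3 := mul_le_mul_of_nonneg_left (hG.ms_le 0 p 0 h0 hp fun y _ => S.nonpos 0 h0 y)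
    (Real.exp_pos l).le
  rw [h1, Real.exp_zero, mul_one, mul_one, ← hG.ms_smul] at h3
  rw [S.G0] at h2
  linarith

/-- **doubling** -/
theorem dbl (hp : Q.Dens p) {l l' : ℝ}
    (h : ∀ y, p y ≠ 0 → S.φ (Real.exp l • p) y / 2 + l + 1 ≤ l') :
    S.msl 0 p l ≤ 4 * 2 ^ N * S.msl 0 p l' := by
  have h0 := hG.pg.dens_zero
  have d := dens_exp hG hp l
  have d' := dens_exp hG hp l'
  have hc := fun y => hG.pg.ma_cvx (S.φ 0) (S.φ (Real.exp l • p)) (1 / 2) y (by norm_num)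
    (by norm_num) (hG.sp _ h0 y trivial).1 (hG.sp _ d y trivial).1 (hG.sp _ h0 y trivial).2
    (hG.sp _ d y trivial).2
  have hb : ∀ y, (1 - 1 / 2) * S.φ 0 y + 1 / 2 * S.φ (Real.exp l • p) y =
      S.φ (Real.exp l • p) y / 2 := fun y => by
    rw [hG.zero, Pi.zero_apply]
    ring
  obtain ⟨K, hK, hk⟩ := mem_cocompact.1 ((S.decay _ d').eventually
    (lt_mem_nhds (show (-1 : ℝ) < 0 by norm_num)))
  have h1 := hG.mt (Real.exp l' • p) 0 univ K
    (fun y => (1 - 1 / 2) * S.φ 0 y + 1 / 2 * S.φ (Real.exp l • p) y)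
    (fun y => ENNReal.ofReal ((1 / 2) ^ N) * (ENNReal.ofReal (Real.exp (S.φ (Real.exp l • p) y)) *
      ENNReal.ofReal ((Real.exp l • p) y))) 0 1 1 d' h0 isOpen_univ hK (subset_univ _)
    (fun y _ => ⟨fun i z hz e => (contDiffAt_const.mul ((hG.sp _ h0 y trivial).1 i z hz e)).add
      (contDiffAt_const.mul ((hG.sp _ d y trivial).1 i z hz e)), (hc y).1⟩)
    (fun y _ => by linarith [hb y, S.nonpos _ d y]) (by norm_num)
    (fun y hy => by
      by_contra hn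
      have h2 : -1 < S.φ (Real.exp l' • p) y := hk hn
      have h3 := hy.2
      rw [add_zero] at h3
      linarith [hb y, S.nonpos _ d y])
    (fun y _ _ => ⟨rfl, by
      rw [← ENNReal.ofReal_mul (Real.exp_pos _).le, ← ENNReal.ofReal_mul (by positivity)]
      refine ENNReal.ofReal_le_ofReal (le_trans ?_ (hc y).2.2.1)
      rw [hG.ma _ d]
      gcongr
      exact le_add_of_nonneg_left one_pos.le⟩)
    (fun y _ _ => by
      rw [← ENNReal.ofReal_mul (Real.exp_pos _).le, ← ENNReal.ofReal_mul (by positivity), hb]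
      refine ENNReal.ofReal_le_ofReal ?_
      by_cases e : p y = 0
      · simp [e]
      refine (mul_le_of_le_one_left (mul_nonneg (Real.exp_pos _).le (d.nonneg y))
        (pow_le_one₀ (by norm_num) (by norm_num))).trans ?_
      simp only [Pi.smul_apply, smul_eq_mul, ← mul_assoc, ← Real.exp_add]
      exact mul_le_mul_of_nonneg_right (Real.exp_le_exp.2 (by linarith [h y e])) (hp.nonneg y))
    (fun y hy => (hy trivial).elim)
  have h2 := hG.ms_nonneg (Real.exp l' • p) _ d'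
  have h3 : Real.exp (0 - 1) ≤ 1 := Real.exp_le_one_iff.2 (by norm_num)
  rw [lintegral_const_mul' _ _ ENNReal.ofReal_ne_top, ← hG.ms_lint _ _ d d,
    ← ENNReal.ofReal_mul (by positivity), add_zero, sub_self, Real.exp_zero,
    ENNReal.ofReal_le_ofReal_iff (by positivity), one_div, inv_pow,
    inv_mul_le_iff₀ (by positivity)] at h1
  simp only [MAS.msl, zero_add]
  refine h1.trans ?_
  rw [mul_comm 4, mul_assoc (2 ^ N)]
  exact mul_le_mul_of_nonneg_left (by nlinarith) (by positivity)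

end gen

variable {n : ℕ} {Γ E : Type} [Group Γ] [TopologicalSpace E] [MulAction Γ E] {C : Cov n Γ E}

theorem box_mono (b : Pb C) {r r' R R' : ℝ} (h0 : 0 ≤ r) (h : r ≤ R) (h' : r' ≤ R') :
    b.Box r r' ⊆ b.Box R R' := fun _ ⟨⟨u, h1, h2⟩, h3⟩ =>
  ⟨⟨u, h1.trans (pow_le_pow_left₀ h0 h 2), h2⟩,
    h3.trans (mul_le_mul_of_nonneg_right h' (Real.exp_pos _).le)⟩

theorem B_mono {k k' : ℝ} (h : k ≤ k') (a : C.I) : C.B k a ⊆ C.B k' a :=
  ball_subset_ball (mul_le_mul_of_nonneg_right h (C.r_pos a).le)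

theorem nsq_nn (u : Cm n) : 0 ≤ nsq u := Finset.sum_nonneg fun _ _ => sq_nonneg _

theorem fr_one {R : ℝ} (h : 0 ≤ R) : Fr R (1 : Mx n) := fun u => by
  rw [Matrix.one_mulVec]
  exact ⟨mul_le_of_le_one_left (nsq_nn u) (Real.exp_le_one_iff.2 (by linarith)),
    le_mul_of_one_le_left (nsq_nn u) (Real.one_le_exp (by linarith))⟩

theorem fr_le {R : ℝ} {ξ : Mx n} (h : Fr R ξ) {u : Cm n} (hu : nsq u ≤ 1 ^ 2) :
    nsq (ξ *ᵥ u) ≤ Real.exp R ^ 2 := by
  rw [← Real.exp_nat_mul]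
  exact (h u).2.trans (mul_le_of_le_one_right (Real.exp_pos _).le (by simpa using hu))

/-- the constants -/
def c₁ (n : ℕ) : ℝ := 32 * 2 ^ (n + 1)
def c₂ (n : ℕ) : ℝ := (1 + c₁ n) ^ 8
def c₃ (n : ℕ) : ℝ := c₂ n ^ 2 + 1

theorem c₁_pos : 0 < c₁ n := by unfold c₁; positivity
theorem c₂_ge : 1 ≤ c₂ n := one_le_pow₀ (by linarith [c₁_pos (n := n)])
theorem c₃_ge : 1 ≤ c₃ n := le_add_of_nonneg_left (sq_nonneg _)

variable {P : Par} {b b' : Pb C}

theorem s_pos (hb : b.Ok P) : 0 < b.s := P.lo_pos.trans_le hb.lo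
theorem T_pos (hb : b.Ok P) : 0 < P.t * b.s := mul_pos P.t_pos (s_pos hb)
theorem sw_pos {s : ℝ} (h : P.lo ≤ s) : 0 < P.sw s :=
  (P.lo_pos.trans_le h).trans_le (P.le_sw (P.lo_pos.trans_le h).le)

/-- the standard probes -/
theorem ok_std (γ : Γ) {a : C.I} {x : Cm n} {ξ : Mx n} {s : ℝ} {w : ℂ} (hx : x ∈ C.B 3 a)
    (hξ : Fr (s / 8) ξ) (h1 : P.lo ≤ s) (h2 : s ≤ P.hi) (hw : ‖w‖ ^ 2 ≤ Real.exp (-9)) :
    (Pb.mk γ a x ξ s w (P.sw s) : Pb C).Ok P :=
  ⟨hx, hξ, h1, h2, hw, half_le_self (sw_pos h1).le,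
    le_mul_of_one_le_left (sw_pos h1).le (by linarith [P.Z_ge'])⟩

theorem ok_zero {a : C.I} {x : Cm n} {s : ℝ} (hx : x ∈ C.B 3 a) (h1 : P.lo ≤ s) (h2 : s ≤ P.hi) :
    (Pb.mk 1 a x 1 s 0 (P.sw s) : Pb C).Ok P :=
  ok_std 1 hx (fr_one (by linarith [P.lo_pos])) h1 h2 (by simpa using (Real.exp_pos _).le)

variable [MeasurableSpace E] {μ : Measure (E × ℂ)} {S : MAS (P.Q C) μ} {K : ℝ}
  (hG : Gen S) (ha : R41a P C μ K) (hc : R41c P S K) (hZ : 8 * K ≤ P.Z)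

include ha hZ in
theorem KB_le (hb : b.Ok P) : 1 ≤ K * P.B ∧ 800 * (K * P.B) ≤ P.t * b.s := by
  have h1 := P.B_pos
  refine ⟨one_le_mul_of_one_le_of_one_le ha.K_ge P.one_le_B, ?_⟩
  calc 800 * (K * P.B) = 8 * K * P.B * 100 := by ring
    _ ≤ P.Z * P.B * b.s := by
      gcongr
      exact P.Z_ge'.trans (P.Z_le_lo.trans hb.lo)
    _ ≤ _ := mul_le_mul_of_nonneg_right P.ZB_le_t (s_pos hb).le

include hG ha

theorem G_nn (hb : b.Ok P) (l : ℝ) : 0 ≤ S.G (b.W P l) := hG.G_nonneg _ (ha.densW b l hb)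

theorem g_le {s : ℝ} (hs : s ∈ Icc P.lo P.hi) (a : C.I) {x : Cm n} (hx : x ∈ C.B (5 / 2) a) :
    P.g S s a x 1 ≤ P.GG S s := by
  refine le_ciSup (f := fun q : {q : C.I × Cm n // q.2 ∈ C.B (5 / 2) q.1} =>
    P.g S s q.1.1 q.1.2 1) ⟨Real.exp (P.t * s), ?_⟩ ⟨(a, x), hx⟩
  rintro _ ⟨q, rfl⟩
  have h := ha.dens _ (ok_zero (B_mono (by norm_num) _ q.2) hs.1 hs.2)
  exact G_le_exp hG h.1 h.2 _

include hc hZ

theorem slope {Λ l : ℝ} {ν : E × ℂ → ℝ} (hb : b.Ok P) (h1 : P.t * b.s / 8 ≤ Λ)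
    (h2 : Λ ≤ 2 * (P.t * b.s)) (h3 : l ≤ 3 / 2 * Λ) (hν : (P.Q C).Dens ν) :
    S.msl ν (b.p P) l ≤ c₁ n * S.G (b.W P Λ) / Λ := by
  have hT := T_pos hb
  have hK := KB_le ha hZ hb
  have hp := (ha.dens b hb).1
  have h0 := hG.pg.dens_zero
  have d := dens_exp hG hp l
  have e1 : S.msl ν (b.p P) l ≤ S.msl 0 (b.p P) l :=
    hG.ms_mono _ _ _ _ (hG.pg.dens_add _ _ hν d) (hG.pg.dens_add _ _ h0 d) d d
      (add_le_add hν.nonneg le_rfl) le_rfl
  have e2 := hG.msl_mono 0 _ h0 hp h3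
  have e3 := dbl hG hp (l := 3 / 2 * Λ) (l' := 7 / 8 * Λ) fun y hy => by
    have := hc.dom b (3 / 2 * Λ) 0 0 _ hb (by linarith) (by linarith) (ha.densW b _ hb) le_rfl
      le_rfl (by linarith [s_pos hb]) le_rfl (by linarith [sw_pos hb.lo, hb.lo']) y
      (box_mono b one_pos.le (by simpa using P.q_pos.le) (by simp) (ha.supp b hb y hy))
    simp only [mul_zero, zero_div, add_zero, Pb.W] at this
    linarith
  have e4 := inc_lo hG h0 hp (a := 7 / 8 * Λ) (b := Λ) (by linarith)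
  rw [zero_add, zero_add] at e4
  have e5 := hG.G_nonneg _ (dens_exp hG hp (7 / 8 * Λ))
  rw [le_div_iff₀ (by linarith), c₁, Pb.W]
  calc _ ≤ 4 * 2 ^ (n + 1) * S.msl 0 (b.p P) (7 / 8 * Λ) * Λ :=
        mul_le_mul_of_nonneg_right (e1.trans (e2.trans e3)) (by linarith)
    _ = 32 * 2 ^ (n + 1) * (S.msl 0 (b.p P) (7 / 8 * Λ) * (Λ - 7 / 8 * Λ)) := by ring
    _ ≤ _ := mul_le_mul_of_nonneg_left (by linarith) (by positivity)

theorem shift {Λ l l' : ℝ} {ν : E × ℂ → ℝ} (hb : b.Ok P) (h1 : P.t * b.s / 8 ≤ Λ)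
    (h2 : Λ ≤ 2 * (P.t * b.s)) (h3 : l ≤ l') (h4 : l' ≤ 3 / 2 * Λ) (hν : (P.Q C).Dens ν) :
    S.G (ν + b.W P l') ≤ S.G (ν + b.W P l) + (l' - l) * (c₁ n * S.G (b.W P Λ) / Λ) := by
  have e1 := inc_up hG hν (ha.dens b hb).1 h3
  have e2 := mul_le_mul_of_nonneg_left (slope hG ha hc hZ hb h1 h2 h4 hν) (sub_nonneg.2 h3)
  simp only [Pb.W] at e2 ⊢
  linarith

theorem grow {Λ l : ℝ} (hb : b.Ok P) (h1 : P.t * b.s / 8 ≤ Λ) (h2 : l ≤ 3 * (P.t * b.s)) :
    S.G (b.W P l) ≤ c₂ n * S.G (b.W P Λ) := by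
  have hT := T_pos hb
  have hp := (ha.dens b hb).1
  have c := c₁_pos (n := n)
  have key : ∀ j : ℕ, ∀ l, l ≤ 3 * (P.t * b.s) → l ≤ (3 / 2) ^ j * Λ →
      S.G (b.W P l) ≤ (1 + c₁ n) ^ j * S.G (b.W P Λ) := fun j => by
    induction j with
    | zero => exact fun l _ h => by simpa [Pb.W] using exp_mono hG hp (by simpa using h)
    | succ j ih =>
      intro l e1 e2
      obtain ⟨l₀, a1, a2, a3, a4⟩ : ∃ l₀, P.t * b.s / 8 ≤ l₀ ∧ l₀ ≤ 2 * (P.t * b.s) ∧
          l ≤ 3 / 2 * l₀ ∧ l₀ ≤ (3 / 2) ^ j * Λ := by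
        have := le_mul_of_one_le_left (by linarith : 0 ≤ Λ)
          (one_le_pow₀ (n := j) (by norm_num : (1 : ℝ) ≤ 3 / 2))
        rw [pow_succ', mul_assoc] at e2
        exact ⟨max (P.t * b.s / 8) (2 / 3 * l), le_max_left _ _, max_le (by linarith) (by linarith),
          by linarith [le_max_right (P.t * b.s / 8) (2 / 3 * l)],
          max_le (by linarith) (by linarith)⟩
      have e3 := shift hG ha hc hZ hb a1 a2 (l := l₀) (by linarith) le_rfl hG.pg.dens_zero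
      have e4 := G_nn hG ha hb l₀
      have e5 : (3 / 2 * l₀ - l₀) * (c₁ n * S.G (b.W P l₀) / l₀) = c₁ n * S.G (b.W P l₀) / 2 := by
        have : l₀ ≠ 0 := by linarith |> ne_of_gt
        field_simp
        ring
      have e6 : S.G (b.W P l) ≤ S.G (b.W P (3 / 2 * l₀)) := exp_mono hG hp a3
      have e7 := mul_le_mul_of_nonneg_left (ih l₀ (by linarith) a4) (by linarith : 0 ≤ 1 + c₁ n)
      rw [zero_add, zero_add, e5] at e3
      rw [pow_succ', mul_assoc]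
      nlinarith [mul_nonneg c.le e4]
  exact key 8 l h2 (by norm_num; linarith)

theorem step {Λ l h h' : ℝ} (hb : b.Ok P) (hb' : b'.Ok P) (hs : b'.s = b.s)
    (h1 : P.t * b.s / 8 ≤ Λ) (h2 : l ≤ 3 * (P.t * b.s)) (h3 : 0 ≤ h) (h4 : h ≤ b.s / 8)
    (h5 : 0 ≤ h') (h6 : h' ≤ b.s' / 4) (h7 : 3 * h / b.s + 3 * h' / b.s' ≤ 3 / 4)
    (h8 : b'.Box 1 1 ⊆ b.Box ((1 + P.q) * Real.exp h) (4 * Real.exp h')) :
    S.G (b'.W P l) + 1 ≤ c₃ n * (S.G (b.W P Λ) + 1) := by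
  have hT := T_pos hb
  have hK := KB_le ha hZ hb
  have d := ha.densW b (P.t * b.s) hb
  have e1 : S.G (b'.W P (P.t * b.s / 8)) ≤ _ :=
    free hG d (ha.dens b' hb').1 (ha.dens b' hb').2 fun y hy => by
      have := hc.dom b _ h h' _ hb hT.le (by linarith) d le_rfl h3 h4 h5 h6 y
        (h8 (ha.supp b' hb' y hy))
      linarith [mul_le_mul_of_nonneg_left h7 hT.le]
  have e2 := grow hG ha hc hZ hb' (Λ := P.t * b.s / 8) (l := l) (by rw [hs]) (by rwa [hs])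
  have e3 := grow hG ha hc hZ hb h1 (l := P.t * b.s) (by linarith)
  have e4 := G_nn hG ha hb Λ
  have c := c₂_ge (n := n)
  have e5 := mul_le_mul_of_nonneg_left (e1.trans (add_le_add_left e3 1)) (by linarith : 0 ≤ c₂ n)
  rw [c₃]
  nlinarith

theorem move₀ {Λ : ℝ} {ν : E × ℂ → ℝ} (hb : b.Ok P) (hb' : b'.Ok P) (hs : b'.s = b.s)
    (h1 : P.t * b.s / 8 ≤ Λ) (h2 : Λ ≤ 2 * (P.t * b.s)) (hν : (P.Q C).Dens ν)
    (h3 : b'.Box 1 1 ⊆ b.Box (1 + P.q) 4) :
    S.G (ν + b'.W P Λ) ≤ S.G (ν + b.W P Λ) + K * P.B * (c₁ n * S.G (b'.W P Λ) / Λ) + 1 := by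
  have hT := T_pos hb
  have hK := KB_le ha hZ hb
  have d := hG.pg.dens_add _ _ hν (ha.densW b Λ hb)
  have d' := ha.densW b' (Λ - K * P.B) hb'
  have e1 := shift hG ha hc hZ hb' (Λ := Λ) (l := Λ - K * P.B) (l' := Λ) (by rwa [hs])
    (by rwa [hs]) (by linarith) (by linarith) hν
  have e2 := hc.free b Λ _ _ hb (by linarith) d (le_add_of_nonneg_left hν.nonneg)
    (ha.dens b' hb').1 (ha.dens b' hb').2.le fun y hy => h3 (ha.supp b' hb' y hy)
  have e3 := hG.G_mono _ _ (hG.pg.dens_add _ _ hν d') (hG.pg.dens_add _ _ d d')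
    (add_le_add (le_add_of_nonneg_right (ha.densW b Λ hb).nonneg) le_rfl)
  rw [sub_sub_cancel] at e1
  exact e1.trans (by linarith [e3.trans e2])

theorem mono {a : C.I} {x : Cm n} {s s' : ℝ} (hx : x ∈ C.B 3 a) (h1 : P.lo ≤ s) (h2 : s ≤ s')
    (h3 : s' ≤ P.hi) : P.g S s a x 1 ≤ c₂ n * (P.g S s' a x 1 + 1) := by
  have hb := ok_zero hx h1 (h2.trans h3)
  have hb' := ok_zero hx (h1.trans h2) h3
  have hs : 0 < s := s_pos hb
  have hs' : 0 < s' := s_pos hb'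
  have ht := P.t_pos
  have hT : 0 < P.t * s' := T_pos hb'
  have d := ha.densW _ (P.t * s') hb'
  have e1 := free hG d (ha.dens _ hb).1 (ha.dens _ hb).2 (l := P.t * s - K * P.t) fun y hy => by
    obtain ⟨⟨u, u1, u2⟩, u3⟩ := ha.supp _ hb y hy
    have := hc.jt _ _ s _ hb' rfl rfl hT.le (by linarith) d le_rfl hs.le h2 _
      (B_mono (by norm_num) _ (ha.mem _ hb u (u1.trans (by simpa using (half_pos hs).le)))) y.2
      (by
        have e : Real.exp (-s) = Real.exp (-(s / 2)) ^ 2 := by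
          rw [← Real.exp_nat_mul]
          congr 1
          push_cast
          ring
        simp only [Pb.z, add_sub_cancel_left, Matrix.one_mulVec, nsq, Pi.smul_apply, norm_smul,
          mul_pow, Complex.norm_real, Real.norm_eq_abs, sq_abs, ← Finset.mul_sum, e]
        rw [mul_comm]
        exact mul_le_mul_of_nonneg_right (u1.trans (by norm_num)) (sq_nonneg _))
      ((pow_le_pow_left₀ (norm_nonneg _) u3 2).trans_eq (by
        rw [one_mul, ← Real.exp_nat_mul]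
        congr 1
        push_cast
        ring))
    rw [mul_right_comm, mul_div_cancel_right₀ _ hs'.ne'] at this
    rw [← Prod.mk.eta (p := y), u2, neg_sub]
    exact this.trans_eq (by ring)
  have e2 := grow hG ha hc hZ hb (Λ := P.t * s - K * P.t) (l := P.t * s) (by
    have := mul_le_mul_of_nonneg_left (hZ.trans (P.Z_le_lo.trans h1)) ht.le
    show P.t * s / 8 ≤ _
    nlinarith) (by
    show P.t * s ≤ 3 * (P.t * s)
    nlinarith)
  exact e2.trans (mul_le_mul_of_nonneg_left e1 (by linarith [c₂_ge (n := n)]))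

theorem top (hr : R41b P S) {l : ℝ} (hb : b.Ok P) (h : l ≤ 3 * (P.t * b.s)) :
    S.G (b.W P l) ≤ c₃ n ^ 3 * P.U S b.s := by
  have hT := T_pos hb
  have hs := s_pos hb
  have hw := sw_pos hb.lo
  have hq := P.q_pos
  have hK := hZ.trans (P.Z_le_lo.trans hb.lo)
  have K1 := ha.K_ge
  obtain ⟨γ, a, x, hx, e⟩ := C.cover (C.pt b.γ b.a b.x)
  have hx' : ∀ k, 1 ≤ k → x ∈ C.B k a := fun k hk =>
    ball_subset_ball (le_mul_of_one_le_left (C.r_pos a).le hk) hx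
  have f1 : Fr (b.s / 8) (1 : Mx n) := fr_one (by linarith)
  have o1 := ok_std b.γ hb.x_mem hb.fr hb.lo hb.hi hb.w_le
  have o2 := ok_std b.γ hb.x_mem f1 hb.lo hb.hi hb.w_le
  have o3 := ok_std γ (hx' 3 (by norm_num)) f1 hb.lo hb.hi hb.w_le
  have o4 := ok_zero (hx' 3 (by norm_num)) hb.lo hb.hi
  have e1 := step hG ha hc hZ o1 hb rfl (Λ := P.t * b.s) (h := 0) (h' := P.sw b.s / 4)
    (by simp only; linarith) h le_rfl (by simp only; linarith) (by linarith) le_rfl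
    (by simpa [div_le_iff₀ hw] using by linarith) fun y ⟨⟨u, u1, u2⟩, u3⟩ =>
      ⟨⟨u, u1.trans (by rw [Real.exp_zero]; nlinarith), u2⟩, u3.trans (by
        rw [mul_assoc, ← Real.exp_add]
        gcongr
        · norm_num
        · linarith [hb.lo'])⟩
  have e2 := step hG ha hc hZ o2 o1 rfl (Λ := P.t * b.s) (l := P.t * b.s) (h := b.s / 8) (h' := 0)
    (by simp only; linarith) (by simp only; linarith) (by linarith) le_rfl le_rfl
    (by simp only; linarith) (by simpa [div_le_iff₀ hs] using by linarith)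
    fun y ⟨⟨u, u1, u2⟩, u3⟩ =>
      ⟨⟨b.ξ *ᵥ u, (fr_le hb.fr u1).trans (pow_le_pow_left₀ (Real.exp_pos _).le
        (le_mul_of_one_le_left (Real.exp_pos _).le (by linarith)) 2), by
          simpa only [Pb.z, Matrix.one_mulVec] using u2⟩,
        u3.trans (mul_le_mul_of_nonneg_right (by simp) (Real.exp_pos _).le)⟩
  have e3 := step hG ha hc hZ o3 o2 rfl (Λ := P.t * b.s) (l := P.t * b.s) (h := K) (h' := 0)
    (by simp only; linarith) (by simp only; linarith) (by linarith) (by simp only; linarith) le_rfl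
    (by simp only; linarith) (by simpa [div_le_iff₀ hs] using by linarith)
    fun y ⟨⟨u, u1, u2⟩, u3⟩ => by
      obtain ⟨v, v1, v2⟩ := ha.geo _ _ 1 (Real.exp K) o2 o3 rfl e (Real.one_le_exp (by linarith))
        (fun u hu => ⟨_, fr_le (ha.jac _ _ _ _ _ hb.x_mem _ (hx' 3 (by norm_num)) e) hu, by
          simp only [Matrix.one_mulVec]⟩) one_pos.le one_le_two u u1
      exact ⟨⟨v, v1, u2.trans v2⟩,
        u3.trans (mul_le_mul_of_nonneg_right (by simp) (Real.exp_pos _).le)⟩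
  have e4 := (hr.act γ 1 b.w _ norm_one (ha.densW _ (P.t * b.s) o3)).2.2
  have e5 : (Pb.mk γ a x 1 b.s b.w (P.sw b.s) : Pb C).W P (P.t * b.s) ∘ isoY γ 1 b.w =
      P.at0 C b.s 1 a x 1 := funext fun y => by
    have := ha.sym _ γ 1 b.w y o4 norm_one
    simp only [mul_one, mul_zero, zero_add] at this
    simp only [Par.at0, Pb.W, comp_apply, Pi.smul_apply, this]
  have e6 := g_le hG ha ⟨hb.lo, hb.hi⟩ a (hx' (5 / 2) (by norm_num))
  rw [Par.g, ← e5, e4] at e6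
  have c : 0 ≤ c₃ n := zero_le_one.trans c₃_ge
  have e7 := mul_le_mul_of_nonneg_left (e2.trans (mul_le_mul_of_nonneg_left
    (e3.trans (mul_le_mul_of_nonneg_left (add_le_add_left e6 1) c)) c)) c
  rw [Par.U]
  linarith

end D41

open D41 in
theorem st41d : St41d := by
  intro n Γ E _ _ _ _ _ _ _ C K₁
  refine ⟨max (max (c₁ n) (K₁ * c₁ n)) (max (max (c₂ n) (c₃ n)) (c₃ n ^ 3)), fun K hK =>
    ⟨⌈8 * K₁⌉₊, fun P hP μ S hG ha hr hc => ?_⟩⟩
  simp only [max_le_iff] at hK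
  obtain ⟨⟨k1, k2⟩, ⟨k3, k4⟩, k5⟩ := hK
  have hZ : 8 * K₁ ≤ P.Z := Nat.ceil_le.1 hP
  have G := fun (b : Pb C) l (hb : b.Ok P) => G_nn hG ha hb l
  refine ⟨fun b Λ l ν hb h1 h2 h3 hν => (slope hG ha hc hZ hb h1 h2 h3 hν).trans ?_,
    fun b Λ l hb h1 h2 => (grow hG ha hc hZ hb h1 h2).trans
      (mul_le_mul_of_nonneg_right k3 (G b Λ hb)),
    fun b b' Λ l h h' hb hb' hs h1 h2 h3 h4 h5 h6 h7 h8 => ?_, fun s hs a x hx => g_le hG ha hs a hx,
    fun b l hb h => (top hG ha hc hZ hr hb h).trans (mul_le_mul_of_nonneg_right k5 ?_),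
    fun b Λ l l' ν hb h1 h2 h3 h4 hν => (shift hG ha hc hZ hb h1 h2 h3 h4 hν).trans ?_,
    fun b b' Λ ν hb hb' hs h1 h2 hν h3 => (move₀ hG ha hc hZ hb hb' hs h1 h2 hν h3).trans ?_,
    fun a x hx s s' h1 h2 h3 => (mono hG ha hc hZ hx h1 h2 h3).trans
      (mul_le_mul_of_nonneg_right k3 ?_)⟩
  · have := G b Λ hb
    have : 0 ≤ Λ := by linarith [T_pos hb]
    gcongr
  · have := mul_le_mul_of_nonneg_right k4 (add_nonneg (G b Λ hb) zero_le_one)
    linarith [step hG ha hc hZ hb hb' hs h1 h2 h3 h4 h5 h6 h7 h8]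
  · exact add_nonneg (Real.iSup_nonneg fun q => G _ _
      (ok_zero (B_mono (by norm_num) _ q.2) hb.lo hb.hi)) zero_le_one
  · have := G b Λ hb
    have : 0 ≤ Λ := by linarith [T_pos hb]
    have := sub_nonneg.2 h3
    gcongr
  · have := G b' Λ hb'
    have : 0 ≤ Λ := by linarith [T_pos hb]
    have := P.B_pos
    rw [← mul_div_assoc, ← mul_assoc, mul_right_comm K₁]
    gcongr
  · exact add_nonneg (G _ _ (ok_zero hx (h1.trans h2) h3)) zero_le_one

end Vale.Agent.P284Y
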