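import Vale.Agent.P284Y.Y.R41
import Vale.Agent.P284Y.Y.Cov
import Vale.Agent.P284Y.Y9.Par
import Vale.Agent.P284Y.Lib.Dg

/-!
# P284Y, block Y: Lipschitz bound and convexity in the scale
-/

set_option linter.unusedSectionVars false

open scoped ContDiff Topology ComplexOrder ENNReal Matrix
open Filter Set Function Metric MeasureTheory

noncomputable section

namespace Vale.Agent.P284Y

open Vale.Agent.P272.K Vale.Agent.P284Z Vale.Agent.P284Z.J Y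

namespace S41e

variable {n : ℕ}

theorem bd_eq (e : ℂ) (A : Mx n) : bd e A = bk e A :=
  bk_ext rfl (fun _ => rfl) (fun _ => rfl) fun _ _ => rfl

theorem nsq_smul (c : ℂ) (u : Cm n) : nsq (c • u) = ‖c‖ ^ 2 * nsq u := by
  simp [nsq, mul_pow, Finset.mul_sum]

theorem nsq_exp (r : ℝ) (u : Cm n) :
    nsq (((Real.exp r : ℝ) : ℂ) • u) = Real.exp r ^ 2 * nsq u := by
  rw [nsq_smul, Complex.norm_real, Real.norm_of_nonneg (Real.exp_pos r).le]

theorem nsq_nn (u : Cm n) : 0 ≤ nsq u := Finset.sum_nonneg fun _ _ => sq_nonneg _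

theorem nsq_le {u : Cm n} (h : ‖u‖ ≤ 1) : nsq u ≤ n := by
  simpa [nsq] using Finset.sum_le_card_nsmul Finset.univ (fun b => ‖u b‖ ^ 2) 1
    fun b _ => pow_le_one₀ (norm_nonneg _) ((norm_le_pi_norm u b).trans h)

theorem bmp_congr {k : ℕ} (q : ℝ) {u v : Cm k} (h : nsq u = nsq v) : bmp k q u = bmp k q v := by
  simp only [bmp, bmp₀, h]

/-- rotations do not change the density -/
theorem mv_rot (q : ℝ) (c : Cm (n + 1)) (e g : ℂ) {u v : ℂ} (ξ : Mx n) (hu : ‖u‖ = 1)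
    (hv : ‖v‖ = 1) :
    mv c (bk (e * u) ((g * v) • ξ)) (bmp₂ n q) = mv c (bk e (g • ξ)) (bmp₂ n q) := by
  have hu0 : u ≠ 0 := norm_ne_zero_iff.1 (by rw [hu]; exact one_ne_zero)
  have hv0 : v ≠ 0 := norm_ne_zero_iff.1 (by rw [hv]; exact one_ne_zero)
  have h1 : bk (e * u) ((g * v) • ξ) = bk e (g • ξ) * bk u (v • 1) := by
    rw [bk_mul, Matrix.mul_smul, Matrix.mul_one, smul_smul, mul_comm v]
  have h2 : (bk u (v • (1 : Mx n)))⁻¹ = bk u⁻¹ (v⁻¹ • 1) :=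
    Matrix.inv_eq_right_inv (by
      rw [bk_mul, mul_inv_cancel₀ hu0, Matrix.smul_mul, Matrix.one_mul, smul_smul,
        mul_inv_cancel₀ hv0, one_smul, bk_one])
  funext z
  rw [mv, mv, h1, Matrix.mul_inv_rev, h2, ← Matrix.mulVec_mulVec, Matrix.det_mul, bk_det u,
    Matrix.det_smul, Matrix.det_one, norm_mul, norm_mul, norm_mul, norm_pow, hu, hv, one_pow,
    norm_one, mul_one, mul_one, mul_one, bk_mulVec]
  generalize (bk e (g • ξ))⁻¹ *ᵥ (z - c) = w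
  congr 1
  simp only [bmp₂, Fin.cons_zero, Fin.tail_cons]
  congr 1
  · exact bmp_congr q (by simp [nsq, hu])
  · exact bmp_congr q (by rw [Matrix.smul_mulVec, Matrix.one_mulVec, nsq_smul]; simp [hv])

theorem polar (a c : ℝ) (θ : ℂ) : ∃ u : ℂ, ‖u‖ = 1 ∧
    Complex.exp (-((a + c * θ) / 2)) = (Real.exp (-((a + c * θ.re) / 2)) : ℝ) * u := by
  refine ⟨Complex.exp ((-(c * θ.im / 2) : ℝ) * Complex.I), Complex.norm_exp_ofReal_mul_I _, ?_⟩
  rw [Complex.ofReal_exp, ← Complex.exp_add]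
  congr 1
  apply Complex.ext <;> simp

theorem polar_sq (a c : ℝ) (θ : ℂ) :
    ‖Complex.exp (-((a + c * θ) / 2))‖ ^ 2 = Real.exp (-(a + c * θ.re)) := by
  obtain ⟨u, hu, e⟩ := polar a c θ
  rw [e, norm_mul, hu, mul_one, Complex.norm_real, Real.norm_of_nonneg (Real.exp_pos _).le,
    ← Real.exp_nat_mul]
  congr 1
  push_cast
  ring

variable {Γ E : Type} [Group Γ] [TopologicalSpace E] [MulAction Γ E] {C : Cov n Γ E}
  [MeasurableSpace E] {μ : Measure (E × ℂ)} {P : Par} {S : MAS (P.Q C) μ} {K : ℝ}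

/-- the probe with other scales -/
def sc (b : Pb C) (s s' : ℝ) : Pb C := { b with s := s, s' := s' }

/-- the square of the Hilbert-Schmidt norm -/
def hsn (ξ : Mx n) : ℝ := ∑ i, ∑ j, ‖ξ i j‖ ^ 2

theorem hs_nn (ξ : Mx n) : 0 ≤ hsn ξ :=
  Finset.sum_nonneg fun _ _ => Finset.sum_nonneg fun _ _ => sq_nonneg _

theorem hs_le {ξ : Mx n} {R : ℝ} (h : Fr R ξ) : hsn ξ ≤ n * Real.exp (2 * R) := by
  rw [hsn, Finset.sum_comm]
  have : ∀ j : Fin n, ∑ i, ‖ξ i j‖ ^ 2 ≤ Real.exp (2 * R) := fun j => by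
    have h1 := (h (Pi.single j 1)).2
    have h2 : nsq (Pi.single j 1 : Cm n) = 1 := by
      rw [nsq, Finset.sum_eq_single j] <;> simp +contextual
    rw [h2, mul_one, Matrix.mulVec_single_one] at h1
    exact h1
  simpa using Finset.sum_le_card_nsmul Finset.univ _ _ fun j _ => this j

/-- the energy along an affine family of scales -/
theorem ray (hA : R41a P C μ K) (b : Pb C) {σ σ' lam : ℝ → ℝ} {a₁ c₁ a₂ c₂ a₃ c₃ M : ℝ}
    {I : Set ℝ} {ν : E × ℂ → ℝ} (h₁ : ∀ r, σ r = a₁ + c₁ * r) (h₂ : ∀ r, σ' r = a₂ + c₂ * r)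
    (h₃ : ∀ r, lam r = a₃ + c₃ * r) (hI : IsOpen I) (hI' : I.OrdConnected)
    (hν : (P.Q C).Dens ν) (hξ : b.ξ.det ≠ 0)
    (hm : ∀ r ∈ I, ∀ u, ‖u‖ ≤ 1 → (sc b (σ r) (σ' r)).z u ∈ C.B (7 / 2) b.a)
    (hM : ∀ r ∈ I, S.msl ν ((sc b (σ r) (σ' r)).p P) (lam r) ≤ M) :
    ContinuousOn (fun r => S.G (ν + (sc b (σ r) (σ' r)).W P (lam r))) I ∧
    ConvexOn ℝ I fun r => S.G (ν + (sc b (σ r) (σ' r)).W P (lam r)) +
      M * ((n + 2) * (P.m * Real.exp (-σ' r) + P.β * K * Real.exp (-σ r) * hsn b.ξ)) := by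
  obtain rfl : σ = fun r => a₁ + c₁ * r := funext h₁
  obtain rfl : σ' = fun r => a₂ + c₂ * r := funext h₂
  obtain rfl : lam = fun r => a₃ + c₃ * r := funext h₃
  set Wt : ℝ → E × ℂ → ℝ := fun r => (sc b (a₁ + c₁ * r) (a₂ + c₂ * r)).W P (a₃ + c₃ * r) with hW
  obtain ⟨hc, hp⟩ := S.psh ℂ {θ | θ.re ∈ I} Unit ν (fun _ => (b.γ, b.a)) (fun _ => bmp₂ n P.q)
    (fun _ _ => Fin.cons b.w b.x)
    (fun _ θ => bk (Complex.exp (-((a₂ + c₂ * θ) / 2))) (Complex.exp (-((a₁ + c₁ * θ) / 2)) • b.ξ))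
    (fun _ θ => (a₃ + c₃ * θ) / 2) (fun _ => Fin.cons P.m fun _ => P.β * K) (fun _ => M)
    (fun _ θ => Wt θ.re) (fun θ => ν + Wt θ.re) (hI.preimage Complex.continuous_re) hν
    (fun _ => hA.ker.1)
    (fun _ => ⟨analyticOnNhd_const, fun i j θ _ => by
      refine Fin.cases ?_ (fun i => ?_) i <;> refine Fin.cases ?_ (fun j => ?_) j
      · simp only [bk_00]; fun_prop
      · simp only [bk_0s]; fun_prop
      · simp only [bk_s0]; fun_prop
      · simp only [bk_ss, Matrix.smul_apply, smul_eq_mul]; fun_prop,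
      fun θ _ => by fun_prop⟩)
    (fun _ θ hθ => by
      obtain ⟨v, hv, ev⟩ := polar a₁ c₁ θ
      have key : ∀ u : Cm (n + 1), ‖u‖ ≤ 1 → Fin.tail ((Fin.cons b.w b.x : Cm (n + 1)) +
          bk (Complex.exp (-((a₂ + c₂ * θ) / 2)))
            (Complex.exp (-((a₁ + c₁ * θ) / 2)) • b.ξ) *ᵥ u) ∈ C.B (7 / 2) b.a := fun u hu => by
        have h1 := hm θ.re hθ (v • Fin.tail u) (by
          rw [norm_smul, hv, one_mul]
          exact (pi_norm_le_iff_of_nonneg zero_le_one).2 fun i =>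
            (norm_le_pi_norm u i.succ).trans hu)
        rw [bk_mulVec, ev, Matrix.smul_mulVec, mul_smul]
        rw [Pb.z, Matrix.mulVec_smul] at h1
        exact h1
      refine ⟨⟨?_, fun u hu => C.B_mono (by norm_num) b.a (key u hu)⟩, fun u hu => ?_⟩
      · rw [bk_det, Matrix.det_smul]
        exact mul_ne_zero (Complex.exp_ne_zero _)
          (mul_ne_zero (pow_ne_zero _ (Complex.exp_ne_zero _)) hξ)
      · rw [QY_hess C _ (C.B_mono (by norm_num) b.a (key u hu))]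
        have e1 : (fun i => (((Fin.cons P.m fun _ => P.β * K : Fin (n + 1) → ℝ) i : ℝ) : ℂ)) =
            (Fin.cons (P.m : ℂ) fun _ => ((P.β * K : ℝ) : ℂ) : Fin (n + 1) → ℂ) :=
          funext fun i => Fin.cases rfl (fun _ => rfl) i
        rw [e1, bk_diag, bk_sub, sub_self]
        have h2 := ((hA.hess b.a _ (key u hu)).1).smul
          (show (0 : ℂ) ≤ (P.β : ℂ) by exact_mod_cast P.β_pos.le)
        have h3 := bk_psd le_rfl h2
        rw [Complex.ofReal_zero, smul_sub, smul_smul, Matrix.smul_one_eq_diagonal] at h3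
        rw [Complex.ofReal_mul]
        exact h3)
    (fun _ θ => by
      obtain ⟨v, hv, ev⟩ := polar a₁ c₁ θ
      obtain ⟨u, hu, eu⟩ := polar a₂ c₂ θ
      have e : 2 * ((a₃ + c₃ * θ) / 2 : ℂ).re = a₃ + c₃ * θ.re := by simp; ring
      rw [e, ev, eu]
      simp only [hW, Pb.W, Pb.p, Pat.pm, sc, bd_eq, mv_rot _ _ _ _ _ hu hv])
    (fun θ => by simp) (fun _ θ hθ => hM θ.re hθ)
  have hc' : ContinuousOn (fun r : ℝ => S.G (ν + Wt r)) I :=
    (hc.comp Complex.continuous_ofReal.continuousOn fun r hr => hr).congr fun r _ => rfl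
  refine ⟨hc', ?_⟩
  set c₀ : ℝ := M * ∑ i, (Fin.cons P.m fun _ => P.β * K : Fin (n + 1) → ℝ) i *
    (((n + 1 : ℕ) : ℝ) + 1) * ‖(Fin.cons b.w b.x : Cm (n + 1)) i‖ ^ 2 with hc₀
  set cor : ℝ → ℝ := fun r => M * ((n + 2) * (P.m * Real.exp (-(a₂ + c₂ * r)) +
    P.β * K * Real.exp (-(a₁ + c₁ * r)) * hsn b.ξ)) with hcor
  have hcc : Continuous cor := by rw [hcor]; fun_prop
  have h1 : ConvexOn ℝ I fun r => S.G (ν + Wt r) + cor r + c₀ := by
    refine Lib.cvx₁ hI hI' ?_ (LB.of_cont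
      ((hc.add (hcc.comp Complex.continuous_re).continuousOn).add continuousOn_const))
    convert hp using 2 with θ
    rw [add_assoc, Finset.univ_unique, Finset.sum_singleton, hc₀, hcor, ← mul_add]
    congr 2
    simp only [mul_add, Finset.sum_add_distrib]
    rw [add_comm]
    congr 1
    simp only [Fin.sum_univ_succ, Fin.cons_zero, Fin.cons_succ, bk_00, bk_0s, bk_s0, bk_ss,
      Matrix.smul_apply, smul_eq_mul, norm_mul, mul_pow, polar_sq, norm_zero, hsn,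
      ← Finset.mul_sum]
    simp [← Finset.mul_sum]
    ring
  exact (h1.add_const (-c₀)).congr fun r _ => by simp [hW, hcor]

/-- the dilated probe -/
def dl (b : Pb C) (r : ℝ) : Pb C := { b with ξ := ((Real.exp r : ℝ) : ℂ) • b.ξ }

theorem dl_zero (b : Pb C) : dl b 0 = b := by simp [dl]

theorem dl_z (b : Pb C) (r : ℝ) (u : Cm n) : (dl b r).z u = b.z (((Real.exp r : ℝ) : ℂ) • u) := by
  simp only [Pb.z, dl, Matrix.smul_mulVec, Matrix.mulVec_smul]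

theorem exp_half (s r : ℝ) : ((Real.exp (-((s + -2 * r) / 2)) : ℝ) : ℂ) =
    (Real.exp (-(s / 2)) : ℝ) * (Real.exp r : ℝ) := by
  rw [← Complex.ofReal_mul, ← Real.exp_add]
  congr 2
  ring

theorem sc_p (b : Pb C) (r : ℝ) : (sc b (b.s + -2 * r) b.s').p P = (dl b r).p P := by
  simp only [Pb.p, sc, dl, exp_half, smul_smul]

theorem sc_z (b : Pb C) (r : ℝ) (u : Cm n) : (sc b (b.s + -2 * r) b.s').z u = (dl b r).z u := by
  simp only [Pb.z, sc, dl, exp_half, Matrix.smul_mulVec, smul_smul]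

theorem dl_ok {b : Pb C} (hb : b.Ok P) (hf : Fr (b.s / 16) b.ξ) {r : ℝ} (hr : |r| ≤ b.s / 16) :
    (dl b r).Ok P := by
  refine ⟨hb.x_mem, fun u => ?_, hb.lo, hb.hi, hb.w_le, hb.lo', hb.hi'⟩
  obtain ⟨h1, h2⟩ := hf u
  obtain ⟨r1, r2⟩ := abs_le.1 hr
  have h0 := nsq_nn u
  have e : nsq ((dl b r).ξ *ᵥ u) = Real.exp (2 * r) * nsq (b.ξ *ᵥ u) := by
    rw [dl, Matrix.smul_mulVec, nsq_exp, ← Real.exp_nat_mul, Nat.cast_ofNat]
  rw [e]
  constructor
  · refine le_trans ?_ (mul_le_mul_of_nonneg_left h1 (Real.exp_pos _).le)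
    rw [← mul_assoc, ← Real.exp_add]
    exact mul_le_mul_of_nonneg_right (Real.exp_le_exp.2 (by change -(2 * (b.s / 8)) ≤ _; linarith)) h0
  · refine (mul_le_mul_of_nonneg_left h2 (Real.exp_pos _).le).trans ?_
    rw [← mul_assoc, ← Real.exp_add]
    exact mul_le_mul_of_nonneg_right (Real.exp_le_exp.2 (by change _ ≤ 2 * (b.s / 8); linarith)) h0

theorem stepD (hd : R41d P S K) (hK : 1 ≤ K) {b b' : Pb C} {Λ h D : ℝ} (hb : b.Ok P)
    (hb' : b'.Ok P) (e : b'.s = b.s) (h1 : P.t * b.s / 8 ≤ Λ) (h2 : Λ ≤ 2 * (P.t * b.s))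
    (h0 : 0 ≤ h) (hh : h ≤ b.s / 8) (hB : b'.Box 1 1 ⊆ b.Box ((1 + P.q) * Real.exp h) 4)
    (hD : S.G (b.W P Λ) + 1 ≤ D) : S.G (b'.W P Λ) ≤ K * D := by
  have hs : 0 < b.s := P.lo_pos.trans_le hb.lo
  have h3 := mul_pos P.t_pos hs
  have h4 := P.le_sw hs.le
  refine (hd.step b b' Λ Λ h 0 hb hb' e h1 (by linarith) h0 hh le_rfl (by linarith [hb.lo'])
    ?_ (by rwa [Real.exp_zero, mul_one])).trans (mul_le_mul_of_nonneg_left hD (by linarith))
  rw [mul_zero, zero_div, add_zero, div_le_iff₀ hs]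
  linarith

theorem dl_box (b : Pb C) (r : ℝ) : (dl b r).Box 1 1 ⊆ b.Box ((1 + P.q) * Real.exp |r|) 4 := by
  rintro y ⟨⟨u, hu, e⟩, hw⟩
  refine ⟨⟨((Real.exp r : ℝ) : ℂ) • u, ?_, by rw [e, dl_z]; rfl⟩,
    hw.trans (mul_le_mul_of_nonneg_right (by norm_num) (Real.exp_pos _).le)⟩
  rw [nsq_exp]
  rw [one_pow] at hu
  refine (mul_le_of_le_one_right (sq_nonneg _) hu).trans
    (pow_le_pow_left₀ (Real.exp_pos _).le ?_ 2)
  exact (Real.exp_le_exp.2 (le_abs_self r)).trans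
    (le_mul_of_one_le_left (Real.exp_pos _).le (by linarith [P.q_pos]))

theorem box_dl (b : Pb C) (r h : ℝ) : b.Box (r * Real.exp h) 4 ⊆ (dl b h).Box r 4 := by
  rintro y ⟨⟨u, hu, e⟩, hw⟩
  refine ⟨⟨((Real.exp (-h) : ℝ) : ℂ) • u, ?_, ?_⟩, hw⟩
  · rw [nsq_exp]
    refine (mul_le_mul_of_nonneg_left hu (sq_nonneg _)).trans (le_of_eq ?_)
    rw [← mul_pow, mul_left_comm, ← Real.exp_add, neg_add_cancel, Real.exp_zero, mul_one]
  · rw [e, dl_z, smul_smul, ← Complex.ofReal_mul, ← Real.exp_add, add_neg_cancel, Real.exp_zero,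
      Complex.ofReal_one, one_smul]
    rfl

theorem three {F₀ F₁ F₂ M N c₀ c X₀ X₁ X₂ Y θ A B : ℝ} (θ0 : 0 ≤ θ) (hc : 0 ≤ M * N * c * Y)
    (h0 : 0 ≤ X₀) (h1 : X₀ ≤ X₁) (h : F₁ + M * (N * (c₀ + c * X₁ * Y)) ≤
      (1 - θ) * (F₀ + M * (N * (c₀ + c * X₀ * Y))) + θ * (F₂ + M * (N * (c₀ + c * X₂ * Y))))
    (hA : F₂ - F₀ ≤ A) (hB : M * N * c * (Y * X₂) ≤ B) : F₁ ≤ F₀ + θ * (A + B) := by
  have a1 := mul_le_mul_of_nonneg_left h1 hc
  have a2 := mul_nonneg θ0 (mul_nonneg hc h0)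
  have a3 := mul_le_mul_of_nonneg_left (add_le_add hA hB) θ0
  linarith

theorem lip (hG : Gen S) (hA : R41a P C μ K) (hd : R41d P S K) (hn : (n : ℝ) ≤ P.Z) {b : Pb C}
    {Λ h D : ℝ} {ν : E × ℂ → ℝ} (hb : b.Ok P) (hf : Fr (b.s / 16) b.ξ) (h1 : P.t * b.s / 8 ≤ Λ)
    (h2 : Λ ≤ 2 * (P.t * b.s)) (hν : (P.Q C).Dens ν) (h0 : 0 ≤ h) (hh : h ≤ b.s / 32)
    (hD : S.G (b.W P Λ) + 1 ≤ D) :
    S.G (ν + (dl b h).W P Λ) ≤
      S.G (ν + b.W P Λ) + 32 * (K + K ^ 3 * (n * (n + 2))) * h * D / b.s := by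
  have hK := hA.K_ge
  have hs : 0 < b.s := P.lo_pos.trans_le hb.lo
  have hts := mul_pos P.t_pos hs
  have hΛ : 0 < Λ := by linarith
  have hD0 : 0 ≤ D := by linarith [hG.G_nonneg _ (hA.densW b Λ hb)]
  have hE : ∀ r, |r| ≤ b.s / 16 → S.G ((dl b r).W P Λ) ≤ K * D := fun r hr =>
    stepD hd hK hb (dl_ok hb hf hr) rfl h1 h2 (abs_nonneg r) (by linarith) (dl_box b r) hD
  have hξ : b.ξ.det ≠ 0 := fun e => (hA.inn b hb).1 (by
    rw [Pb.A, bd_eq, bk_det, Matrix.det_smul, e, mul_zero, mul_zero])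
  have hZ : P.Z * P.TT ≤ b.s := P.lo_ge.trans hb.lo
  have hT : 100 ≤ P.TT := P.Z_ge'.trans P.Z_le_TT
  have hns : (n : ℝ) ≤ Real.exp (b.s / 2) := by
    have := Real.add_one_le_exp (b.s / 2)
    nlinarith [P.Z_pos]
  have hβ : P.β ≤ Λ := by
    refine le_trans ?_ h1
    rw [Par.t, mul_assoc, mul_div_assoc]
    refine le_mul_of_one_le_right P.β_pos.le ?_
    nlinarith [P.Z_ge']
  obtain ⟨-, hc⟩ := ray (S := S) hA b (σ := fun r => b.s + -2 * r) (σ' := fun _ => b.s')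
    (lam := fun _ => Λ) (a₂ := b.s') (c₂ := 0) (a₃ := Λ) (c₃ := 0) (M := K * (K * D) / Λ)
    (I := Ioo (-(b.s / 16)) (b.s / 16)) (fun _ => rfl) (fun _ => by ring) (fun _ => by ring)
    isOpen_Ioo ordConnected_Ioo hν hξ
    (fun r hr u hu => by
      rw [sc_z]
      exact hA.mem _ (dl_ok hb hf (abs_lt.2 hr).le) u ((nsq_le hu).trans hns))
    (fun r hr => by
      rw [sc_p]
      refine (hd.slope (dl b r) Λ Λ ν (dl_ok hb hf (abs_lt.2 hr).le) h1 h2 (by linarith) hν).trans ?_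
      exact div_le_div_of_nonneg_right
        (mul_le_mul_of_nonneg_left (hE r (abs_lt.2 hr).le) (by linarith)) hΛ.le)
  have θ0 : 0 ≤ 32 * h / b.s := by positivity
  have θ1 : 32 * h / b.s ≤ 1 := (div_le_one hs).2 (by linarith)
  have h3 := hc.2 (x := 0) ⟨by linarith, by linarith⟩ (y := b.s / 32) ⟨by linarith, by linarith⟩
    (sub_nonneg.2 θ1) θ0 (sub_add_cancel _ _)
  have e : (1 - 32 * h / b.s) • (0 : ℝ) + (32 * h / b.s) • (b.s / 32) = h := by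
    simp only [smul_eq_mul]
    field_simp
    ring
  rw [e] at h3
  simp only [Pb.W, sc_p, dl_zero, smul_eq_mul] at h3
  have hT' : |b.s / 32| ≤ b.s / 16 := by rw [abs_of_pos (by positivity)]; linarith
  have hW := hA.densW _ Λ (dl_ok hb hf hT')
  have hM : 0 ≤ K * (K * D) / Λ * (n + 2) * (P.β * K) := by
    have := P.β_pos
    positivity
  have h4 := three θ0 (mul_nonneg hM (hs_nn _)) (Real.exp_pos _).le
    (Real.exp_le_exp.2 (by linarith)) h3 (A := K * D) (B := K ^ 3 * (n * (n + 2)) * D) ?_ ?_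
  · refine h4.trans (le_of_eq ?_)
    rw [Pb.W]
    ring
  · have a1 := hG.sub 0 ν _ hG.pg.dens_zero hν hW hν.nonneg
    rw [MAS.I, MAS.I, zero_add, S.G0, sub_zero] at a1
    have a2 := hG.G_mono ν (ν + b.W P Λ) hν (hG.pg.dens_add _ _ hν (hA.densW b Λ hb))
      (le_add_of_nonneg_right (hA.densW b Λ hb).nonneg)
    have a3 := hE _ hT'
    simp only [Pb.W] at a1 a2 a3
    linarith
  · have a1 : hsn b.ξ * Real.exp (-(b.s + -2 * (b.s / 32))) ≤ n := by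
      refine (mul_le_mul_of_nonneg_right (hs_le hf) (Real.exp_pos _).le).trans ?_
      rw [mul_assoc, ← Real.exp_add]
      exact mul_le_of_le_one_right n.cast_nonneg (Real.exp_le_one_iff.2 (by linarith))
    refine (mul_le_mul_of_nonneg_left a1 hM).trans ?_
    have a2 : K * (K * D) / Λ * (n + 2) * (P.β * K) * n =
        K ^ 3 * (n * (n + 2)) * D * (P.β / Λ) := by ring
    rw [a2]
    exact mul_le_of_le_one_right (by positivity) ((div_le_one hΛ).2 hβ)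

theorem move (hG : Gen S) (hA : R41a P C μ K) (hd : R41d P S K) (hn : (n : ℝ) ≤ P.Z)
    {b b' : Pb C} {Λ h D : ℝ} {ν : E × ℂ → ℝ} (hb : b.Ok P) (hb' : b'.Ok P)
    (hf : Fr (b.s / 16) b.ξ) (e : b'.s = b.s) (h1 : P.t * b.s / 8 ≤ Λ)
    (h2 : Λ ≤ 2 * (P.t * b.s)) (hν : (P.Q C).Dens ν) (h0 : 0 ≤ h) (hh : h ≤ b.s / 32)
    (hB : b'.Box 1 1 ⊆ b.Box ((1 + P.q) * Real.exp h) 4) (hD : S.G (b.W P Λ) + 1 ≤ D) :
    S.G (ν + b'.W P Λ) ≤ S.G (ν + b.W P Λ) +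
      (32 * (K + K ^ 3 * (n * (n + 2))) * h + 8 * K ^ 2 * P.q) * D / b.s + 1 := by
  have hK := hA.K_ge
  have hs : 0 < b.s := P.lo_pos.trans_le hb.lo
  have hts := mul_pos P.t_pos hs
  have hΛ : 0 < Λ := by linarith
  have hD0 : 0 ≤ D := by linarith [hG.G_nonneg _ (hA.densW b Λ hb)]
  have a1 := hd.move₀ (dl b h) b' Λ ν (dl_ok hb hf (by rw [abs_of_nonneg h0]; linarith)) hb' e h1 h2
    hν (hB.trans (box_dl b _ h))
  have a2 := lip hG hA hd hn hb hf h1 h2 hν h0 hh hD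
  have a3 := stepD hd hK hb hb' e h1 h2 h0 (by linarith) hB hD
  have a4 : K * P.B * S.G (b'.W P Λ) / Λ ≤ 8 * K ^ 2 * P.q * D / b.s := by
    have := P.B_pos
    have := P.q_pos
    have := P.t_pos
    calc K * P.B * S.G (b'.W P Λ) / Λ ≤ K * P.B * (K * D) / (P.t * b.s / 8) := by gcongr
      _ = _ := by rw [Par.B]; field_simp
  rw [add_mul, add_div]
  linarith

theorem cvx_Icc {f : ℝ → ℝ} {a b θ : ℝ} (hab : a < b) (hc : ContinuousOn f (Icc a b))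
    (h : ConvexOn ℝ (Ioo a b) f) (θ0 : 0 ≤ θ) (θ1 : θ ≤ 1) :
    f ((1 - θ) * a + θ * b) ≤ (1 - θ) * f a + θ * f b := by
  have e : closure (Ioo a b ×ˢ Ioo a b) = Icc a b ×ˢ Icc a b := by
    rw [closure_prod_eq, closure_Ioo hab.ne]
  refine le_on_closure (s := Ioo a b ×ˢ Ioo a b) (f := fun q => f ((1 - θ) * q.1 + θ * q.2))
    (g := fun q => (1 - θ) * f q.1 + θ * f q.2)
    (fun q hq => h.2 hq.1 hq.2 (sub_nonneg.2 θ1) θ0 (sub_add_cancel _ _)) ?_ ?_ (x := (a, b)) ?_ <;>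
    rw [e]
  · exact hc.comp (by fun_prop) fun q hq =>
      convex_Icc a b hq.1 hq.2 (sub_nonneg.2 θ1) θ0 (sub_add_cancel _ _)
  · exact (continuousOn_const.mul (hc.comp continuousOn_fst fun q hq => hq.1)).add
      (continuousOn_const.mul (hc.comp continuousOn_snd fun q hq => hq.2))
  · exact ⟨left_mem_Icc.2 hab.le, right_mem_Icc.2 hab.le⟩

theorem inn {b : Pb C} (hξ : b.ξ.det ≠ 0) (h : ∀ u, ‖u‖ ≤ 1 → b.z u ∈ C.B (7 / 2) b.a) :
    (P.Q C).In (b.γ, b.a) (Fin.cons b.w b.x) b.A := by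
  rw [Pb.A, bd_eq]
  refine ⟨?_, fun u hu => C.B_mono (show (7 / 2 : ℝ) ≤ 4 by norm_num) b.a ?_⟩
  · rw [bk_det, Matrix.det_smul]
    exact mul_ne_zero (Complex.ofReal_ne_zero.2 (Real.exp_pos _).ne')
      (mul_ne_zero (pow_ne_zero _ (Complex.ofReal_ne_zero.2 (Real.exp_pos _).ne')) hξ)
  · rw [bk_mulVec, Matrix.smul_mulVec]
    exact h (Fin.tail u) ((pi_norm_le_iff_of_nonneg zero_le_one).2 fun i =>
      (norm_le_pi_norm u i.succ).trans hu)

theorem cvx (hG : Gen S) (hA : R41a P C μ K) (hd : R41d P S K) (hn : n * K ^ 2 ≤ P.Z) {a : C.I}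
    {x : Cm n} (hx : x ∈ C.B 3 a) {s₁ s₂ θ : ℝ} (h1 : P.lo ≤ s₁) (h12 : s₁ ≤ s₂) (h2 : s₂ ≤ P.hi)
    (θ0 : 0 ≤ θ) (θ1 : θ ≤ 1) {K' : ℝ} (hK' : K ^ 2 * ((n + 2) * (1 + K * n)) ≤ K') :
    P.g S ((1 - θ) * s₁ + θ * s₂) a x 1 ≤ (1 - θ) * P.g S s₁ a x 1 + θ * P.g S s₂ a x 1 +
      K' * (P.g S s₂ a x 1 + 1) * Real.exp (-s₁) := by
  have hK := hA.K_ge
  have K0 : 0 ≤ K' := le_trans (by positivity) hK'
  have ht := P.t_pos
  have hs : 1 ≤ s₁ := P.one_le_Z.trans (P.Z_le_lo.trans h1)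
  set b : Pb C := ⟨1, a, x, 1, 0, 0, 0⟩ with hb
  have fr : ∀ R, 0 ≤ R → Fr R (1 : Mx n) := fun R hR u => by
    rw [Matrix.one_mulVec]
    exact ⟨mul_le_of_le_one_left (nsq_nn u) (Real.exp_le_one_iff.2 (by linarith)),
      le_mul_of_one_le_left (nsq_nn u) (Real.one_le_exp (by linarith))⟩
  have ok : ∀ r, P.lo ≤ r → r ≤ P.hi → (sc b r (P.sw r)).Ok P := fun r r1 r2 => by
    have r0 := (P.lo_pos.trans_le r1).le
    have r3 := r0.trans (P.le_sw r0)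
    refine ⟨hx, fr _ (by change 0 ≤ r / 8; linarith), r1, r2, ?_, half_le_self r3,
      le_mul_of_one_le_left r3 (by linarith [P.one_le_Z])⟩
    change ‖(0 : ℂ)‖ ^ 2 ≤ _
    simpa using (Real.exp_pos _).le
  have g0 : 0 ≤ P.g S s₂ a x 1 := hG.G_nonneg _ (hA.densW _ _ (ok s₂ (h1.trans h12) h2))
  rcases h12.eq_or_lt with rfl | h12'
  · have : 0 ≤ K' * (P.g S s₁ a x 1 + 1) * Real.exp (-s₁) := by positivity
    rw [← add_mul, sub_add_cancel, one_mul]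
    linarith
  have hξ : b.ξ.det ≠ 0 := by simp [hb]
  have hm : ∀ r, P.lo - 1 < r → ∀ u, ‖u‖ ≤ 1 → (sc b r (P.sw r)).z u ∈ C.B (7 / 2) a := by
    intro r hr u hu
    refine hA.ball a x hx _ ?_
    change nsq (x + ((Real.exp (-(r / 2)) : ℝ) : ℂ) • (1 : Mx n) *ᵥ u - x) ≤ _
    rw [add_sub_cancel_left, Matrix.one_mulVec, nsq_exp, ← Real.exp_nat_mul,
      show ((2 : ℕ) : ℝ) * -(r / 2) = -r by push_cast; ring, Real.exp_neg, inv_pow,
      inv_mul_le_iff₀ (Real.exp_pos r), ← div_eq_mul_inv, le_div_iff₀ (by positivity)]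
    have := Real.add_one_le_exp r
    have := mul_le_mul_of_nonneg_right (nsq_le hu) (sq_nonneg K)
    linarith [P.Z_le_lo]
  have R := fun (M : ℝ) (I : Set ℝ) => ray (S := S) hA b (σ := fun r => r) (σ' := P.sw)
    (lam := fun r => P.t * r) (a₁ := 0) (c₁ := 1) (a₂ := 0) (c₂ := P.q⁻¹) (a₃ := 0) (c₃ := P.t)
    (M := M) (I := I) (ν := 0) (fun _ => by ring) (fun _ => by rw [Par.sw]; ring)
    (fun _ => by ring)
  simp only [zero_add] at R
  have hc := (R (Real.exp (P.t * (P.hi + 1))) (Ioo (P.lo - 1) (P.hi + 1)) isOpen_Ioo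
    ordConnected_Ioo hG.pg.dens_zero hξ (fun r hr => hm r hr.1) fun r hr => by
      have hi := inn (P := P) (b := sc b r (P.sw r)) hξ (hm r hr.1)
      have i1 := hG.pg.pm_int _ _ _ _ (fun _ => 1) hA.ker.1 hi continuous_const
      simp only [one_mul, hA.ker.2] at i1
      refine (hG.msl_le _ _ _ hG.pg.dens_zero (hG.pg.pm_dens _ _ _ _ hA.ker.1 hi)).trans ?_
      rw [i1, mul_one]
      exact Real.exp_le_exp.2 (mul_le_mul_of_nonneg_left hr.2.le ht.le)).1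
  set M : ℝ := K * (K * (P.g S s₂ a x 1 + 1)) / P.t with hM
  have M0 : 0 ≤ M := by positivity
  have hv := (R M (Ioo s₁ s₂) isOpen_Ioo ordConnected_Ioo hG.pg.dens_zero hξ
    (fun r hr => hm r (by linarith [hr.1])) fun r hr => by
      have r1 := h1.trans hr.1.le
      have r0 : 1 ≤ r := hs.trans hr.1.le
      have r2 : 0 < P.t * r := by positivity
      refine (hd.slope _ (P.t * r) (P.t * r) 0 (ok r r1 (hr.2.le.trans h2))
        (by change P.t * r / 8 ≤ _; linarith) (by change _ ≤ 2 * (P.t * r); linarith)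
        (by linarith) hG.pg.dens_zero).trans ?_
      exact div_le_div₀ (by positivity)
        (mul_le_mul_of_nonneg_left (hd.mono a x hx r s₂ r1 hr.2.le h2) (by linarith)) ht
        (le_mul_of_one_le_right ht.le r0)).2
  set cor : ℝ → ℝ := fun r =>
    M * ((n + 2) * (P.m * Real.exp (-P.sw r) + P.β * K * Real.exp (-r) * hsn b.ξ)) with hcor
  have hcc : Continuous cor := by
    rw [hcor]
    unfold Par.sw
    fun_prop
  have h3 := cvx_Icc (f := fun r => P.g S r a x 1 + cor r) h12'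
    ((hc.mono fun r hr => ⟨by linarith [hr.1], by linarith [hr.2]⟩).add hcc.continuousOn) hv θ0 θ1
  have c0 : 0 ≤ cor ((1 - θ) * s₁ + θ * s₂) := by
    have := P.m_pos
    have := P.β_pos
    have := hs_nn b.ξ
    rw [hcor]
    positivity
  have c1 : ∀ r, s₁ ≤ r → cor r ≤ K' * (P.g S s₂ a x 1 + 1) * Real.exp (-s₁) := fun r hr => by
    have e1 : Real.exp (-r) ≤ Real.exp (-s₁) := Real.exp_le_exp.2 (by linarith)
    have e2 : Real.exp (-P.sw r) ≤ Real.exp (-s₁) :=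
      Real.exp_le_exp.2 (by linarith [P.le_sw (show 0 ≤ r by linarith)])
    have e3 : hsn b.ξ ≤ n := by simpa using hs_le (fr 0 le_rfl)
    have e4 := P.m_le_t
    have e5 := P.β_le_B.trans P.B_le_t
    have := hs_nn b.ξ
    calc cor r ≤ M * ((n + 2) * (P.t * Real.exp (-s₁) + P.t * K * Real.exp (-s₁) * n)) := by
          rw [hcor]
          beta_reduce
          gcongr
      _ = K ^ 2 * ((n + 2) * (1 + K * n)) * (P.g S s₂ a x 1 + 1) * Real.exp (-s₁) := by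
          rw [hM]
          field_simp
      _ ≤ _ := by gcongr
  have d1 := mul_le_mul_of_nonneg_left (c1 s₁ le_rfl) (sub_nonneg.2 θ1)
  have d2 := mul_le_mul_of_nonneg_left (c1 s₂ h12) θ0
  beta_reduce at h3
  linarith

end S41e

open S41e in
theorem st41e : St41e := by
  intro n Γ E _ _ _ _ _ _ _ C K₁
  refine ⟨32 * (K₁ + K₁ ^ 3 * (n * (n + 2))) + 8 * K₁ ^ 2 + K₁ ^ 2 * ((n + 2) * (1 + K₁ * n)),
    fun K hK => ⟨⌈n * K₁ ^ 2⌉₊, fun P hP μ S hG hA hd => ?_⟩⟩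
  have k1 := hA.K_ge
  have hn : n * K₁ ^ 2 ≤ P.Z := Nat.ceil_le.1 hP
  have hn' : (n : ℝ) ≤ P.Z := (le_mul_of_one_le_right n.cast_nonneg (one_le_pow₀ k1)).trans hn
  have p1 : 0 ≤ K₁ ^ 3 * (n * (n + 2)) := by positivity
  have p2 : 0 ≤ K₁ ^ 2 := by positivity
  have p3 : 0 ≤ K₁ ^ 2 * ((n + 2) * (1 + K₁ * n)) := by positivity
  have hD : ∀ {b : Pb C} {Λ D : ℝ}, b.Ok P → S.G (b.W P Λ) + 1 ≤ D → 0 ≤ D := by
    intro b Λ D hb h
    linarith [hG.G_nonneg _ (hA.densW b Λ hb)]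
  refine ⟨fun b Λ h D ν hb hf h1 h2 hν h0 hh h3 => ?_,
    fun b b' Λ h D ν hb hb' hf e h1 h2 hν h0 hh hB h3 => ?_, fun a x hx s₁ s₂ θ h1 h2 h3 θ0 θ1 => ?_⟩
  · have hs : 0 < b.s := P.lo_pos.trans_le hb.lo
    have d0 := hD hb h3
    have a : |h| ≤ b.s / 16 := by rw [abs_of_nonneg h0]; linarith
    refine ⟨(stepD hd k1 hb (dl_ok hb hf a) rfl h1 h2 (abs_nonneg h) (by linarith) (dl_box b h)
      h3).trans (mul_le_mul_of_nonneg_right (by linarith) d0),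
      (lip hG hA hd hn' hb hf h1 h2 hν h0 hh h3).trans ?_⟩
    gcongr
    linarith
  · have hs : 0 < b.s := P.lo_pos.trans_le hb.lo
    have d0 := hD hb h3
    refine ⟨(stepD hd k1 hb hb' e h1 h2 h0 (by linarith) hB h3).trans
      (mul_le_mul_of_nonneg_right (by linarith) d0),
      (move hG hA hd hn' hb hb' hf e h1 h2 hν h0 hh hB h3).trans ?_⟩
    have := P.q_pos
    rw [mul_add K]
    gcongr <;> linarith
  · exact cvx hG hA hd hn hx h1 h2 h3 θ0 θ1 (by linarith)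

end Vale.Agent.P284Y
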