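import Vale.Agent.P284Y.Y.S41a
import Vale.Agent.P284Y.Y.S41b
import Vale.Agent.P284Y.Y.S41c
import Vale.Agent.P284Y.Y.S41d
import Vale.Agent.P284Y.Y.S41e
import Vale.Agent.P284Y.Y.S41g

/-!
# P284Y, block Y: the rows Y1, Y2, Y3
-/

namespace Vale.Agent.P284Y

/-- **Y1, Y2, Y3** -/
theorem st41 : St41 := st41_of (st41a stGeo) st41b st41c st41d st41e

end Vale.Agent.P284Y
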