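import Vale.Agent.P284Y.Gen.PGBm
import Vale.Agent.P284Y.A.Lip
import Vale.Agent.P284Y.Y.Blk
import Vale.Agent.P284Z.F0.Reg

/-!
# P284Y: crude mass bound, sub-mean inequality, three circles (any atlas)
-/

set_option linter.all false

open scoped ContDiff Topology ComplexOrder ENNReal Matrix
open Filter Set Function Metric MeasureTheory

noncomputable section

namespace Vale.Agent.P284Y.Y2

open Vale.Agent.P272.K Vale.Agent.P284Z Vale.Agent.P284Z.J Vale.Agent.P284Y.Y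

/-- three circles on a holomorphic disc -/
theorem three_one {W : Type} [NormedAddCommGroup W] [NormedSpace ℂ W] [FiniteDimensional ℂ W]
    {F : W → ℝ} {U : Set W} (hF : Psh F U) (hb : LB F U) (hU : IsOpen U) {g : ℂ → W}
    (hg : Differentiable ℂ g) {a b A l : ℝ} (ha : 0 ≤ a) (hb0 : 0 < b) (hl : 0 ≤ l)
    (hR : ∀ ζ, ‖ζ‖ ≤ Real.exp b → g ζ ∈ U ∧ F (g ζ) ≤ A)
    (hr : ∀ ζ, ‖ζ‖ ≤ Real.exp (-a) → F (g ζ) ≤ A - l) : F (g 1) ≤ A - l + l * (a / (a + b)) := by
  have hO := hU.preimage hg.continuous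
  have h := P284Y.A.three (z := 0) (y := 1) (r := Real.exp (-a)) (ρ := 1) (R := Real.exp b) (A := A - l)
    (B := A) (hF.comp hb hU hO hg.differentiableOn fun _ h => h)
    (hb.comp hg.continuous.continuousOn fun _ h => h)
    (fun ζ h => (hR ζ (mem_closedBall_zero_iff.1 h)).1) (Real.exp_pos _)
    (Real.exp_le_one_iff.2 (by linarith)) (Real.one_le_exp hb0.le)
    (Real.exp_lt_exp.2 (by linarith)) (by linarith)
    (fun ζ h => hr ζ (mem_closedBall_zero_iff.1 h))
    (fun ζ h => (hR ζ (mem_closedBall_zero_iff.1 h)).2) (by simp)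
  rw [div_one, ← Real.exp_sub, Real.log_exp, Real.log_exp] at h
  refine h.trans_eq ?_
  have : a + b ≠ 0 := by positivity
  rw [show b - -a = a + b by ring]
  field_simp
  ring

variable {N : ℕ} {M : Type} [TopologicalSpace M] [T2Space M] [MeasurableSpace M] [BorelSpace M]
  {Q : Pat N M} {μ : Measure M} {S : MAS Q μ} {ν p : M → ℝ} {i : Q.ι} {c : Cm N}

theorem sm_pt (hν : Q.Dens ν) {v : Cm N} (hv : v ∈ Q.U i) :
    ContDiffAt ℝ ∞ (fun v => Q.ρ i v + S.φ ν (Q.pt i v)) v :=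
  (S.ok.ρ_sm i v hv).add (S.sm ν hν _ i v hv rfl)

theorem psh_pt (hν : Q.Dens ν) (i : Q.ι) : Psh (fun v => Q.ρ i v + S.φ ν (Q.pt i v)) (Q.U i) :=
  psh_of_cHess fun v hv => ⟨(sm_pt hν hv).of_le two_le, (S.pos ν hν i v hv).posSemidef⟩

theorem lb_pt (hν : Q.Dens ν) (i : Q.ι) : LB (fun v => Q.ρ i v + S.φ ν (Q.pt i v)) (Q.U i) :=
  LB.of_cont fun _ hv => (sm_pt hν hv).continuousAt.continuousWithinAt

/-- the volume of the unit polydisc -/
def vN (N : ℕ) : ℝ := (volume : Measure (Cm N)).real (ball 0 1)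

theorem vN_pos (N : ℕ) : 0 < vN N :=
  ENNReal.toReal_pos (measure_ball_pos _ _ one_pos).ne' measure_ball_lt_top.ne

theorem vol_ball (c : Cm N) {r : ℝ} (hr : 0 < r) :
    volume (ball c r) = ENNReal.ofReal (r ^ (2 * N) * vN N) := by
  rw [Measure.addHaar_ball_of_pos _ _ hr, ENNReal.ofReal_mul (by positivity), vN,
    ofReal_measureReal measure_ball_lt_top.ne, Module.finrank_pi_fintype]
  simp [mul_comm]

/-- the sub-mean inequality on the plateau of a probe -/
theorem sub_mean (hG : Gen S) (hν : Q.Dens ν) {k : Cm N → ℝ} {A : Mx N} (hk : Ker k)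
    (hI : Q.In i c A) {u : Cm N} {δ c₀ R : ℝ} (hδ : 0 < δ) (hc : 0 < c₀)
    (hB : ∀ u' ∈ closedBall u δ, ‖u'‖ ≤ 1 ∧ c₀ ≤ k u' ∧ Q.ρ i (c + A *ᵥ u') ≤ R) :
    Real.exp (Q.ρ i (c + A *ᵥ u) + S.φ ν (Q.pt i (c + A *ᵥ u))) * (δ ^ (2 * N) * vN N) * c₀ ≤
      Real.exp R * S.ms ν (Q.pm i c A k) := by
  have hp := hG.pg.pm_dens i c A k hk hI
  have h1 := (((psh_pt (S := S) hν i).lpsh_exp (lb_pt hν i)).affine c
    (LinearMap.toContinuousLinearMap A.mulVecLin))
  have h2 := h1.psh.le_ball volume h1.lb (z := u) (r := δ) fun u' hu' => hI.2 u' (hB u' hu').1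
  have hv := mul_pos (pow_pos hδ (2 * N)) (vN_pos N)
  rw [Measure.real, vol_ball _ hδ, ENNReal.toReal_ofReal hv.le] at h2
  refine (mul_le_mul_of_nonneg_right h2 hc.le).trans ((ENNReal.ofReal_le_ofReal_iff
    (mul_nonneg (Real.exp_pos _).le (hG.ms_nonneg _ _ hp))).1 ?_)
  rw [ENNReal.ofReal_mul (Real.exp_pos _).le, hG.ms_lint _ _ hν hp, hG.pg.pm_lint i c A k
    (fun y => ENNReal.ofReal (Real.exp (S.φ ν y))) hk hI
    (Real.continuous_exp.comp (hG.cont ν hν)).measurable.ennreal_ofReal, ENNReal.ofReal_mul' hc.le,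
    ← lintegral_const_mul' _ _ ENNReal.ofReal_ne_top]
  refine (mul_le_mul_left ((Real.ofReal_le_enorm _).trans (enorm_integral_le_lintegral_enorm _))
    _).trans ?_
  rw [← lintegral_mul_const' _ _ ENNReal.ofReal_ne_top]
  refine (setLIntegral_mono' measurableSet_ball fun u' hu' => ?_).trans
    (setLIntegral_le_lintegral (ball u δ) _)
  obtain ⟨-, b1, b2⟩ := hB u' (ball_subset_closedBall hu')
  rw [Real.enorm_of_nonneg (Real.exp_pos _).le, Real.exp_add, ENNReal.ofReal_mul (Real.exp_pos _).le,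
    mul_assoc]
  gcongr
  exacts [b2, le_rfl]

/-- a crude bound for the mass -/
theorem mass_le (hG : Gen S) (hν : Q.Dens ν) (hp : Q.Dens p) (hpν : p ≤ ν) {e Λ d : ℝ}
    (he : 0 < e) (he1 : e < 1) (hΛ : 0 ≤ Λ) (hd : 0 ≤ d)
    (hU : ∀ v, nsq (v - c) < 2 * e →
      v ∈ Q.U i ∧ ((Λ : ℂ) • (1 : Mx N) - cHess (Q.ρ i) v).PosSemidef)
    (hs : ∀ y, p y ≠ 0 → ∃ v, nsq (v - c) ≤ e / 2 ∧ y = Q.pt i v) :
    S.ms ν p ≤ (Λ + 2 * d / e) ^ N * vN N + Real.exp (-d) * ∫ y, p y ∂μ := by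
  have P := hG.pg
  set L := 2 * d / e with hL
  have L0 : 0 ≤ L := by positivity
  obtain ⟨b, hb⟩ : ∃ b : M → ℝ, ∀ v ∈ Q.U i, b (Q.pt i v) = L * nsq (v - c) + -(L * e) :=
    ⟨Function.extend ((Q.U i).domRestrict (Q.pt i)) (fun v => L * nsq (v.1 - c) + -(L * e)) 0,
      fun v hv =>
      (S.ok.emb i).injective.extend_apply _ _ ⟨v, hv⟩⟩
  have hc := (sm_nsq c).continuous
  have hev : ∀ v ∈ Q.U i, (fun w => b (Q.pt i w)) =ᶠ[𝓝 v] fun w => L * nsq (w - c) + -(L * e) :=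
    fun v hv => mem_of_superset ((S.ok.opn i).mem_nhds hv) hb
  have hsm : ∀ v ∈ Q.U i, ContDiffAt ℝ ∞ (fun w => b (Q.pt i w)) v := fun v hv =>
    ((contDiffAt_const.mul (sm_nsq c).contDiffAt).add contDiffAt_const).congr_of_eventuallyEq
      (hev v hv)
  have hom : ∀ v ∈ Q.U i, Q.om b i v = cHess (Q.ρ i) v + (L : ℂ) • 1 := fun v hv => by
    have h2 := (sm_nsq c).contDiffAt.of_le two_le (x := v)
    rw [Pat.om, C2.cHess_add ((S.ok.ρ_sm i v hv).of_le two_le) ((hsm v hv).of_le two_le),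
      C2.cHess_congr (hev v hv), C2.cHess_add (contDiffAt_const.mul h2) contDiffAt_const,
      C2.cHess_const_mul _ h2, hess_nsq, C2.cHess_const, add_zero]
  have hps : ∀ v ∈ Q.U i, (Q.om b i v).PosSemidef := fun v hv => by
    rw [hom v hv]
    exact (S.ok.ρ_pos i v hv).posSemidef.add (Matrix.PosSemidef.one.smul (by exact_mod_cast L0))
  have hK : IsCompact {v : Cm N | nsq (v - c) ≤ e} :=
    (isCompact_closedBall c 1).of_isClosed_subset (isClosed_le hc continuous_const) fun v hv =>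
      mem_closedBall_iff_norm.2 (PGa.norm_le (hv.trans he1.le))
  have hKU : ∀ v, nsq (v - c) ≤ e → v ∈ Q.U i := fun v hv => (hU v (by linarith)).1
  have hK' : IsCompact (Q.pt i '' {v | nsq (v - c) ≤ e}) := hK.image_of_continuousOn fun v hv =>
    ContinuousAt.continuousWithinAt (P.map_pt i v (hKU v hv)).le
  have hA : {y ∈ Q.pt i '' {v | nsq (v - c) < 2 * e} | b y < S.φ ν y} ⊆
      Q.pt i '' {v | nsq (v - c) ≤ e} := by
    rintro _ ⟨⟨v, hv, rfl⟩, h⟩
    refine ⟨v, show nsq (v - c) ≤ e from not_lt.1 fun h1 => ?_, rfl⟩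
    rw [hb v (hU v hv).1] at h
    nlinarith [S.nonpos ν hν (Q.pt i v)]
  have h := hG.mup ν p (Q.pt i '' {v | nsq (v - c) < 2 * e}) _ b d hν hp hpν (isOpen_iff_mem_nhds.2 (by
      rintro _ ⟨v, hv, rfl⟩
      rw [← P.map_pt i v (hU v hv).1]
      exact image_mem_map ((isOpen_lt hc continuous_const).mem_nhds hv))) hK'
    (image_mono fun v (hv : nsq (v - c) ≤ e) => show nsq (v - c) < 2 * e by linarith)
    (by
      rintro _ ⟨v, hv, rfl⟩
      exact ⟨P.sm_of b i v (hU v hv).1 (hsm v (hU v hv).1),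
        P.psd_of b i v (hU v hv).1 ((hsm v (hU v hv).1).of_le two_le) (hps v (hU v hv).1)⟩)
    (fun y hy => by
      obtain ⟨v, h1, rfl⟩ := hs y hy
      exact ⟨v, show nsq (v - c) < 2 * e by linarith, rfl⟩) hA
    (fun y hy => by
      obtain ⟨v, h1, rfl⟩ := hs y hy
      rw [hb v (hKU v (by linarith))]
      have : L * (e / 2) = d := by rw [hL]; field_simp
      nlinarith)
  have h0 : 0 ≤ Real.exp (-d) * ∫ y, p y ∂μ :=
    mul_nonneg (Real.exp_pos _).le (integral_nonneg hp.nonneg)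
  have h1 := pow_nonneg (add_nonneg hΛ L0) N
  refine (ENNReal.ofReal_le_ofReal_iff (add_nonneg (mul_nonneg h1 (vN_pos N).le) h0)).1 (h.trans ?_)
  rw [ENNReal.ofReal_add (mul_nonneg h1 (vN_pos N).le) h0]
  refine add_le_add_left ((lintegral_mono_set hA).trans ?_) _
  have h2 := P.push_lint i ((ball c 1).indicator fun _ => (Λ + L) ^ N) 1
    (measurable_const.indicator measurableSet_ball) measurable_const
  simp only [Pi.one_apply, one_mul] at h2
  refine (setLIntegral_mono' hK'.isClosed.measurableSet ?_).trans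
    ((setLIntegral_le_lintegral _ _).trans (h2.trans_le ((setLIntegral_le_lintegral _ _).trans_eq ?_)))
  · rintro _ ⟨v, hv, rfl⟩
    have u := hKU v hv
    rw [P.ma_pt b i v u ((hsm v u).of_le two_le), P.push_pt i _ v u, indicator_of_mem (by
      rw [mem_ball_iff_norm, ← pow_lt_one_iff_of_nonneg (norm_nonneg _) two_ne_zero]
      refine lt_of_le_of_lt ?_ (hv.trans_lt he1)
      rw [← Real.le_sqrt (norm_nonneg _) (PGa.nsq_nonneg _),
        pi_norm_le_iff_of_nonneg (Real.sqrt_nonneg _)]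
      exact fun j => Real.le_sqrt_of_sq_le (Finset.single_le_sum (f := fun j => ‖(v - c) j‖ ^ 2)
        (fun _ _ => sq_nonneg _) (Finset.mem_univ j)))]
    refine ENNReal.ofReal_le_ofReal (div_le_div_of_nonneg_right ?_ (P.vol_pos i v u).1.le)
    have h3 := det_mono (B := ((Λ + L : ℝ) : ℂ) • 1) (hps v u) (by
      rw [hom v u, Complex.ofReal_add, add_smul, add_sub_add_right_eq_sub]
      exact (hU v (by linarith [show nsq _ ≤ e from hv])).2)
    rwa [Matrix.det_smul, Matrix.det_one, mul_one, Fintype.card_fin, ← Complex.ofReal_pow,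
      Complex.ofReal_re] at h3
  · rw [show (fun z => ENNReal.ofReal ((ball c 1).indicator (fun _ => (Λ + L) ^ N) z)) =
      (ball c 1).indicator fun _ => ENNReal.ofReal ((Λ + L) ^ N) from funext fun z => by
        by_cases hz : z ∈ ball c 1 <;> simp [hz], lintegral_indicator_const measurableSet_ball,
      vol_ball c one_pos, one_pow, one_mul, ENNReal.ofReal_mul h1]

end Vale.Agent.P284Y.Y2
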