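import Vale.Agent.P284Y.Y.S12.Fin
import Vale.Agent.P284Y.Y.S12.D
import Vale.Agent.P284Y.Y.S12.E
import Vale.Agent.P284Y.Y.S41
import Vale.Agent.P284Y.Y.P58
import Vale.Agent.P284Y.Y.P61
import Vale.Agent.P284Y.Y.P87
import Vale.Agent.P284Y.Y.Cov
import Vale.Agent.P284Y.Y9.Ad
import Vale.Agent.P284Y.Y9.Cv
import Vale.Agent.P284Y.Y9.Fin
import Vale.Agent.P284Y.Y9.LT
import Vale.Agent.P284Y.Y9.Lo
import Vale.Agent.P284Y.Y9.ModC
import Vale.Agent.P284Y.Y9.ModT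
import Vale.Agent.P284Y.Y9.PMod
import Vale.Agent.P284Y.Y9.SB
import Vale.Agent.P284Y.Y9.TK
import Vale.Agent.P284Y.Y9.UC
import Vale.Agent.P284Y.Y9.UM
import Vale.Agent.P284Y.Y9.UT
import Vale.Agent.P284Y.Y9.Up
import Vale.Agent.P284Y.Y9.X1
import Vale.Agent.P284Y.Gen.PG
import Vale.Agent.P284Y.Gen.G2
import Vale.Agent.P284Z.J.Main

/-!
# P284Y, block Y: the end
-/

noncomputable section

namespace Vale.Agent.P284Y

open Vale.Agent.P284Z Y9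

theorem stPo : S12.StPo := fun _ _ _ _ _ _ _ _ _ _ C K N κ h1 h2 =>
  let ⟨K₀, h⟩ := S12.pole C
  ⟨κ ^ 2 / (64 * N), by positivity, K₀, 0, fun P _ μ S s K₁ K₂ K₃ ρ => h μ P S s K₁ K₂ K₃ K N κ ρ⟩

theorem stRe : S12.StRe := fun _ _ _ _ _ _ _ _ _ _ _ _ _ _ _ _ _ _ _ c r =>
  let ⟨m, h1, h2, h3⟩ := S12.reiter c r
  ⟨m, h1, h2, fun N κ ρ h a x γ b y g g' u =>
    (h3 N κ ρ h a x γ b y g g' (u.trans (by norm_num))).trans (by linarith [h.ρ_pos])⟩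

theorem stY8 : St8' :=
  st8_of stModT (stUT_of stModL stSvd stTK (stUM_of stPM stUp)) (stLT_of stModL stPM stLo stTK stSB)
    (stUC_of stModC stModL (stUM_of stPM stUp)) (stX1_of stSvd stAd stTK stCv)

/-- **Y** -/
theorem stY_of_P (hP : StP) : StY :=
  stY_of stJ (Y.stY0 hP) stPG stGen st41 st58 st61 stY8 (S12.st12_of st87 stPo stRe)

end Vale.Agent.P284Y
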