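import Vale.Agent.P284Y.Y.Bg1

/-!
# P284Y, block Y: the backgrounds (Y5)
-/

set_option linter.all false

open scoped ContDiff Topology ComplexOrder
open Filter Set Function MeasureTheory

noncomputable section

namespace Vale.Agent.P284Y.Y

open Vale.Agent.P272.K Vale.Agent.P284Z Vale.Agent.P284Z.J Vale.Agent.P284Z.L Real

namespace Bq

/-- a subharmonic function, `0` near the origin, `log |w|² + const` far from it -/
def k2 (c : ℝ) (w : ℂ) : ℝ := Gc (log (max (‖w‖ ^ 2) (exp (-c))) + c)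

variable {n : ℕ} {c : ℝ} {w : ℂ}

theorem k2_zero (h : ‖w‖ ^ 2 ≤ exp (-c)) : k2 c w = 0 := by
  rw [k2, max_eq_right h, log_exp, neg_add_cancel, Gc_of_nonpos le_rfl]

theorem k2_eq (h : w ≠ 0) : k2 c w = Gc (log (‖w‖ ^ 2) + c) := by
  rcases le_total (‖w‖ ^ 2) (exp (-c)) with o | o
  · have := (log_le_iff_le_exp (by positivity)).2 o
    rw [k2_zero o, Gc_of_nonpos (by linarith)]
  · rw [k2, max_eq_left o]

theorem k2_cont : Continuous (k2 c) :=
  contDiff_Gc.continuous.comp ((Continuous.log (by fun_prop) fun w =>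
    (lt_max_of_lt_right (exp_pos _)).ne').add continuous_const)

theorem k2_le (hc : 0 ≤ c) (h : ‖w‖ ≤ 1) : k2 c w ≤ c := by
  refine (Gc_le _).trans (max_le (add_le_of_nonpos_left (log_nonpos (by positivity) (max_le ?_ ?_))) hc)
  · exact pow_le_one₀ (norm_nonneg _) h
  · exact exp_le_one_iff.2 (neg_nonpos.2 hc)

theorem ev_lt {a : ℝ} (h : ‖w‖ ^ 2 < a) : ∀ᶠ x : ℂ in 𝓝 w, ‖x‖ ^ 2 < a :=
  (isOpen_lt (by fun_prop) continuous_const).mem_nhds h

theorem ev_gt {a : ℝ} (h : a < ‖w‖ ^ 2) : ∀ᶠ x : ℂ in 𝓝 w, a < ‖x‖ ^ 2 :=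
  (isOpen_lt continuous_const (by fun_prop)).mem_nhds h

theorem pw_k2 : PW n (k2 c) w := by
  by_cases h : w = 0
  · exact (pw_c 0).congr ((ev_lt (a := exp (-c)) (by simp [h, exp_pos])).mono fun x hx =>
      k2_zero hx.le)
  · exact (pw_gc h c).congr ((eventually_ne_nhds h).mono fun x hx => k2_eq hx)

theorem gc_bd (x : ℝ) : x - 1 + Gc 1 ≤ Gc x ∧ 0 ≤ Gc 1 ∧ Gc 1 ≤ 1 := by
  refine ⟨?_, Gc_nonneg 1, (Gc_le 1).trans (by simp)⟩
  rcases le_total x 1 with o | o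
  · linarith [Gc_lip o]
  · exact (Gc_of_one_le o).ge

theorem ne_of_gt {a : ℝ} (h : exp a ≤ ‖w‖ ^ 2) : w ≠ 0 := by
  rintro rfl
  simpa using (exp_pos a).trans_le h

/-- the cut-off in `w` -/
def c1 (M : ℝ) (w : ℂ) : ℝ := smoothTransition (2 * (-log (‖w‖ ^ 2) - M - 1)) *
  smoothTransition (2 * (M + 3 + log (‖w‖ ^ 2)))

theorem c1_ne {M : ℝ} (hM : 0 ≤ M) (h : c1 M w ≠ 0) :
    exp (-(M + 3)) < ‖w‖ ^ 2 ∧ ‖w‖ ^ 2 < exp (-(M + 1)) := by
  have h1 := not_le.1 fun o => left_ne_zero_of_mul h (smoothTransition.zero_of_nonpos o)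
  have h2 := not_le.1 fun o => right_ne_zero_of_mul h (smoothTransition.zero_of_nonpos o)
  have h3 : 0 < ‖w‖ ^ 2 := lt_of_le_of_ne (by positivity) fun o => by
    rw [← o, log_zero] at h1
    linarith
  exact ⟨(lt_log_iff_exp_lt h3).1 (by linarith), (log_lt_iff_lt_exp h3).1 (by linarith)⟩

variable {Γ E : Type} [Group Γ] [TopologicalSpace E] [MulAction Γ E] [MeasurableSpace E]
  {C : Cov n Γ E} {β m : ℝ} {μ : Measure (E × ℂ)} (S : MAS (QY C β m) μ) (X : E × ℂ → ℝ)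
  (M H A : ℝ)

/-- the global function -/
def u2 (y : E × ℂ) : ℝ := S.φ X y + H * k2 (M + 5 / 2) y.2

/-- the barrier -/
def u1 (y : E × ℂ) : ℝ := u2 S X M H y + -H * (log (‖y.2‖ ^ 2) + (M + 5 / 2 - 1 + Gc 1))

/-- the background -/
def nu (y : E × ℂ) : ℝ := c1 M y.2 * (smoothTransition (-(2 * n + 8) - u1 S X M H y) *
  (exp (-A - u1 S X M H y) * (QY C β m).MA (u2 S X M H) y))

/-- the hypotheses -/
structure Hy (r S' L : ℝ) : Prop where
  gen : Gen S
  dens : (QY C β m).Dens X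
  supp : ∀ y, X y ≠ 0 → ‖y.2‖ ^ 2 ≤ exp (-S')
  bd : ∀ y, X y ≤ exp L
  L0 : 0 ≤ L
  glu : Glu S X r 2
  r0 : 0 ≤ r
  hr : exp (-(M + 1)) ≤ r ^ 2
  M0 : 0 ≤ M
  hS : M + 4 < S'
  H1 : 1 ≤ H
  hH : L + 1 ≤ H * (S' - M - 5 / 2)
  hA : (H * (M + 3)) ^ (n + 1) ≤ exp A
  hA' : 2 * n + 9 ≤ A

variable {S X M H A} {r S' L : ℝ} (h : Hy S X M H A r S' L) {y : E × ℂ}

namespace Hy
include h

theorem H0 : 0 ≤ H := zero_le_one.trans h.H1

theorem sp2 (y : E × ℂ) : (QY C β m).SmAt (u2 S X M H) y ∧ (QY C β m).PsdAt (u2 S X M H) y :=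
  ⟨sm_ad (h.gen.sp X h.dens y trivial).1 (pw_k2.cmul h.H0).sm,
    (addW h.gen.pg S.ok (h.gen.sp X h.dens y trivial).1 (h.gen.sp X h.dens y trivial).2
      (pw_k2.cmul h.H0)).1⟩

theorem sm1 (hy : y.2 ≠ 0) : (QY C β m).SmAt (u1 S X M H) y :=
  sm_ad (h.sp2 y).1 (pw_log hy _ _).sm

theorem ma2 (y : E × ℂ) : 0 ≤ (QY C β m).MA (u2 S X M H) y :=
  ma_nonneg h.gen.pg S.ok (h.sp2 y).1 (h.sp2 y).2

theorem u1_bd (hy : y.2 ≠ 0) : S.φ X y ≤ u1 S X M H y ∧
    S.φ X y + H * (-log (‖y.2‖ ^ 2) - M - 5 / 2) ≤ u1 S X M H y ∧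
    (exp (-(M + 4)) ≤ ‖y.2‖ ^ 2 → u1 S X M H y ≤ S.φ X y + 3 * H) := by
  have e : u1 S X M H y = S.φ X y + H * (Gc (log (‖y.2‖ ^ 2) + (M + 5 / 2)) -
      (log (‖y.2‖ ^ 2) + (M + 5 / 2) - 1 + Gc 1)) := by
    rw [u1, u2, k2_eq hy]
    ring
  obtain ⟨h1, h2, h3⟩ := gc_bd (log (‖y.2‖ ^ 2) + (M + 5 / 2))
  have h4 := Gc_nonneg (log (‖y.2‖ ^ 2) + (M + 5 / 2))
  rw [e]
  refine ⟨le_add_of_nonneg_right (mul_nonneg h.H0 (by linarith)),
    add_le_add_right (mul_le_mul_of_nonneg_left (by linarith) h.H0) _, fun o => ?_⟩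
  have h5 := (le_log_iff_exp_le (by positivity)).2 o
  have h6 := Gc_le (log (‖y.2‖ ^ 2) + (M + 5 / 2))
  rw [mul_comm 3]
  refine add_le_add_right (mul_le_mul_of_nonneg_left ?_ h.H0) _
  rcases le_max_iff.1 h6 with h6 | h6 <;> linarith

theorem nu_ne (o : nu S X M H A y ≠ 0) :
    (exp (-(M + 3)) < ‖y.2‖ ^ 2 ∧ ‖y.2‖ ^ 2 < exp (-(M + 1))) ∧ S.φ X y < -(2 * n + 8) := by
  have h1 := c1_ne h.M0 (left_ne_zero_of_mul o)
  have h2 := not_le.1 fun o' => left_ne_zero_of_mul (right_ne_zero_of_mul o)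
    (smoothTransition.zero_of_nonpos o')
  exact ⟨h1, by linarith [(h.u1_bd (ne_of_gt h1.1.le)).1]⟩

theorem nu_le (y : E × ℂ) : 0 ≤ nu S X M H A y ∧
    nu S X M H A y ≤ exp (-A - S.φ X y) * (QY C β m).MA (u2 S X M H) y := by
  have h1 := h.ma2 y
  have h2 : 0 ≤ c1 M y.2 := mul_nonneg (smoothTransition.nonneg _) (smoothTransition.nonneg _)
  have h3 := smoothTransition.nonneg (-(2 * n + 8) - u1 S X M H y)
  refine ⟨mul_nonneg h2 (mul_nonneg h3 (by positivity)), ?_⟩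
  by_cases o : nu S X M H A y = 0
  · rw [o]
    positivity
  have h4 := (h.u1_bd (ne_of_gt (h.nu_ne o).1.1.le)).1
  refine (mul_le_of_le_one_left (by positivity) (mul_le_one₀ (smoothTransition.le_one _)
    (smoothTransition.nonneg _) (smoothTransition.le_one _))).trans
    ((mul_le_of_le_one_left (by positivity) (smoothTransition.le_one _)).trans
      (mul_le_mul_of_nonneg_right (exp_le_exp.2 (by linarith)) h1))

theorem dn [T2Space E] : (QY C β m).Dens (nu S X M H A) := by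
  refine ⟨fun y => ?_, fun y => (h.nu_le y).1, ?_⟩
  · by_cases hy : y.2 = 0
    · refine sm_cg h.gen.pg ?_ (sm_c 0)
      have : ∀ᶠ x : E × ℂ in 𝓝 y, ‖x.2‖ ^ 2 < exp (-(M + 3)) :=
        continuous_snd.continuousAt.eventually (ev_lt (by simp [hy, exp_pos]))
      exact this.mono fun x hx => not_not.1 fun o => (h.nu_ne o).1.1.not_gt hx
    · have h1 : (QY C β m).SmAt (fun x => 1 * (log (‖x.2‖ ^ 2) + 0)) y := (pw_log hy 1 0).sm
      simp only [one_mul, add_zero] at h1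
      exact sm_ml (sm_ml (sm_cp (φ := fun t => smoothTransition (2 * (-t - M - 1)))
        (smoothTransition.contDiff.comp (by fun_prop)) h1)
        (sm_cp (φ := fun t => smoothTransition (2 * (M + 3 + t)))
          (smoothTransition.contDiff.comp (by fun_prop)) h1))
        (sm_ml (sm_cp (φ := fun t => smoothTransition (-(2 * n + 8) - t))
          (smoothTransition.contDiff.comp (by fun_prop)) (h.sm1 hy))
          (sm_ml (sm_cp (φ := fun t => exp (-A - t)) (by fun_prop) (h.sm1 hy))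
            (h.gen.pg.ma_sm _ y (Eventually.of_forall fun x => (h.sp2 x).1))))
  · obtain ⟨K, h1, h2⟩ := off (S := S) h.dens (ε := 2 * n + 8) (by positivity)
    exact HasCompactSupport.intro h1 fun x hx => not_not.1 fun o => (h.nu_ne o).2.not_gt (h2 x hx)

theorem up [T2Space E] (hy : exp (-S') < ‖y.2‖ ^ 2) :
    S.φ (nu S X M H A) y ≤ u1 S X M H y + A := by
  have hP := h.gen.pg
  have A0 : 0 ≤ A := le_trans (by positivity) h.hA'
  have hc : IsClosed {x : E × ℂ | exp (-S') ≤ ‖x.2‖ ^ 2} := isClosed_le continuous_const (by fun_prop)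
  have hcl : closure {x : E × ℂ | exp (-S') < ‖x.2‖ ^ 2} ⊆ {x | exp (-S') ≤ ‖x.2‖ ^ 2} :=
    closure_minimal (fun x hx => le_of_lt (α := ℝ) hx) hc
  refine hP.vc₀ {x | exp (-S') < ‖x.2‖ ^ 2} (fun x => u1 S X M H x + A) _
    (isOpen_lt continuous_const (by fun_prop)) (fun x hx => sm_ad (h.sm1 (ne_of_gt hx.le)) (sm_c _))
    (ContinuousOn.upperSemicontinuousOn fun x hx => ((h.gen.cont _ h.dn).continuousAt.sub
      (hP.cont _ x (sm_ad (h.sm1 (ne_of_gt (hcl hx))) (sm_c _)))).continuousWithinAt)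
    (fun x hx => ?_) (fun ε hε => ?_) (fun x hx hlt => ?_) y hy
  · have h1 := frontier_lt_subset_eq continuous_const (by fun_prop) hx
    have h2 := (h.u1_bd (ne_of_gt (le_of_eq h1))).2.1
    have h3 := h.gen.low X _ h.dens h.bd x
    have h4 : log (1 + exp L) ≤ L + 1 := (log_le_iff_le_exp (by positivity)).2 (by
      rw [exp_add]
      nlinarith [add_one_le_exp (1 : ℝ), one_le_exp h.L0])
    rw [← show exp (-S') = ‖x.2‖ ^ 2 from h1, log_exp, neg_neg] at h2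
    linarith [S.nonpos _ h.dn x, h.hH]
  · obtain ⟨K, h1, h2⟩ := off (S := S) h.dens hε
    exact ⟨K, h1, fun x hx => by
      linarith [S.nonpos _ h.dn x, h2 x hx.2, (h.u1_bd (ne_of_gt hx.1.le)).1]⟩
  obtain ⟨a1, a2⟩ := h.gen.sp _ h.dn x trivial
  obtain ⟨b1, b2⟩ := h.gen.sp _ h.dens x trivial
  have x0 := ne_of_gt (le_of_lt hx)
  refine ⟨_, ?_, hP.tch _ _ _ x a1 a2 rfl (Eventually.of_forall fun _ => le_rfl) le_rfl⟩
  rw [hP.ma_congr _ (u1 S X M H) A x (Eventually.of_forall fun _ => rfl), h.gen.ma _ h.dn]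
  have n0 := (h.nu_le x).1
  have key : (QY C β m).MA (u1 S X M H) x = (QY C β m).MA (S.φ X) x →
      (QY C β m).MA (u1 S X M H) x < exp (S.φ (nu S X M H A) x) * (1 + nu S X M H A x) := fun e => by
    rw [e, h.gen.ma _ h.dens, not_not.1 fun o => (h.supp x o).not_gt hx, add_zero, mul_one]
    exact (exp_lt_exp.2 (by linarith [(h.u1_bd x0).1])).trans_le
      (le_mul_of_one_le_right (exp_pos _).le (by linarith))
  have e2 : (QY C β m).MA (u1 S X M H) x = (QY C β m).MA (u2 S X M H) x :=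
    addH hP S.ok (h.sp2 x).1 (h.sp2 x).2 x0 _ _
  by_cases o1 : ‖x.2‖ ^ 2 < exp (-(M + 5 / 2))
  · refine key (e2.trans (hP.ma_congr _ _ 0 x ?_))
    exact (continuous_snd.continuousAt.eventually (ev_lt o1)).mono fun z hz => by
      rw [u2, k2_zero hz.le, mul_zero]
  by_cases o2 : exp (-(M + 3 / 2)) < ‖x.2‖ ^ 2
  · refine key (hP.ma_congr _ _ 0 x ?_)
    exact (continuous_snd.continuousAt.eventually (ev_gt o2)).mono fun z hz => by
      have := (lt_log_iff_exp_lt ((exp_pos _).trans hz)).2 hz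
      rw [u1, u2, k2_eq (ne_of_gt hz.le), Gc_of_one_le (by linarith)]
      ring
  have p0 : 0 < ‖x.2‖ ^ 2 := by positivity
  have h1 := (le_log_iff_exp_le p0).2 (not_lt.1 o1)
  have h2 := (log_le_iff_le_exp p0).2 (not_lt.1 o2)
  have h3 := S.nonpos _ h.dn x
  have h4 : nu S X M H A x = exp (-A - u1 S X M H x) * (QY C β m).MA (u2 S X M H) x := by
    rw [nu, c1, smoothTransition.one_of_one_le (by linarith),
      smoothTransition.one_of_one_le (by linarith),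
      smoothTransition.one_of_one_le (by linarith [h.hA']), one_mul, one_mul, one_mul]
  rw [e2, mul_add, mul_one, h4, ← mul_assoc, ← exp_add]
  exact lt_add_of_pos_of_le (exp_pos _) (le_mul_of_one_le_left (h.ma2 x) (one_le_exp (by linarith)))

theorem low [T2Space E] (y : E × ℂ) : S.φ X y - 4 ≤ S.φ (nu S X M H A + X) y := by
  have hP := h.gen.pg
  have M0 := h.M0
  have H1 := h.H1
  have e1 : 1 ≤ H * (M + 3) := by nlinarith
  set e := (H * (M + 3))⁻¹ with he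
  have e0 : 0 < e := by positivity
  have k0 : ∀ w, 0 ≤ e * (H * k2 (M + 5 / 2) w) := fun w =>
    mul_nonneg e0.le (mul_nonneg h.H0 (Gc_nonneg _))
  refine And.elim (fun h1 h2 => ?_) (h.glu (nu S X M H A + X)
    (fun x => S.φ X x + e * (H * k2 (M + 5 / 2) x.2) + -2)
    (hP.dens_add _ _ h.dn h.dens) (fun x o => ?_)
    (by have := h.gen.cont _ h.dens; have := k2_cont (c := M + 5 / 2); fun_prop)
    (fun x hx => ?_) fun x _ => by linarith [k0 x.2])
  · rcases lt_or_ge ‖y.2‖ (1 / 2) with o | o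
    · linarith [h1 y o, k0 y.2]
    · linarith [h2 y o, S.nonpos _ h.dens y]
  · refine (pow_le_pow_iff_left₀ (norm_nonneg _) h.r0 two_ne_zero).1 (le_trans ?_ h.hr)
    by_cases o' : nu S X M H A x = 0
    · refine (h.supp x fun o'' => o (by rw [Pi.add_apply, o', o'', add_zero])).trans
        (exp_le_exp.2 (by linarith [h.hS]))
    · exact (h.nu_ne o').1.2.le
  have k1 : e * (H * k2 (M + 5 / 2) x.2) ≤ 1 := by
    rw [he, inv_mul_le_iff₀ (by positivity), mul_one]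
    exact mul_le_mul_of_nonneg_left ((k2_le (by positivity) hx).trans (by linarith)) h.H0
  have t0 := S.nonpos _ h.dens x
  refine ⟨by linarith, ?_⟩
  obtain ⟨b1, b2⟩ := h.gen.sp _ h.dens x trivial
  have hk : PW n (fun w => e * (H * k2 (M + 5 / 2) w)) x.2 := (pw_k2.cmul h.H0).cmul e0.le
  obtain ⟨c1, c2⟩ := addW hP S.ok b1 b2 hk
  have c3 := (hP.ma_cvx _ _ e x e0.le (inv_le_one_of_one_le₀ e1) b1 (h.sp2 x).1 b2 (h.sp2 x).2).2.2.1
  rw [hP.ma_congr (fun z => (1 - e) * S.φ X z + e * u2 S X M H z)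
    (fun z => S.φ X z + e * (H * k2 (M + 5 / 2) z.2)) 0 x (Eventually.of_forall fun z => by
      rw [u2]; ring)] at c3
  refine hP.tch _ _ _ x (sm_ad (sm_ad b1 hk.sm) (sm_c _)) (psd_ac (sm_ad b1 hk.sm) S.ok c1 _) rfl
    (Eventually.of_forall fun _ => le_rfl) ?_
  rw [hP.ma_congr _ _ (-2) x (Eventually.of_forall fun _ => rfl)]
  rw [h.gen.ma _ h.dens] at c2
  have h3 : exp (S.φ X x + e * (H * k2 (M + 5 / 2) x.2) + -2) ≤ exp (S.φ X x) / 2 := by
    refine (exp_le_exp.2 (by linarith : _ ≤ S.φ X x - 1)).trans ?_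
    rw [exp_sub]
    exact div_le_div_of_nonneg_left (exp_pos _).le two_pos (by linarith [add_one_le_exp (1 : ℝ)])
  have h4 : exp (S.φ X x) * nu S X M H A x ≤ e ^ (n + 1) * (QY C β m).MA (u2 S X M H) x := by
    refine (mul_le_mul_of_nonneg_left (h.nu_le x).2 (exp_pos _).le).trans ?_
    rw [← mul_assoc, ← exp_add, add_sub_cancel, exp_neg, he, inv_pow]
    exact mul_le_mul_of_nonneg_right (inv_anti₀ (by positivity) h.hA) (h.ma2 x)
  have n0 := (h.nu_le x).1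
  have x0 := h.dens.nonneg x
  refine (mul_le_mul_of_nonneg_right h3 (by rw [Pi.add_apply]; positivity)).trans ?_
  rw [Pi.add_apply]
  linarith

theorem cost [T2Space E] : S.ms X (nu S X M H A) ≤ exp 4 * S.ms (exp L • X) (exp L • X) := by
  have hG := h.gen
  have hP := hG.pg
  have hX' := hP.dens_smul _ X (exp_pos L).le h.dens
  have hν := hP.dens_add _ _ h.dn h.dens
  have h1 : ∀ y, S.φ X y ≤ -(2 * n + 8) → S.φ (exp L • X) y ≤ S.φ (nu S X M H A + X) y := by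
    intro y hy
    have := dbl hG h.dens h.L0 h.bd y
    push_cast at this
    linarith [h.low y]
  have h2 : ∀ y, S.φ (exp L • X) y ≤ S.φ (nu S X M H A + X) y := by
    intro y
    rcases le_or_gt (S.φ X y) (-(2 * n + 8)) with o | o
    · exact h1 y o
    refine hG.vc _ {x | -(2 * n + 8) < S.φ X x} _ hν (isOpen_lt continuous_const (hG.cont _ h.dens))
      (hG.cont _ hX').continuousOn.upperSemicontinuousOn (fun x hx => h1 x (le_of_eq
        (frontier_lt_subset_eq continuous_const (hG.cont _ h.dens) hx).symm))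
      (fun ε hε => ⟨∅, isCompact_empty, fun x _ => (S.nonpos _ hX' x).trans hε.le⟩)
      (fun x hx _ => ?_) y o
    obtain ⟨b1, b2⟩ := hG.sp _ hX' x trivial
    refine hP.tch _ _ _ x b1 b2 rfl (Eventually.of_forall fun _ => le_rfl) ?_
    rw [hG.ma _ hX', Pi.add_apply, not_not.1 fun o => (h.nu_ne o).2.not_gt hx, zero_add]
    exact mul_le_mul_of_nonneg_left (add_le_add_right
      (le_mul_of_one_le_left (h.dens.nonneg x) (one_le_exp h.L0)) _) (exp_pos _).le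
  have h3 : S.ms (nu S X M H A + X) (nu S X M H A + X) ≤ S.ms (exp L • X) (exp L • X) := by
    rw [MAS.ms, MAS.ms, ← (S.mi _ hν).2, ← (S.mi _ hX').2]
    exact integral_mono (S.mi _ hν).1 (S.mi _ hX').1 fun y =>
      sub_le_sub_left (exp_le_exp.2 (h2 y)) 1
  refine le_trans ?_ (mul_le_mul_of_nonneg_left ((hG.ms_mono _ _ _ _ hν hν h.dn hν le_rfl
    (le_add_of_nonneg_right h.dens.nonneg)).trans h3) (exp_pos 4).le)
  rw [MAS.ms, MAS.ms, ← integral_const_mul]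
  refine integral_mono (hP.dens_int _ _ h.dn (continuous_exp.comp (hG.cont _ h.dens)))
    ((hP.dens_int _ _ h.dn (continuous_exp.comp (hG.cont _ hν))).const_mul _) fun y => ?_
  simp only
  rw [← mul_assoc, ← exp_add]
  exact mul_le_mul_of_nonneg_right (exp_le_exp.2 (by linarith [h.low y])) (h.nu_le y).1

end Hy

/-- the rotation -/
def rot (E : Type) [TopologicalSpace E] {u : ℂ} (hu : ‖u‖ = 1) : E × ℂ ≃ₜ E × ℂ :=
  (Homeomorph.refl E).prodCongr (Homeomorph.mulLeft₀ u (norm_ne_zero_iff.1 (by simp [hu])))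

theorem inv_φ (hG : Gen S) (hR : Rot C β m) (hX : (QY C β m).Dens X) (h : RInv X) :
    RInv (S.φ X) := fun u hu y => by
  have h1 := (hG.aut (rot E hu) (hR u hu) X hX).1
  rw [show X ∘ rot E hu = X from funext (h u hu)] at h1
  exact (congrFun h1 y).symm

theorem Hy.inv (h : Hy S X M H A r S' L) (hR : Rot C β m) (hX : RInv X) :
    RInv (nu S X M H A) := fun u hu y => by
  have h1 := inv_φ h.gen hR h.dens hX u hu
  have h2 : ∀ w : ℂ, ‖u * w‖ = ‖w‖ := fun w => by rw [norm_mul, hu, one_mul]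
  have h3 : ∀ x : E × ℂ, u2 S X M H (x.1, u * x.2) = u2 S X M H x := fun x => by
    simp only [u2, k2, h1, h2]
  have h4 := (h.gen.pg.aut (rot E hu) (hR u hu)).2.2.2.1 _ y (h.sp2 _).1
  rw [show u2 S X M H ∘ rot E hu = u2 S X M H from funext h3] at h4
  simp only [nu, c1, u1, h2, h3]
  rw [h4]
  rfl

end Bq

variable {n : ℕ} {Γ E : Type} [Group Γ] [TopologicalSpace E] [MulAction Γ E] [MeasurableSpace E]
  {C : Cov n Γ E} {β m : ℝ} {μ : Measure (E × ℂ)} {S : MAS (QY C β m) μ} {X ν : E × ℂ → ℝ}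

/-- **Y5** -/
theorem y5 [T2Space E] (hG : Gen S) (hR : Rot C β m) (hX : (QY C β m).Dens X) (hi : RInv X)
    {r S' L M H A : ℝ} (hs : ∀ y, X y ≠ 0 → ‖y.2‖ ^ 2 ≤ exp (-S')) (hb : ∀ y, X y ≤ exp L)
    (L0 : 0 ≤ L) (hg : Glu S X r 2) (r0 : 0 ≤ r) (hr : exp (-(M + 1)) ≤ r ^ 2) (M0 : 0 ≤ M)
    (hS : M + 4 < S') (H1 : 1 ≤ H) (hH : L + 1 ≤ H * (S' - M - 5 / 2))
    (hA : (H * (M + 3)) ^ (n + 1) ≤ exp A) (hA' : 2 * n + 9 ≤ A) :
    ∃ ν, Bg S X M (A + 3 * H) (exp 4 * S.ms (exp L • X) (exp L • X)) ν := by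
  have h : Bq.Hy S X M H A r S' L := ⟨hG, hX, hs, hb, L0, hg, r0, hr, M0, hS, H1, hH, hA, hA'⟩
  refine ⟨_, h.dn, h.inv hR hi, fun y o => (h.nu_ne o).1, fun y hy => ?_, h.low, h.cost⟩
  linarith [h.up ((exp_lt_exp.2 (neg_lt_neg hS)).trans_le hy), (h.u1_bd (Bq.ne_of_gt hy)).2.2 hy]

variable {M δ κ : ℝ}

theorem Bg.mono (h : Bg S X M δ κ ν) {δ' κ' : ℝ} (h1 : δ ≤ δ') (h2 : κ ≤ κ') :
    Bg S X M δ' κ' ν :=
  ⟨h.dens, h.inv, h.supp, fun y hy => by linarith [h.up y hy], h.low, h.cost.trans h2⟩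

theorem Bg.scale (hG : Gen S) (hX : (QY C β m).Dens X) (h : Bg S X M δ κ ν) {t : ℝ} (ht : 0 ≤ t) :
    Bg S X M (δ + t) (exp (-t) * κ) (exp (-t) • ν) := by
  have hP := hG.pg
  have h1 := hP.dens_smul _ ν (exp_pos (-t)).le h.dens
  refine ⟨h1, fun u hu y => congrArg (exp (-t) * ·) (h.inv u hu y),
    fun y o => h.supp y (right_ne_zero_of_mul o), fun y hy => ?_, fun y => (h.low y).trans
      (hG.mono _ _ (hP.dens_add _ _ h1 hX) (hP.dens_add _ _ h.dens hX) (fun x => add_le_add_left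
        (mul_le_of_le_one_left (h.dens.nonneg x) (exp_le_one_iff.2 (neg_nonpos.2 ht))) _) y), ?_⟩
  · have := hG.cmp _ ν t h1 h.dens ht (fun x => by
      rw [Pi.smul_apply, smul_eq_mul, mul_add, ← mul_assoc, ← exp_add, add_neg_cancel, exp_zero,
        one_mul, mul_one]
      exact add_le_add_left (one_le_exp ht) _) y
    linarith [h.up y hy]
  · rw [hG.ms_smul]
    exact mul_le_mul_of_nonneg_left h.cost (exp_pos _).le

theorem Bg.int (hG : Gen S) (hX : (QY C β m).Dens X) (h : Bg S X M δ κ ν) {K : ℝ}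
    (hK : ∀ y, ν y ≠ 0 → -K ≤ S.φ X y) : ∫ y, ν y ∂μ ≤ exp K * κ := by
  refine le_trans ?_ (mul_le_mul_of_nonneg_left h.cost (exp_pos K).le)
  rw [MAS.ms, ← integral_const_mul]
  have h1 := hG.pg.dens_int _ (fun _ => 1) h.dens continuous_const
  simp only [one_mul] at h1
  refine integral_mono h1 ((hG.pg.dens_int _ _ h.dens (continuous_exp.comp (hG.cont _ hX))).const_mul _)
    fun y => ?_
  by_cases o : ν y = 0
  · simp [o]
  · simp only
    rw [← mul_assoc, ← exp_add]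
    exact le_mul_of_one_le_left (h.dens.nonneg y) (one_le_exp (by linarith [hK y o]))

end Vale.Agent.P284Y.Y
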