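import Vale.Agent.P284Y.GenSpec

/-!
# P284Y, block Y: the backgrounds (Y5), definitions
-/

set_option linter.all false

open MeasureTheory

noncomputable section

namespace Vale.Agent.P284Y.Y

open Vale.Agent.P272.K Vale.Agent.P284Z

variable {n : ℕ} {Γ E : Type} [Group Γ] [TopologicalSpace E] [MulAction Γ E] [MeasurableSpace E]
  {C : Cov n Γ E} {β m : ℝ} {μ : Measure (E × ℂ)}

/-- invariance by the rotations of `w` -/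
def RInv (f : E × ℂ → ℝ) : Prop := ∀ u : ℂ, ‖u‖ = 1 → ∀ y : E × ℂ, f (y.1, u * y.2) = f y

/-- the rotations of `w` are isometries -/
def Rot (C : Cov n Γ E) (β m : ℝ) : Prop :=
  ∀ u : ℂ, ‖u‖ = 1 → (QY C β m).Aut fun y => (y.1, u * y.2)

/-- subsolutions on the disc which are above `φ X - K` on the circle of radius `r` can be glued -/
def Glu (S : MAS (QY C β m) μ) (X : E × ℂ → ℝ) (r K : ℝ) : Prop :=
  ∀ ν ψ : E × ℂ → ℝ, (QY C β m).Dens ν → (∀ y, ν y ≠ 0 → ‖y.2‖ ≤ r) → Continuous ψ →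
    (∀ y : E × ℂ, ‖y.2‖ ≤ 1 → ψ y ≤ 0 ∧ (QY C β m).Sub ν ψ y) →
    (∀ y : E × ℂ, ‖y.2‖ = r → S.φ X y - K ≤ ψ y) →
    (∀ y : E × ℂ, ‖y.2‖ < 1 / 2 → ψ y - 2 ≤ S.φ ν y) ∧
      ∀ y : E × ℂ, 1 / 2 ≤ ‖y.2‖ → -2 ≤ S.φ ν y

/-- `ν` is a background for `X` at the depth `M` -/
structure Bg (S : MAS (QY C β m) μ) (X : E × ℂ → ℝ) (M δ κ : ℝ) (ν : E × ℂ → ℝ) : Prop where
  dens : (QY C β m).Dens ν
  inv : RInv ν
  supp : ∀ y, ν y ≠ 0 → Real.exp (-(M + 3)) < ‖y.2‖ ^ 2 ∧ ‖y.2‖ ^ 2 < Real.exp (-(M + 1))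
  up : ∀ y : E × ℂ, Real.exp (-(M + 4)) ≤ ‖y.2‖ ^ 2 → S.φ ν y ≤ S.φ X y + δ
  low : ∀ y, S.φ X y - 4 ≤ S.φ (ν + X) y
  cost : S.ms X ν ≤ κ

end Vale.Agent.P284Y.Y
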