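import Vale.Agent.P284Y.GenSpec

/-!
# P284Y, block Y: parameters, probes, energies
-/

open scoped ContDiff Topology ComplexOrder ENNReal Matrix
open Filter Set Function Metric MeasureTheory

noncomputable section

namespace Vale.Agent.P284Y

open Vale.Agent.P272.K Vale.Agent.P284Z Vale.Agent.P284Z.J

/-- The parameters of a stage. All the rows have the form `∃ K Z₀, ∀ P, Z₀ ≤ P.Z → …`. -/
structure Par where
  Z : ℕ
  TT : ℝ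
  lo : ℝ
  hi : ℝ
  β : ℝ
  Z_ge : 100 ≤ Z
  TT_ge : (Z : ℝ) ^ 7 ≤ TT
  lo_ge : Z * TT ≤ lo
  hi_ge : lo ≤ hi
  β_ge : (Z : ℝ) ^ 13 * TT * hi ^ 2 ≤ β

namespace Par
variable (P : Par)

/-- the plateau parameter; `1 / q = Z ^ 6` is an integer -/
def q : ℝ := ((P.Z : ℝ) ^ 6)⁻¹
/-- the slope in the `z` direction -/
def t : ℝ := P.β * P.TT
/-- the slope in the `w` direction -/
def B : ℝ := P.q * P.t
/-- the coefficient of `|dw|²` -/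
def m : ℝ := 64 * P.B
def M₀ : ℝ := (P.Z : ℝ) ^ 4
def L (s : ℝ) : ℝ := s / (P.Z : ℝ) ^ 2
def sw (s : ℝ) : ℝ := s / P.q
def M₁ (s : ℝ) : ℝ := P.L s / P.q

end Par

/-- `-log |w|²` -/
def sig (w : ℂ) : ℝ := -Real.log (‖w‖ ^ 2)

/-- the block matrix `diag (e, A)` -/
def bd {n : ℕ} (e : ℂ) (A : Mx n) : Mx (n + 1) :=
  Matrix.of fun i j => Fin.cases (Fin.cases e (fun _ => 0) j)
    (fun i' => Fin.cases 0 (fun j' => A i' j') j) i

/-- the product bump -/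
def bmp₂ (n : ℕ) (q : ℝ) (u : Cm (n + 1)) : ℝ := bmp 1 q (fun _ => u 0) * bmp n q (Fin.tail u)

variable {n : ℕ} {Γ E : Type} [Group Γ] [TopologicalSpace E] [MulAction Γ E]

/-- the space of the stage -/
abbrev Par.Q (P : Par) (C : Cov n Γ E) : Pat (n + 1) (E × ℂ) := QY C P.β P.m

/-- a probe: `(x + exp (-s / 2) ξ B) × disc (w, exp (-s' / 2))` in the chart `a` of the sheet `γ` -/
structure Pb (C : Cov n Γ E) where
  γ : Γ
  a : C.I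
  x : Cm n
  ξ : Mx n
  s : ℝ
  w : ℂ
  s' : ℝ

namespace Pb
variable {C : Cov n Γ E} (P : Par) (b : Pb C)

/-- the probability density of the probe -/
def p : E × ℂ → ℝ :=
  (P.Q C).pm (b.γ, b.a) (Fin.cons b.w b.x)
    (bd (Real.exp (-(b.s' / 2)) : ℝ) (((Real.exp (-(b.s / 2)) : ℝ) : ℂ) • b.ξ)) (bmp₂ n P.q)

/-- the range in which the rows hold -/
structure Ok : Prop where
  x_mem : b.x ∈ C.B 3 b.a
  fr : Fr (b.s / 8) b.ξ
  lo : P.lo ≤ b.s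
  hi : b.s ≤ P.hi
  w_le : ‖b.w‖ ^ 2 ≤ Real.exp (-9)
  lo' : P.sw b.s / 2 ≤ b.s'
  hi' : b.s' ≤ 4 * P.Z * P.sw b.s

/-- the probe with the weight `exp lam` -/
def W (lam : ℝ) : E × ℂ → ℝ := Real.exp lam • b.p P

end Pb

namespace Par
variable (P : Par) (C : Cov n Γ E)

/-- `x@0` -/
def at0 (s : ℝ) (γ : Γ) (a : C.I) (x : Cm n) (ξ : Mx n) : E × ℂ → ℝ :=
  (Pb.mk γ a x ξ s 0 (P.sw s) : Pb C).W P (P.t * s)

/-- `y@τ` at the level `N` -/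
def atw (N : ℕ) (s : ℝ) (γ : Γ) (b : C.I) (y : Cm n) (ξ : Mx n) (τ : ℂ) : E × ℂ → ℝ :=
  (Pb.mk γ b y ξ s τ (N * P.sw s) : Pb C).W P (P.t * s)

variable {C} [MeasurableSpace E] {μ : Measure (E × ℂ)} (S : MAS (P.Q C) μ)

/-- `g (x)` -/
def g (s : ℝ) (a : C.I) (x : Cm n) (ξ : Mx n) : ℝ := S.G (P.at0 C s 1 a x ξ)

/-- `G (s)` -/
def GG (s : ℝ) : ℝ := ⨆ q : {q : C.I × Cm n // q.2 ∈ C.B (5 / 2) q.1}, P.g S s q.1.1 q.1.2 1

/-- `cb = G / sw` -/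
def cb (s : ℝ) : ℝ := P.GG S s / P.sw s

/-- the one point function -/
def f (s : ℝ) (a : C.I) (x : Cm n) (ξ : Mx n) : ℝ := (P.g S s a x ξ - P.GG S s) * s / P.GG S s

/-- good points -/
def Good (s : ℝ) (a : C.I) (x : Cm n) : Prop := x ∈ C.B (5 / 2) a ∧ -P.L s ≤ P.f S s a x 1

/-- the two point energy -/
def J (N : ℕ) (s : ℝ) (a : C.I) (x : Cm n) (γ : Γ) (b : C.I) (y : Cm n) (ξ : Mx n) (M : ℝ) : ℝ :=
  S.G (P.at0 C s 1 a x 1 + P.atw C N s γ b y ξ (Real.exp (-(M / 2)) : ℝ))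

/-- the scale `s` of the stage -/
structure Stg (s : ℝ) : Prop where
  lo : P.lo ≤ P.L s
  hi : 2 * s ≤ P.hi
  big : P.B ^ 2 ≤ P.cb S s
  pig : P.GG S (2 * s) ≤ (2 + ((P.Z : ℝ) ^ 2)⁻¹) * P.GG S s

end Par

end Vale.Agent.P284Y
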