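import Vale.Agent.P284Y.Y.R87
import Vale.Agent.P284Y.Y.Cov
import Vale.Agent.P284Y.Lib.Dg

/-!
# P284Y, block Y, one stage: holomorphic families of probes
-/

set_option linter.all false

open scoped ContDiff Topology ComplexOrder ENNReal Matrix
open Filter Set Function Metric MeasureTheory

noncomputable section

namespace Vale.Agent.P284Y.S87

open Vale.Agent.P272.K Vale.Agent.P284Z Vale.Agent.P284Z.J Vale.Agent.P284Y.Y Real

variable {n : ℕ} {Γ E : Type} [Group Γ] [TopologicalSpace E] [MulAction Γ E] {C : Cov n Γ E}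
  [MeasurableSpace E] {μ : Measure (E × ℂ)} {P : Par} {S : MAS (P.Q C) μ} {K : ℝ}

theorem bd_eq (e : ℂ) (A : Mx n) : bd e A = bk e A := bk_ext rfl (fun _ => rfl) (fun _ => rfl)
  fun _ _ => rfl

theorem tail_pt (b : Pb C) (u : Cm (n + 1)) :
    Fin.tail (Fin.cons b.w b.x + b.A *ᵥ u : Cm (n + 1)) = b.z (Fin.tail u) := by
  rw [Pb.A, bd_eq, bk_mulVec]
  funext i
  simp [Fin.tail, Pb.z, Matrix.smul_mulVec]

theorem nsq_le {u : Cm n} (hu : ‖u‖ ≤ 1) : nsq u ≤ n := by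
  have : ∀ i, ‖u i‖ ^ 2 ≤ 1 := fun i => pow_le_one₀ (norm_nonneg _) ((norm_le_pi_norm u i).trans hu)
  simpa [nsq] using Finset.sum_le_sum (s := Finset.univ) fun i _ => this i

/-- the probe moved to `x`, `w` -/
def mov (b : Pb C) (x : Cm n) (w : ℂ) : Pb C := { b with x := x, w := w }

theorem psh_pb (h : R41a P C μ K) (hn : (n : ℝ) ≤ P.lo / 2) {W : Type} [NormedAddCommGroup W]
    [NormedSpace ℂ W] [FiniteDimensional ℂ W] {O : Set W} (hO : IsOpen O) {J : Type} [Fintype J]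
    (b : J → Pb C) (X : J → W → Cm n) (T : J → W → ℂ) (lam m cz cw : J → ℝ)
    (hX : ∀ j, AnalyticOnNhd ℂ (X j) O) (hT : ∀ j, AnalyticOnNhd ℂ (T j) O)
    (ok : ∀ j, ∀ θ ∈ O, (mov (b j) (X j θ) (T j θ)).Ok P) (hm : ∀ j, 0 < m j)
    (hz : ∀ j, P.β * K * ((n + 2) * m j) ≤ cz j) (hw : ∀ j, P.m * ((n + 2) * m j) ≤ cw j)
    (ms : ∀ j, ∀ θ ∈ O, S.ms (∑ i, (mov (b i) (X i θ) (T i θ)).W P (lam i))
      ((mov (b j) (X j θ) (T j θ)).W P (lam j)) ≤ m j) :
    ContinuousOn (fun θ => S.G (∑ i, (mov (b i) (X i θ) (T i θ)).W P (lam i))) O ∧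
    Psh (fun θ => S.G (∑ i, (mov (b i) (X i θ) (T i θ)).W P (lam i)) +
      ∑ j, (cz j * nsq (X j θ) + cw j * ‖T j θ‖ ^ 2)) O := by
  have n2 : ∀ j, 0 < (n + 2) * m j := fun j => mul_pos (by positivity) (hm j)
  have key : ∀ j, ∀ θ ∈ O, ∀ u : Cm (n + 1), ‖u‖ ≤ 1 → (Matrix.diagonal (fun a =>
      (((Fin.cons (cw j / ((n + 2) * m j)) fun _ => cz j / ((n + 2) * m j)) :
        Fin (n + 1) → ℝ) a : ℂ)) - cHess ((P.Q C).ρ ((b j).γ, (b j).a))
          (Fin.cons (T j θ) (X j θ) + (b j).A *ᵥ u)).PosSemidef := by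
    intro j θ hθ u hu
    have k := ok j θ hθ
    have e := tail_pt (mov (b j) (X j θ) (T j θ)) u
    have hu' : nsq (Fin.tail u) ≤ exp ((mov (b j) (X j θ) (T j θ)).s / 2) :=
      (nsq_le ((pi_norm_le_iff_of_nonneg zero_le_one).2 fun i =>
        (norm_le_pi_norm u _).trans hu)).trans
        (le_trans (by linarith [k.lo]) (add_one_le_exp _))
    have h7 := h.mem _ k _ hu'
    rw [← e] at h7
    have h4 := C.B_mono (by norm_num : (7 / 2 : ℝ) ≤ 4) _ h7
    have e2 : (fun a => (((Fin.cons (cw j / ((n + 2) * m j)) fun _ => cz j / ((n + 2) * m j)) :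
        Fin (n + 1) → ℝ) a : ℂ)) = Fin.cons ((cw j / ((n + 2) * m j) : ℝ) : ℂ)
          fun _ => ((cz j / ((n + 2) * m j) : ℝ) : ℂ) := by
      funext a
      exact Fin.cases rfl (fun _ => rfl) a
    erw [QY_hess C _ h4]
    rw [e2, bk_diag, bk_sub, ← Complex.ofReal_sub]
    refine bk_psd (sub_nonneg.2 ((le_div_iff₀ (n2 j)).2 (hw j))) ?_
    have h5 := ((h.hess _ _ h7).1.smul (a := (P.β : ℂ)) (by exact_mod_cast P.β_pos.le)).add
      ((Matrix.PosSemidef.one (n := Fin n) (R := ℂ)).smul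
        (a := ((cz j / ((n + 2) * m j) - P.β * K : ℝ) : ℂ))
        (by exact_mod_cast sub_nonneg.2 ((le_div_iff₀ (n2 j)).2 (hz j))))
    convert h5 using 1
    ext i i'
    by_cases hi : i = i'
    · subst hi
      simp [mov, Pb.A]
      ring
    · simp [mov, Pb.A, Matrix.one_apply_ne hi, Matrix.diagonal_apply_ne _ hi]
  obtain ⟨h1, h2⟩ := S.psh W O J 0 (fun j => ((b j).γ, (b j).a)) (fun _ => bmp₂ n P.q)
    (fun j θ => Fin.cons (T j θ) (X j θ)) (fun j _ => (b j).A) (fun j _ => ((lam j / 2 : ℝ) : ℂ))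
    (fun j => Fin.cons (cw j / ((n + 2) * m j)) fun _ => cz j / ((n + 2) * m j)) m
    (fun j θ => (mov (b j) (X j θ) (T j θ)).W P (lam j))
    (fun θ => ∑ i, (mov (b i) (X i θ) (T i θ)).W P (lam i)) hO
    ⟨fun _ _ _ _ _ => contDiffAt_const, fun _ => le_rfl, HasCompactSupport.zero⟩ (fun _ => h.ker.1)
    (fun j => ⟨fun θ hθ => an_cons (hT j θ hθ) (hX j θ hθ), fun _ _ => analyticOnNhd_const,
      analyticOnNhd_const⟩)
    (fun j θ hθ => ⟨h.inn _ (ok j θ hθ), key j θ hθ⟩)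
    (fun j θ => by rw [Complex.ofReal_re, mul_div_cancel₀ _ two_ne_zero]; rfl)
    (fun θ => (zero_add _).symm) ms
  refine ⟨h1, ((h2.add (psh_const (-∑ j, m j * ∑ a : Fin (n + 1),
    (Fin.cons (cw j / ((n + 2) * m j)) (fun _ => cz j / ((n + 2) * m j)) : Fin (n + 1) → ℝ) a *
      (((n + 1 : ℕ) : ℝ) + 1) * ∑ c, ‖(b j).A a c‖ ^ 2) O)
    (.of_cont (h1.add (continuousOn_finset_sum _ fun j _ => continuousOn_const.mul
      (continuousOn_finset_sum _ fun a _ => continuousOn_const.mul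
        (ContinuousOn.add ?_ continuousOn_const)))))
    (.of_cont continuousOn_const))).congr fun θ _ => ?_⟩
  · exact ((continuous_apply a).comp_continuousOn fun θ hθ =>
      (an_cons (hT j θ hθ) (hX j θ hθ)).continuousAt.continuousWithinAt).norm.pow 2
  · simp only
    rw [add_assoc, ← sub_eq_add_neg, ← Finset.sum_sub_distrib]
    refine congrArg _ (Finset.sum_congr rfl fun j _ => ?_)
    have := (n2 j).ne'
    have := (hm j).ne'
    have e : ((n : ℝ) + 2) ≠ 0 := by positivity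
    rw [← mul_sub, ← Finset.sum_sub_distrib]
    simp only [mul_add, add_sub_cancel_right, Fin.sum_univ_succ, Fin.cons_zero, Fin.cons_succ,
      nsq, ← Finset.mul_sum]
    push_cast
    field_simp
    ring

end Vale.Agent.P284Y.S87
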