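import Vale.Agent.P284Y.Y.P87a

/-!
# P284Y, block Y, one stage: the one point function and the two point energy
-/

set_option linter.all false

open scoped ContDiff Topology ComplexOrder ENNReal Matrix
open Filter Set Function Metric MeasureTheory

noncomputable section

namespace Vale.Agent.P284Y.S87

open Vale.Agent.P272.K Vale.Agent.P284Z Vale.Agent.P284Z.J Vale.Agent.P284Y.Y Real
  Vale.Agent.P284Y.S12

variable {n : ℕ} {Γ E : Type} [Group Γ] [TopologicalSpace E] [MulAction Γ E] {C : Cov n Γ E}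
  [MeasurableSpace E] {μ : Measure (E × ℂ)} {P : Par} {S : MAS (P.Q C) μ} {s K₁ K₂ K₃ K : ℝ}
  {γ γ' : Γ} {a b : C.I} {x y : Cm n} {ξ : Mx n} {N : ℕ}

theorem cont_nsq : Continuous (nsq : Cm n → ℝ) := by
  unfold nsq
  fun_prop

variable (c : Cx P S s K₁ K₂ K₃ K)
include c

theorem nK : (n + 2) * K ^ 3 * 200 ≤ P.Z := by linarith [c.hZ]

theorem n_le : (n : ℝ) ≤ P.lo / 2 := by
  have h1 := one_le_pow₀ (n := 3) c.K1
  have h2 : (0 : ℝ) ≤ n := n.cast_nonneg
  nlinarith [nK c, P.Z_le_lo]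

/-- the mass of a probe -/
theorem ms_le {b : Pb C} (hb : b.Ok P) (e : b.s = s) {ν : E × ℂ → ℝ} (hν : (P.Q C).Dens ν)
    {D : ℝ} (hD : S.G (b.W P (P.t * s)) ≤ D) :
    S.ms (ν + b.W P (P.t * s)) (b.W P (P.t * s)) ≤ K * D / (P.t * s) := by
  have l := c.Λ_pos
  have h := c.r41.slope b (P.t * s) (P.t * s) ν hb (by rw [e]; linarith) (by rw [e]; linarith)
    (by linarith) hν
  refine h.trans (div_le_div_of_nonneg_right ?_ l.le)
  exact mul_le_mul c.k₁ hD (c.gen.G_nonneg _ (c.r41.densW _ _ hb)) (by linarith [c.K1])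

theorem cz_le {D : ℝ} (h0 : 0 ≤ D) (hD : D ≤ 3 * K * P.GG S s) :
    P.β * K₁ * ((n + 2) * (K * D / (P.t * s))) ≤ P.q * (P.GG S s / s) := by
  have h1 := c.s_pos
  have h2 := c.G_pos
  have h3 := P.β_pos
  have h4 := P.TT_pos
  have h5 := c.K1
  have h6 : (0 : ℝ) ≤ n := n.cast_nonneg
  have h7 : (n + 2) * K ^ 3 * 3 ≤ P.q * P.TT := by
    have := mul_le_mul_of_nonneg_left P.TT_ge P.q_pos.le
    rw [pow_succ, ← mul_assoc, P.q_mul] at this
    nlinarith [nK c, pow_pos (one_pos.trans_le h5) 3]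
  calc _ ≤ P.β * K * ((n + 2) * (K * (3 * K * P.GG S s) / (P.t * s))) := by
        have := c.Λ_pos
        gcongr
        exact c.k₁
    _ = (n + 2) * K ^ 3 * 3 / P.TT * (P.GG S s / s) := by
        unfold Par.t
        field_simp
    _ ≤ _ := mul_le_mul_of_nonneg_right ((div_le_iff₀ h4).2 h7) (div_pos h2 h1).le

theorem g_psh (hξ : Fr (s / 8) ξ) : ContinuousOn (fun x => P.g S s a x ξ) (C.B (5 / 2) a) ∧
    Psh (fun x => P.g S s a x ξ + P.q * (P.GG S s / s) * nsq x) (C.B (5 / 2) a) := by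
  have k := c.K1
  have g := c.G_pos
  have h := psh_pb (S := S) c.r41.toR41a (n_le c) (C.isOpen_B (5 / 2) a) (J := Unit)
    (fun _ => b0 P s 1 a 0 ξ) (fun _ x => x) (fun _ _ => 0) (fun _ => P.t * s)
    (fun _ => K * (2 * K * P.GG S s) / (P.t * s)) (fun _ => P.q * (P.GG S s / s))
    (fun _ => P.m * ((n + 2) * (K * (2 * K * P.GG S s) / (P.t * s))))
    (fun _ => analyticOnNhd_id) (fun _ => analyticOnNhd_const)
    (fun _ x hx => (c.std₀ (γ := 1) hx hξ).ok) (fun _ => div_pos (by positivity) c.Λ_pos)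
    (fun _ => cz_le c (by positivity) (by nlinarith)) (fun _ => le_rfl) fun _ x hx => by
      have := ms_le c (c.std₀ (γ := 1) hx hξ).ok rfl c.gen.pg.dens_zero
        (c.top (c.std₀ (γ := 1) hx hξ).ok rfl)
      rw [zero_add] at this
      rw [Fintype.sum_unique]
      exact this
  simp only [Fintype.sum_unique, norm_zero, ne_eq, OfNat.ofNat_ne_zero, not_false_eq_true,
    zero_pow, mul_zero, add_zero] at h
  exact h

theorem f_cont (hξ : Fr (s / 8) ξ) : ContinuousOn (fun x => P.f S s a x ξ) (C.B (5 / 2) a) :=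
  (((g_psh c hξ).1.sub continuousOn_const).mul continuousOn_const).div_const _

theorem f_psh (hξ : Fr (s / 8) ξ) :
    Psh (fun x => P.f S s a x ξ + P.q * nsq x) (C.B (5 / 2) a) := by
  obtain ⟨h1, h2⟩ := g_psh (a := a) c hξ
  have h3 := c.s_pos
  have h4 := c.G_pos
  refine ((h2.const_mul (div_pos h3 h4).le).add (psh_const (-s) _) (.of_cont (continuousOn_const.mul
    (h1.add (continuousOn_const.mul cont_nsq.continuousOn)))) (.of_cont continuousOn_const)).congr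
    fun x _ => ?_
  simp only [Par.f]
  field_simp
  ring

/-- the domain of the two point energy -/
def DJ (C : Cov n Γ E) (a b : C.I) : Set ((Cm n × Cm n) × ℂ) :=
  (C.B (5 / 2) a ×ˢ C.B (5 / 2) b) ×ˢ {t | t.re ∈ Ioi 9}

omit c in
theorem norm_exp (ζ : ℂ) : ‖Complex.exp (-(ζ / 2))‖ ^ 2 = exp (-ζ.re) := by
  rw [Complex.norm_exp, sq, ← exp_add]
  congr 1
  simp
  ring

theorem J_psh (hξ : Fr (s / 8) ξ) (h1 : 1 ≤ N) (h2 : N ≤ P.Z) {δ : ℝ}
    (hδ : P.q * (P.GG S s / s) ≤ δ) :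
    ContinuousOn (fun q : (Cm n × Cm n) × ℂ => P.J S N s a q.1.1 γ b q.1.2 ξ q.2.re) (DJ C a b) ∧
    Psh (fun q : (Cm n × Cm n) × ℂ => P.J S N s a q.1.1 γ b q.1.2 ξ q.2.re + P.cor S N s q.2.re +
      δ * (nsq q.1.1 + nsq q.1.2)) (DJ C a b) := by
  have k := c.K1
  have g := c.G_pos
  have l := c.Λ_pos
  have n0 : (0 : ℝ) < N := by exact_mod_cast h1
  have n1 : (1 : ℝ) ≤ N := by exact_mod_cast h1
  have t9 : ∀ q ∈ DJ C a b, ‖Complex.exp (-(q.2 / 2))‖ ^ 2 ≤ exp (-9) := fun q hq => by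
    rw [norm_exp]
    exact exp_le_exp.2 (neg_le_neg (le_of_lt hq.2))
  have o1 : ∀ q ∈ DJ C a b, (b0 P s 1 a q.1.1 1).Ok P := fun q hq => (c.std₀ hq.1.1 c.fr1).ok
  have o2 : ∀ q ∈ DJ C a b, ((b0 P s γ b q.1.2 ξ).mv (Complex.exp (-(q.2 / 2)))
    (N * P.sw s)).Ok P := fun q hq => c.okw hq.1.2 hξ h1 h2 (t9 q hq)
  have h := psh_pb (S := S) c.r41.toR41a (n_le c) (O := DJ C a b)
    (((C.isOpen_B _ a).prod (C.isOpen_B _ b)).prod (isOpen_Ioi.preimage Complex.continuous_re))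
    (J := Fin 2) ![b0 P s 1 a 0 1, (b0 P s γ b 0 ξ).mv 0 (N * P.sw s)]
    ![fun q => q.1.1, fun q => q.1.2] ![fun _ => 0, fun q => Complex.exp (-(q.2 / 2))]
    (fun _ => P.t * s)
    ![K * (2 * K * P.GG S s) / (P.t * s), K * (3 * K * (P.GG S s / N)) / (P.t * s)]
    (fun _ => δ)
    ![P.m * ((n + 2) * (K * (2 * K * P.GG S s) / (P.t * s))), P.Z * (P.U S s / (N * P.sw s))]
    (Fin.forall_fin_two.2 ⟨fun _ _ => analyticAt_fst.comp analyticAt_fst,
      fun _ _ => analyticAt_snd.comp analyticAt_fst⟩)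
    (Fin.forall_fin_two.2 ⟨analyticOnNhd_const,
      fun _ _ => (analyticAt_snd.div_const.neg).cexp'⟩)
    (Fin.forall_fin_two.2 ⟨o1, o2⟩)
    (Fin.forall_fin_two.2 ⟨div_pos (by positivity) l, div_pos (by positivity) l⟩)
    (Fin.forall_fin_two.2 ⟨(cz_le c (by positivity) (by nlinarith)).trans hδ, (cz_le c
      (by positivity) (mul_le_mul_of_nonneg_left (div_le_self g.le n1) (by positivity))).trans hδ⟩)
    (Fin.forall_fin_two.2 ⟨le_rfl, by
      have e := P.B_mul_sw s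
      have h3 := c.sw_pos
      have h4 := P.B_pos
      have h5 : (0 : ℝ) ≤ n := n.cast_nonneg
      have h6 : (n + 2) * K ^ 2 * 192 ≤ P.Z := by
        nlinarith [nK c, mul_le_mul_of_nonneg_left (pow_le_pow_right₀ k (by norm_num : 2 ≤ 3))
          (by positivity : (0 : ℝ) ≤ n + 2), sq_nonneg K]
      calc P.m * ((n + 2) * (K * (3 * K * (P.GG S s / N)) / (P.t * s)))
          = (n + 2) * K ^ 2 * 192 * (P.GG S s / (N * P.sw s)) := by
            rw [← e, Par.m]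
            field_simp
            ring
        _ ≤ P.Z * (P.U S s / (N * P.sw s)) := by
            have := P.Z_pos
            gcongr
            exact le_add_of_nonneg_right zero_le_one⟩)
    (Fin.forall_fin_two.2 ⟨fun q hq => by
      have := ms_le c (o1 q hq) rfl (c.r41.densW _ (P.t * s) (o2 q hq)) (c.top (o1 q hq) rfl)
      rw [add_comm (Pb.W _ _ _)] at this
      rw [Fin.sum_univ_two]
      exact this, fun q hq => by
      rw [Fin.sum_univ_two]
      exact ms_le c (o2 q hq) rfl (c.r41.densW _ (P.t * s) (o1 q hq))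
        (c.gb_le hq.1.2 hξ h1 h2 (t9 q hq))⟩)
  have e : ∀ q ∈ DJ C a b, S.G (P.at0 C s 1 a q.1.1 1 + P.atw C N s γ b q.1.2 ξ
      (Complex.exp (-(q.2 / 2)))) = P.J S N s a q.1.1 γ b q.1.2 ξ q.2.re := fun q hq => by
    simpa using c.J_eq (γ := 1) (γ' := γ) hq.1.1 hq.1.2 hξ h1 h2 (le_of_lt hq.2) (norm_exp q.2)
  simp only [Fin.sum_univ_two] at h
  refine ⟨h.1.congr fun q hq => (e q hq).symm, h.2.congr fun q hq => ?_⟩
  simp only [Matrix.cons_val_zero, Matrix.cons_val_one, norm_exp, norm_zero, ← e q hq, Par.cor]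
  change _ = S.G (P.at0 C s 1 a q.1.1 1 + P.atw C N s γ b q.1.2 ξ
      (Complex.exp (-(q.2 / 2)))) + _
  ring

end Vale.Agent.P284Y.S87
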