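import Vale.Agent.P284Y.Y.Defs
import Vale.Agent.P284Y.Y.BgDefs

/-!
# P284Y, block Y: the rows Y1, Y2, Y3 (statements)
-/

open scoped ContDiff Topology ComplexOrder ENNReal Matrix
open Filter Set Function Metric MeasureTheory

noncomputable section

namespace Vale.Agent.P284Y

open Vale.Agent.P272.K Vale.Agent.P284Z Vale.Agent.P284Z.J

variable {n : ℕ} {Γ E : Type} [Group Γ] [TopologicalSpace E] [MulAction Γ E] {C : Cov n Γ E}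

/-- the barrier -/
def bh (m : ℝ) (w : ℂ) : ℝ := m / 8 * (Real.log (4 * ‖w‖ ^ 2) + 1 - 4 * ‖w‖ ^ 2) - 1

/-- the isometry `(y, w) ↦ (g y, u w + c)` -/
def isoY (g : Γ) (u c : ℂ) (y : E × ℂ) : E × ℂ := (g • y.1, u * y.2 + c)

namespace Pb
variable (b : Pb C)

/-- the point with the normalised coordinate `u` -/
def z (u : Cm n) : Cm n := b.x + ((Real.exp (-(b.s / 2)) : ℝ) : ℂ) • b.ξ *ᵥ u

/-- the box of the probe, dilated by `r` in `z` and by `r'` in `w` -/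
def Box (r r' : ℝ) : Set (E × ℂ) :=
  {y | (∃ u : Cm n, nsq u ≤ r ^ 2 ∧ y.1 = C.pt b.γ b.a (b.z u)) ∧
    ‖y.2 - b.w‖ ≤ r' * Real.exp (-(b.s' / 2))}

/-- the matrix of the probe -/
def A : Mx (n + 1) :=
  bd (Real.exp (-(b.s' / 2)) : ℝ) (((Real.exp (-(b.s / 2)) : ℝ) : ℂ) • b.ξ)

end Pb

variable [MeasurableSpace E] {μ : Measure (E × ℂ)}

/-- `G (s) + 1` -/
def Par.U (P : Par) (S : MAS (P.Q C) μ) (s : ℝ) : ℝ := P.GG S s + 1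

/-- geometry of the probes (no equation) -/
structure R41a (P : Par) (C : Cov n Γ E) (μ : Measure (E × ℂ)) (K : ℝ) : Prop where
  K_ge : 1 ≤ K
  aut : ∀ (g : Γ) u c, ‖u‖ = 1 → (P.Q C).Aut (isoY g u c)
  hess : ∀ a, ∀ z ∈ C.B (7 / 2) a, ((K : ℂ) • (1 : Mx n) - cHess (C.ρ a) z).PosSemidef ∧
    (cHess (C.ρ a) z - ((K⁻¹ : ℝ) : ℂ) • (1 : Mx n)).PosSemidef ∧ |C.ρ a z| ≤ K
  /-- euclidean balls of radius `1 / K` -/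
  ball : ∀ a, ∀ x ∈ C.B 3 a, ∀ z, nsq (z - x) ≤ K⁻¹ ^ 2 → z ∈ C.B (7 / 2) a
  mem : ∀ b : Pb C, b.Ok P → ∀ u, nsq u ≤ Real.exp (b.s / 2) → b.z u ∈ C.B (7 / 2) b.a
  inn : ∀ b : Pb C, b.Ok P → (P.Q C).In (b.γ, b.a) (Fin.cons b.w b.x) b.A
  ker : Ker (bmp₂ n P.q) ∧ ∫ u, bmp₂ n P.q u = 1
  dens : ∀ b : Pb C, b.Ok P → (P.Q C).Dens (b.p P) ∧ ∫ y, b.p P y ∂μ = 1
  densW : ∀ (b : Pb C) lam, b.Ok P → (P.Q C).Dens (b.W P lam)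
  sup : ∀ b : Pb C, b.Ok P → ∀ y, b.p P y ≤ Real.exp (b.s' + K * b.s) ∧
    b.p P y ≤ Real.exp (P.B / P.Z)
  supp : ∀ b : Pb C, b.Ok P → ∀ y, b.p P y ≠ 0 → y ∈ b.Box 1 1
  /-- product form: `F` does not depend on `w` and `s'` -/
  prod : ∀ b : Pb C, b.Ok P → ∃ F : E → ℝ, (∀ y, 0 ≤ F y) ∧ ∀ w s' y,
    ({ b with w := w, s' := s' } : Pb C).p P y =
      F y.1 * (Real.exp s' * bmp 1 P.q fun _ => (Real.exp (s' / 2) : ℝ) * (y.2 - w))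
  sym : ∀ (b : Pb C) g u c y, b.Ok P → ‖u‖ = 1 →
    ({ b with γ := g * b.γ, w := u * b.w + c } : Pb C).p P (isoY g u c y) = b.p P y
  uni : ∀ (b : Pb C) (V : Mx n), b.Ok P → (∀ u, nsq (V *ᵥ u) = nsq u) →
    ({ b with ξ := b.ξ * V } : Pb C).p P = b.p P
  /-- the jacobian matrices of the changes of charts -/
  jac : ∀ γ a γ' a', ∀ x ∈ C.B 3 a, ∀ x' ∈ C.B 3 a', C.pt γ a x = C.pt γ' a' x' →
    Fr K (jm (C.tr (γ'⁻¹ * γ) a a') x)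
  /-- **non linear change of charts** -/
  geo : ∀ (b b' : Pb C) (r r' : ℝ), b.Ok P → b'.Ok P → b'.s = b.s →
    C.pt b.γ b.a b.x = C.pt b'.γ b'.a b'.x → 1 ≤ r' →
    (∀ u, nsq u ≤ r ^ 2 → ∃ u', nsq u' ≤ r' ^ 2 ∧
      jm (C.tr (b'.γ⁻¹ * b.γ) b.a b'.a) b.x *ᵥ (b.ξ *ᵥ u) = b'.ξ *ᵥ u') → 0 ≤ r → r ≤ 2 →
    ∀ u, nsq u ≤ r ^ 2 → ∃ u', nsq u' ≤ ((1 + P.q) * r') ^ 2 ∧
      C.pt b.γ b.a (b.z u) = C.pt b'.γ b'.a (b'.z u')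

/-- the row Y1 -/
structure R41b (P : Par) (S : MAS (P.Q C) μ) : Prop where
  act : ∀ (g : Γ) u c ν, ‖u‖ = 1 → (P.Q C).Dens ν → (P.Q C).Dens (ν ∘ isoY g u c) ∧
    S.φ (ν ∘ isoY g u c) = S.φ ν ∘ isoY g u c ∧ S.G (ν ∘ isoY g u c) = S.G ν
  /-- **GLUE** -/
  glue : ∀ (ν ψ : E × ℂ → ℝ) (r : ℝ), (P.Q C).Dens ν → 0 < r → r < 1 / 2 →
    (∀ y, ν y ≠ 0 → ‖y.2‖ ≤ r) → (∀ y : E × ℂ, ‖y.2‖ < 1 / 2 → ContinuousAt ψ y ∧ ψ y ≤ 0 ∧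
      (S.φ ν y < ψ y - 2 → (P.Q C).Sub ν ψ y)) →
    (∀ y : E × ℂ, ‖y.2‖ = r → bh P.m y.2 + 2 ≤ ψ y) →
    (∀ y : E × ℂ, ‖y.2‖ < 1 / 2 → ψ y - 2 ≤ S.φ ν y) ∧
      (∀ y : E × ℂ, r ≤ ‖y.2‖ → bh P.m y.2 ≤ S.φ ν y) ∧ ∀ y : E × ℂ, 1 / 2 ≤ ‖y.2‖ → -2 ≤ S.φ ν y
  /-- **Y1**, point masses -/
  low : ∀ (J : Type) (I : Finset J) (b : J → Pb C) (lam : J → ℝ) ν, (P.Q C).Dens ν →
    (∀ j ∈ I, (b j).Ok P ∧ 0 ≤ lam j) → I.card ≤ 4 * P.Z →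
    ∑ j ∈ I, lam j / (b j).s' ≤ 3 * P.B → ν ≤ ∑ j ∈ I, (b j).W P (lam j) →
    (∀ y : E × ℂ, ‖y.2‖ < 1 / 2 → ∑ j ∈ I, lam j / (b j).s' *
      Real.log (‖y.2 - (b j).w‖ ^ 2 + Real.exp (-(b j).s')) - 32 * P.B * ‖y.2‖ ^ 2 - 3 * P.B ≤
        S.φ ν y) ∧ ∀ y : E × ℂ, 1 / 2 ≤ ‖y.2‖ → -2 ≤ S.φ ν y
  glu : ∀ (b : Pb C) (lam κ r A : ℝ), b.Ok P → 0 ≤ κ → κ ≤ 3 → lam ≤ κ * P.B * b.s' → 0 < r →
    2 * ‖b.w‖ ≤ r → r < 1 / 2 → A ≤ (8 - κ) * P.B * -Real.log (r ^ 2) - 28 * P.B →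
    Y.Glu S (b.W P lam) r A

/-- the row Y2 -/
structure R41c (P : Par) (S : MAS (P.Q C) μ) (K : ℝ) : Prop where
  /-- the mass is sub-exponential -/
  mass : ∀ (b : Pb C) lam, b.Ok P → lam ≤ 4 * (P.t * b.s) →
    S.msl 0 (b.p P) lam ≤ Real.exp (P.B / P.Z)
  /-- **Y2** -/
  dom : ∀ (b : Pb C) (lam h h' : ℝ) ν, b.Ok P → 0 ≤ lam → lam ≤ 4 * (P.t * b.s) → (P.Q C).Dens ν →
    b.W P lam ≤ ν → 0 ≤ h → h ≤ b.s / 8 → 0 ≤ h' → h' ≤ b.s' / 4 →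
    ∀ y ∈ b.Box ((1 + P.q) * Real.exp h) (4 * Real.exp h'),
      S.φ ν y ≤ -lam + K * P.B + lam * (3 * h / b.s + 3 * h' / b.s')
  /-- free probabilities -/
  free : ∀ (b : Pb C) (lam : ℝ) ν p, b.Ok P → lam ≤ 4 * (P.t * b.s) → (P.Q C).Dens ν →
    b.W P lam ≤ ν → (P.Q C).Dens p → ∫ y, p y ∂μ ≤ 1 → (∀ y, p y ≠ 0 → y ∈ b.Box (1 + P.q) 4) →
    S.G (ν + Real.exp (lam - K * P.B) • p) ≤ S.G ν + 1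
  /-- three circles in the two directions together -/
  jt : ∀ (b : Pb C) (lam σ : ℝ) ν, b.Ok P → b.ξ = 1 → b.s' = P.sw b.s → 0 ≤ lam →
    lam ≤ 4 * (P.t * b.s) → (P.Q C).Dens ν → b.W P lam ≤ ν → 0 ≤ σ → σ ≤ b.s →
    ∀ z ∈ C.B 4 b.a, ∀ w, nsq (z - b.x) ≤ 4 * Real.exp (-σ) →
      ‖w - b.w‖ ^ 2 ≤ Real.exp (-P.sw σ) →
      S.φ ν (C.pt b.γ b.a z, w) ≤ -(lam * σ / b.s) + K * P.t

/-- the row Y3, comparisons -/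
structure R41d (P : Par) (S : MAS (P.Q C) μ) (K : ℝ) : Prop where
  /-- **Y3**: the mass is controlled by the energy -/
  slope : ∀ (b : Pb C) (Λ lam : ℝ) ν, b.Ok P → P.t * b.s / 8 ≤ Λ → Λ ≤ 2 * (P.t * b.s) →
    lam ≤ 3 / 2 * Λ → (P.Q C).Dens ν → S.msl ν (b.p P) lam ≤ K * S.G (b.W P Λ) / Λ
  grow : ∀ (b : Pb C) (Λ lam : ℝ), b.Ok P → P.t * b.s / 8 ≤ Λ → lam ≤ 3 * (P.t * b.s) →
    S.G (b.W P lam) ≤ K * S.G (b.W P Λ)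
  /-- rough comparison of two probes -/
  step : ∀ (b b' : Pb C) (Λ lam h h' : ℝ), b.Ok P → b'.Ok P → b'.s = b.s → P.t * b.s / 8 ≤ Λ →
    lam ≤ 3 * (P.t * b.s) → 0 ≤ h → h ≤ b.s / 8 → 0 ≤ h' → h' ≤ b.s' / 4 →
    3 * h / b.s + 3 * h' / b.s' ≤ 3 / 4 →
    b'.Box 1 1 ⊆ b.Box ((1 + P.q) * Real.exp h) (4 * Real.exp h') →
    S.G (b'.W P lam) ≤ K * (S.G (b.W P Λ) + 1)
  g_le : ∀ s ∈ Icc P.lo P.hi, ∀ a, ∀ x ∈ C.B (5 / 2) a, P.g S s a x 1 ≤ P.GG S s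
  top : ∀ (b : Pb C) lam, b.Ok P → lam ≤ 3 * (P.t * b.s) → S.G (b.W P lam) ≤ K * P.U S b.s
  /-- the cost of a shift -/
  shift : ∀ (b : Pb C) (Λ lam lam' : ℝ) ν, b.Ok P → P.t * b.s / 8 ≤ Λ → Λ ≤ 2 * (P.t * b.s) →
    lam ≤ lam' → lam' ≤ 3 / 2 * Λ → (P.Q C).Dens ν →
    S.G (ν + b.W P lam') ≤ S.G (ν + b.W P lam) + (lam' - lam) * (K * S.G (b.W P Λ) / Λ)
  /-- a probe inside the box of another one -/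
  move₀ : ∀ (b b' : Pb C) (Λ : ℝ) ν, b.Ok P → b'.Ok P → b'.s = b.s → P.t * b.s / 8 ≤ Λ →
    Λ ≤ 2 * (P.t * b.s) → (P.Q C).Dens ν → b'.Box 1 1 ⊆ b.Box (1 + P.q) 4 →
    S.G (ν + b'.W P Λ) ≤ S.G (ν + b.W P Λ) + K * P.B * S.G (b'.W P Λ) / Λ + 1
  mono : ∀ a, ∀ x ∈ C.B 3 a, ∀ s s', P.lo ≤ s → s ≤ s' → s' ≤ P.hi →
    P.g S s a x 1 ≤ K * (P.g S s' a x 1 + 1)

/-- the row Y3, convexity -/
structure R41e (P : Par) (S : MAS (P.Q C) μ) (K : ℝ) : Prop where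
  /-- Lipschitz bound in the logarithm of the scale; `D` bounds the energies of the dilated probes -/
  lip : ∀ (b : Pb C) (Λ h D : ℝ) ν, b.Ok P → Fr (b.s / 16) b.ξ → P.t * b.s / 8 ≤ Λ →
    Λ ≤ 2 * (P.t * b.s) → (P.Q C).Dens ν → 0 ≤ h → h ≤ b.s / 32 → S.G (b.W P Λ) + 1 ≤ D →
    S.G (({ b with ξ := ((Real.exp h : ℝ) : ℂ) • b.ξ } : Pb C).W P Λ) ≤ K * D ∧
    S.G (ν + ({ b with ξ := ((Real.exp h : ℝ) : ℂ) • b.ξ } : Pb C).W P Λ) ≤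
      S.G (ν + b.W P Λ) + K * h * D / b.s
  move : ∀ (b b' : Pb C) (Λ h D : ℝ) ν, b.Ok P → b'.Ok P → Fr (b.s / 16) b.ξ → b'.s = b.s →
    P.t * b.s / 8 ≤ Λ → Λ ≤ 2 * (P.t * b.s) → (P.Q C).Dens ν → 0 ≤ h → h ≤ b.s / 32 →
    b'.Box 1 1 ⊆ b.Box ((1 + P.q) * Real.exp h) 4 → S.G (b.W P Λ) + 1 ≤ D →
    S.G (b'.W P Λ) ≤ K * D ∧
    S.G (ν + b'.W P Λ) ≤ S.G (ν + b.W P Λ) + K * (h + P.q) * D / b.s + 1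
  /-- convexity in the scale -/
  cvx : ∀ a, ∀ x ∈ C.B 3 a, ∀ s₁ s₂ θ, P.lo ≤ s₁ → s₁ ≤ s₂ → s₂ ≤ P.hi → 0 ≤ θ → θ ≤ 1 →
    P.g S ((1 - θ) * s₁ + θ * s₂) a x 1 ≤ (1 - θ) * P.g S s₁ a x 1 + θ * P.g S s₂ a x 1 +
      K * (P.g S s₂ a x 1 + 1) * Real.exp (-s₁)

/-- the rows Y1, Y2, Y3 -/
structure R41 (P : Par) (S : MAS (P.Q C) μ) (K : ℝ) : Prop extends R41a P C μ K, R41b P S,
  R41c P S K, R41d P S K, R41e P S K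

/-- **Y1, Y2, Y3** -/
def St41 : Prop :=
  ∀ (n : ℕ) (Γ E : Type) [Group Γ] [Countable Γ] [TopologicalSpace E] [T2Space E]
    [MulAction Γ E] [MeasurableSpace E] [BorelSpace E] (C : Cov n Γ E),
    ∃ (K : ℝ) (Z₀ : ℕ), ∀ P : Par, Z₀ ≤ P.Z → ∀ (μ : Measure (E × ℂ)) (S : MAS (P.Q C) μ),
      Gen S → R41 P S K

/-- the parts -/
def St41a : Prop :=
  ∀ (n : ℕ) (Γ E : Type) [Group Γ] [Countable Γ] [TopologicalSpace E] [T2Space E]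
    [MulAction Γ E] [MeasurableSpace E] [BorelSpace E] (C : Cov n Γ E),
    ∃ K₀ : ℝ, ∀ K, K₀ ≤ K → ∃ Z₀ : ℕ, ∀ P : Par, Z₀ ≤ P.Z → ∀ μ : Measure (E × ℂ),
      PG (P.Q C) μ → R41a P C μ K

def St41b : Prop :=
  ∀ (n : ℕ) (Γ E : Type) [Group Γ] [Countable Γ] [TopologicalSpace E] [T2Space E]
    [MulAction Γ E] [MeasurableSpace E] [BorelSpace E] (C : Cov n Γ E) (K : ℝ) (P : Par)
    (μ : Measure (E × ℂ)) (S : MAS (P.Q C) μ), Gen S → R41a P C μ K → R41b P S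

def St41c : Prop :=
  ∀ (n : ℕ) (Γ E : Type) [Group Γ] [Countable Γ] [TopologicalSpace E] [T2Space E]
    [MulAction Γ E] [MeasurableSpace E] [BorelSpace E] (C : Cov n Γ E) (K₁ : ℝ),
    ∃ K₀ : ℝ, ∀ K, K₀ ≤ K → ∃ Z₀ : ℕ, ∀ P : Par, Z₀ ≤ P.Z → ∀ (μ : Measure (E × ℂ))
      (S : MAS (P.Q C) μ), Gen S → R41a P C μ K₁ → R41c P S K

def St41d : Prop :=
  ∀ (n : ℕ) (Γ E : Type) [Group Γ] [Countable Γ] [TopologicalSpace E] [T2Space E]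
    [MulAction Γ E] [MeasurableSpace E] [BorelSpace E] (C : Cov n Γ E) (K₁ : ℝ),
    ∃ K₀ : ℝ, ∀ K, K₀ ≤ K → ∃ Z₀ : ℕ, ∀ P : Par, Z₀ ≤ P.Z → ∀ (μ : Measure (E × ℂ))
      (S : MAS (P.Q C) μ), Gen S → R41a P C μ K₁ → R41b P S → R41c P S K₁ → R41d P S K

def St41e : Prop :=
  ∀ (n : ℕ) (Γ E : Type) [Group Γ] [Countable Γ] [TopologicalSpace E] [T2Space E]
    [MulAction Γ E] [MeasurableSpace E] [BorelSpace E] (C : Cov n Γ E) (K₁ : ℝ),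
    ∃ K₀ : ℝ, ∀ K, K₀ ≤ K → ∃ Z₀ : ℕ, ∀ P : Par, Z₀ ≤ P.Z → ∀ (μ : Measure (E × ℂ))
      (S : MAS (P.Q C) μ), Gen S → R41a P C μ K₁ → R41d P S K₁ → R41e P S K

theorem st41_of (ha : St41a) (hb : St41b) (hc : St41c) (hd : St41d) (he : St41e) : St41 := by
  intro n Γ E _ _ _ _ _ _ _ C
  obtain ⟨A, ha⟩ := ha n Γ E C
  obtain ⟨Za, a₁⟩ := ha A le_rfl
  obtain ⟨B, hc⟩ := hc n Γ E C A
  obtain ⟨Zb, a₂⟩ := ha (max A B) (le_max_left _ _)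
  obtain ⟨Zc, c₂⟩ := hc (max A B) (le_max_right _ _)
  obtain ⟨D, hd⟩ := hd n Γ E C (max A B)
  obtain ⟨Zd, a₃⟩ := ha (max A D) (le_max_left _ _)
  obtain ⟨Ze, d₃⟩ := hd (max A D) (le_max_right _ _)
  obtain ⟨F, he⟩ := he n Γ E C (max A D)
  obtain ⟨K, k₁, k₂, k₃, k₄⟩ : ∃ K, A ≤ K ∧ B ≤ K ∧ D ≤ K ∧ F ≤ K :=
    ⟨max (max A B) (max D F), by simp, by simp, by simp, by simp⟩
  obtain ⟨Zf, a₄⟩ := ha K k₁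
  obtain ⟨Zg, c₄⟩ := hc K k₂
  obtain ⟨Zh, d₄⟩ := hd K k₃
  obtain ⟨Zi, e₄⟩ := he K k₄
  refine ⟨K, Za + Zb + Zc + Zd + Ze + Zf + Zg + Zh + Zi, fun P hP μ S hG => ?_⟩
  have x₁ := a₁ P (by omega) μ hG.pg
  have x₂ := a₂ P (by omega) μ hG.pg
  have x₃ := hb n Γ E C _ P μ S hG x₁
  have x₄ := c₂ P (by omega) μ S hG x₁
  exact ⟨a₄ P (by omega) μ hG.pg, x₃, c₄ P (by omega) μ S hG x₁,
    d₄ P (by omega) μ S hG x₂ x₃ x₄,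
    e₄ P (by omega) μ S hG (a₃ P (by omega) μ hG.pg) (d₃ P (by omega) μ S hG x₂ x₃ x₄)⟩

end Vale.Agent.P284Y
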