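import Vale.Agent.P284Y.Y.R58
import Vale.Agent.P284Y.Y.BgDefs

/-!
# P284Y, block Y: the rows Y5, E1, E2, E3 (statements)
-/

open scoped ContDiff Topology ComplexOrder ENNReal Matrix
open Filter Set Function Metric MeasureTheory

noncomputable section

namespace Vale.Agent.P284Y

open Vale.Agent.P272.K Vale.Agent.P284Z Vale.Agent.P284Z.J Vale.Agent.P284Y.Y

variable {n : ℕ} {Γ E : Type} [Group Γ] [TopologicalSpace E] [MulAction Γ E] {C : Cov n Γ E}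

/-- the probes centred at `w = 0` with the standard scale -/
structure Pb.Std (b : Pb C) (P : Par) : Prop where
  ok : b.Ok P
  w0 : b.w = 0
  sw : b.s' = P.sw b.s

variable [MeasurableSpace E] {μ : Measure (E × ℂ)}

/-- the slope of the probe `b` with the weight `Λ` -/
def Pb.c (b : Pb C) (P : Par) (S : MAS (P.Q C) μ) (Λ : ℝ) : ℝ := S.G (b.W P Λ) / P.sw b.s

/-- what the rows use from Y0, Y1, Y2 -/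
structure I61 (P : Par) (S : MAS (P.Q C) μ) (K : ℝ) : Prop where
  rot : Rot C P.β P.m
  dens : ∀ b : Pb C, b.Ok P → (P.Q C).Dens (b.p P)
  supp : ∀ b : Pb C, b.Ok P → ∀ y, b.p P y ≠ 0 → ‖y.2 - b.w‖ ^ 2 ≤ Real.exp (-b.s')
  inv : ∀ b : Pb C, b.Ok P → b.w = 0 → RInv (b.p P)
  sup : ∀ b : Pb C, b.Ok P → ∀ y, b.p P y ≤ Real.exp (b.s' + K * b.s)
  glu : ∀ (b : Pb C) lam, b.Std P → lam ≤ P.t * b.s →
    Glu S (b.W P lam) (Real.exp (-4)) (25 * P.B)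
  low : ∀ (b : Pb C) lam (M : ℝ), b.Std P → lam ≤ P.t * b.s → 0 ≤ M → ∀ y : E × ℂ,
    Real.exp (-M) ≤ ‖y.2‖ ^ 2 → -(2 * P.B * M + K * P.B) ≤ S.φ (b.W P lam) y
  poly : ∀ (b : Pb C) lam, b.Std P → lam ≤ 3 * (P.t * b.s) →
    S.msl 0 (b.p P) lam ≤ Real.exp (P.B / 4)

/-- the rows -/
structure R61 (P : Par) (S : MAS (P.Q C) μ) (K : ℝ) : Prop where
  /-- **Y5** -/
  ex : ∀ (b : Pb C) (Λ M : ℝ), b.Std P → Λ ∈ Icc 0 (P.t * b.s) → M ∈ Icc P.M₀ (P.sw b.s / 5) →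
    ∃ ν, Bg S (b.W P Λ) M (8 * P.B) (Real.exp (-(P.B / 2))) ν
  int : ∀ (b : Pb C) (Λ M δ : ℝ) ν, b.Std P → Λ ≤ P.t * b.s → P.M₀ ≤ M →
    Bg S (b.W P Λ) M δ 1 ν → ∫ y, ν y ∂μ ≤ Real.exp (3 * P.B * M)
  /-- **E1**, upper bound -/
  e1u : ∀ (b : Pb C) (Λ M δ κ : ℝ) ν p, b.Ok P → Bg S (b.W P Λ) M δ κ ν → (P.Q C).Dens p →
    S.I p (b.W P Λ) ≤ S.I p ν + κ
  /-- **E1**, lower bound -/
  e1l : ∀ (b b' : Pb C) (Λ Λ' M δ κ : ℝ) ν τ (N : ℕ), b.Std P → Λ ≤ P.t * b.s →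
    M ∈ Icc P.M₀ (P.sw b.s / 5) → Bg S (b.W P Λ) M δ κ ν → δ ≤ P.Z * P.B → b'.Std P →
    Λ' ∈ Icc (P.t * b'.s / 2) (P.t * b'.s) → M ≤ P.sw b'.s / 5 → 1 ≤ N → N ≤ P.Z →
    ‖τ‖ ^ 2 = Real.exp (-M) →
    S.I ((b'.mv τ (N * P.sw b'.s)).W P Λ') ν ≤
      S.I ((b'.mv τ (N * P.sw b'.s)).W P Λ') (b.W P Λ) + K / N * ((b'.c P S Λ' + 1) * M / N)
  /-- **E2** -/
  e2 : ∀ (b : Pb C) (Λ M δ : ℝ) ν, b.Std P → Λ ∈ Icc (P.t * b.s / 2) (P.t * b.s) →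
    M ∈ Icc P.M₀ (P.sw b.s / 5) → Bg S (b.W P Λ) M δ 1 ν → δ ≤ P.Z * P.B →
    |S.G ν - b.c P S Λ * M| ≤ K / P.Z * ((b.c P S Λ + 1) * M)
  /-- **E3** -/
  e3 : ∀ (b : Pb C) (Λ M δ κ : ℝ) ν τ (N : ℕ), b.Std P → Λ ∈ Icc (P.t * b.s / 2) (P.t * b.s) →
    M ∈ Icc P.M₀ (P.M₁ b.s) → Bg S (b.W P Λ) M δ κ ν → δ ≤ P.Z * P.B → 1 ≤ N → N ≤ P.Z →
    ‖τ‖ ^ 2 = Real.exp (-M) →
    S.I ((b.mv τ (N * P.sw b.s)).W P Λ) ν ≤ S.G ((b.mv τ (N * P.sw b.s)).W P Λ) -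
      2 * (b.c P S Λ * M / N) + K / N * ((b.c P S Λ + 1) * M / N)

/-- the rows Y5, E1, E2, E3 -/
def St61 : Prop :=
  ∀ (n : ℕ) (K₁ K₂ K₃ : ℝ), ∃ (K : ℝ) (Z₀ : ℕ), 0 ≤ K ∧ ∀ (Γ E : Type) [Group Γ] [TopologicalSpace E]
    [T2Space E] [MulAction Γ E] [MeasurableSpace E] (C : Cov n Γ E) (P : Par),
    Z₀ ≤ P.Z → ∀ (μ : Measure (E × ℂ)) (S : MAS (P.Q C) μ), Gen S → I58 P S K₁ → R58 P S K₂ →
    I61 P S K₃ → R61 P S K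

end Vale.Agent.P284Y
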