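import Vale.Agent.P284Y.Y.Defs
import Vale.Agent.P284Y.YD
import Vale.Agent.P284Y.A.Out

/-!
# P284Y, block Y: the rows Y9 and X1, and the choice of the parameters (statements)
-/

open scoped ContDiff Topology ComplexOrder ENNReal Matrix
open Filter Set Function Metric MeasureTheory

noncomputable section

namespace Vale.Agent.P284Y

open Vale.Agent.P272.K Vale.Agent.P284Z Vale.Agent.P284Z.J Vale.Agent.P284Y.A

variable {n : ℕ} {Γ E : Type} [Group Γ] [TopologicalSpace E] [MulAction Γ E] {C : Cov n Γ E}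

/-- the core of a tube -/
def A.Tube.core {F : Fol C} (T : Tube F) : Set E := {y ∈ T.U | ‖T.sh y - T.t₁‖ < T.r / 8}

/-- the point of the probe, moved by `g` -/
def Pb.y (b : Pb C) (g : Γ) : E := C.pt (g * b.γ) b.a b.x

/-- `log det (P ξ ξ* P*)` at the probe moved by `g` -/
def Pb.ld {p : ℕ} (b : Pb C) (g : Γ) (sh : E → Cm p) : ℝ :=
  P284Y.ld (fun w => sh (C.pt (g * b.γ) b.a w)) b.x b.ξ

namespace Par
variable [MeasurableSpace E] {μ : Measure (E × ℂ)} (P : Par) (S : MAS (P.Q C) μ)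

/-- what is used of the row Y2: a measure above the probe makes a well on the whole box -/
def Dom (K : ℝ) : Prop :=
  ∀ b : Pb C, b.Ok P → ∀ ν, (P.Q C).Dens ν → b.W P (P.t * b.s) ≤ ν → ∀ (u : Cm n) (v : ℂ),
    nsq u ≤ 1 → ‖v‖ ≤ 1 →
    S.φ ν (C.pt b.γ b.a (b.x + ((Real.exp (-(b.s / 2)) : ℝ) : ℂ) • b.ξ *ᵥ u),
      b.w + (Real.exp (-(b.s' / 2)) : ℝ) * v) ≤ -(P.t * b.s) + K * P.B

/-- **X1**: on `V` the energy depends on the frame and on the chart through `ld` only -/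
def Pin (s : ℝ) {p : ℕ} (V : Set E) (sh : E → Cm p) (R ε : ℝ) : Prop :=
  ∀ (ν : E × ℂ → ℝ) (g : Γ) (b b' : Pb C), (P.Q C).Dens ν → b.Ok P → b'.Ok P → b.s = s → b'.s = s →
    b'.w = b.w → b'.s' = b.s' → Fr R b.ξ → Fr R b'.ξ → b'.y g = b.y g → b.y g ∈ V →
    (1 - (P.Z : ℝ)⁻¹) * (P.GG S s * P.sw s / b.s') ≤ S.I (b.W P (P.t * s)) ν →
    |(S.G (ν + b.W P (P.t * s)) - S.G (ν + b'.W P (P.t * s))) * s / (P.GG S s * P.sw s / b.s') -
      (b.ld g sh - b'.ld g sh)| ≤ ε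

end Par

/-- the rows Y9, X1 at the scale `s` -/
structure R8 [MeasurableSpace E] {μ : Measure (E × ℂ)} (P : Par) (S : MAS (P.Q C) μ) (s : ℝ) {p : ℕ}
    (V : ℕ → Set E) (sh : ℕ → E → Cm p) (j : ℕ) (R ε : ℝ) : Prop where
  stg : P.Stg S s
  pos : 0 < P.GG S s
  le : ∀ s' ∈ Icc P.lo P.hi, ∀ a, ∀ x ∈ C.B (5 / 2) a, P.g S s' a x 1 ≤ P.GG S s'
  top : ∃ a, ∃ x ∈ C.B (5 / 2) a, -1 ≤ P.f S s a x 1
  R_le : R ≤ P.lo / 8
  pin : ∀ i ≤ j, P.Pin S s (V i) (sh i) R ε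

/-- **Y9, X1, parameters** -/
def St8 : Prop :=
  ∀ (n : ℕ) (Γ E : Type) [Group Γ] [Countable Γ] [TopologicalSpace E] [T2Space E]
    [ConnectedSpace E] [MulAction Γ E] [MeasurableSpace E] [BorelSpace E] (C : Cov n Γ E)
    (μ : Measure E) (F : Fol C) (T : ℕ → Tube F), C.Vol μ →
    (∀ i, ∀ᵐ t, t ∈ ball (T i).t₁ (T i).r → ∀ τ > (0 : ℝ), Nonempty (Sesh (T i) t τ)) →
    ∀ (K R ε : ℝ) (j : ℕ), 0 < ε → ∃ Z₀ : ℕ, ∀ Z ≥ Z₀, ∃ P : Par, P.Z = Z ∧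
      ∀ S : MAS (P.Q C) (μY n μ P.β P.m), Gen S →
        (∀ γ : Γ, (P.Q C).Aut fun y => (γ • y.1, y.2)) → P.Dom S K →
        ∃ s, R8 P S s (fun i => (T i).core) (fun i => (T i).sh) j R ε

end Vale.Agent.P284Y
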