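import Vale.Agent.P284Y.Y.R41
import Vale.Agent.P284Y.Y.R61
import Vale.Agent.P284Y.Y.R8
import Vale.Agent.P284Y.Y9.Par

/-!
# P284Y, block Y: what the other rows use of `R41`
-/

set_option linter.all false

open scoped ContDiff Topology ComplexOrder ENNReal Matrix
open Filter Set Function Metric MeasureTheory

noncomputable section

namespace Vale.Agent.P284Y

open Vale.Agent.P272.K Vale.Agent.P284Z Vale.Agent.P284Z.J

variable {n : ℕ} {Γ E : Type} [Group Γ] [TopologicalSpace E] [MulAction Γ E] {C : Cov n Γ E}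

theorem Pb.Box_mono (b : Pb C) {r r' t t' : ℝ} (h0 : 0 ≤ r) (h : r ≤ t) (h' : r' ≤ t') :
    b.Box r r' ⊆ b.Box t t' := by
  rintro y ⟨⟨u, h1, h2⟩, h3⟩
  exact ⟨⟨u, h1.trans (pow_le_pow_left₀ h0 h 2), h2⟩,
    h3.trans (mul_le_mul_of_nonneg_right h' (Real.exp_pos _).le)⟩

theorem Pb.Ok.s_pos {b : Pb C} {P : Par} (h : b.Ok P) : 0 < b.s := P.lo_pos.trans_le h.lo

theorem Pb.Ok.s'_pos {b : Pb C} {P : Par} (h : b.Ok P) : 0 < b.s' := by
  linarith [P.le_sw h.s_pos.le, h.lo', h.s_pos]

theorem Pb.W_mono {b : Pb C} {P : Par} {l l' : ℝ} (h : ∀ y, 0 ≤ b.p P y) (hl : l ≤ l') :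
    b.W P l ≤ b.W P l' := fun y =>
  mul_le_mul_of_nonneg_right (Real.exp_le_exp.2 hl) (h y)

variable [MeasurableSpace E] {μ : Measure (E × ℂ)} {P : Par} {S : MAS (P.Q C) μ} {K : ℝ}

namespace R41

/-- domination on the box -/
theorem dom₀ (h : R41 P S K) {b : Pb C} {lam : ℝ} {ν : E × ℂ → ℝ} (hb : b.Ok P)
    (hl : lam ≤ 4 * (P.t * b.s)) (hν : (P.Q C).Dens ν) (hle : b.W P lam ≤ ν) {y : E × ℂ}
    (hy : y ∈ b.Box (1 + P.q) 4) : S.φ ν y ≤ -lam + K * P.B := by
  rcases le_total lam 0 with h0 | h0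
  · linarith [S.nonpos ν hν y, mul_nonneg (zero_le_one.trans h.K_ge) P.B_pos.le]
  · simpa using h.dom b lam 0 0 ν hb h0 hl hν hle le_rfl (by linarith [hb.s_pos]) le_rfl
      (by linarith [hb.s'_pos]) y (by simpa using hy)

theorem box11 (b : Pb C) : b.Box 1 1 ⊆ b.Box (1 + P.q) 4 :=
  b.Box_mono zero_le_one (by linarith [P.q_pos]) (by norm_num)

theorem dom8 (h : R41 P S K) : P.Dom S K := fun b hb ν hν hle u v hu hv =>
  h.dom₀ hb (by linarith [mul_pos P.t_pos hb.s_pos]) hν hle (box11 b ⟨⟨u, by simpa using hu, rfl⟩, by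
    simp only [add_sub_cancel_left, norm_mul, Complex.norm_real, Real.norm_eq_abs, Real.abs_exp,
      one_mul]
    exact mul_le_of_le_one_right (Real.exp_pos _).le hv⟩)

theorem i58 (h : R41 P S K) : I58 P S K where
  ins b hb u hu := by
    have := (h.inn b hb).2 (Fin.cons 0 u) (by
      rw [pi_norm_le_iff_of_nonneg zero_le_one, Fin.forall_fin_succ]
      exact ⟨by simp, fun i => (norm_le_pi_norm u i).trans hu⟩)
    refine Eq.mp (congrArg (· ∈ C.B 4 b.a) ?_) this
    ext i
    simp [Fin.tail, Pb.A, bd, Matrix.mulVec, dotProduct, Fin.sum_univ_succ]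
  dom b ν lam hb hν hl hle y hy :=
    h.dom₀ hb (by linarith [mul_pos P.t_pos hb.s_pos]) hν hle (box11 b (h.supp b hb y hy))
  mass b Λ hb hΛ := by
    have := mul_pos P.t_pos hb.s_pos
    rw [← mul_div_assoc]
    exact h.slope b Λ Λ 0 hb (by linarith [hΛ.1]) (by linarith [hΛ.2]) (by linarith [hΛ.1])
      ⟨fun y i z _ _ => contDiffAt_const, fun _ => le_rfl, HasCompactSupport.zero⟩
  bar J T b lam hb hc hl hs y hy := by
    have hd : ∀ s : Finset J, s ⊆ T → (P.Q C).Dens (∑ j ∈ s, (b j).W P lam) := fun s hs => by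
      classical
      induction s using Finset.induction_on with
      | empty => exact ⟨fun y i z _ _ => contDiffAt_const, fun _ => le_rfl, HasCompactSupport.zero⟩
      | insert j s hj ih =>
        rw [Finset.sum_insert hj]
        have h1 := h.densW _ lam (hb j (hs (Finset.mem_insert_self _ _)))
        have h2 := ih fun _ hx => hs (Finset.mem_insert_of_mem hx)
        exact ⟨fun y i z hz e => (h1.sm y i z hz e).add (h2.sm y i z hz e),
          fun y => add_nonneg (h1.nonneg y) (h2.nonneg y), h1.cpt.add h2.cpt⟩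
    exact (h.low J T b (fun j => P.t * (b j).s) _ (hd T subset_rfl)
      (fun j hj => ⟨hb j hj, (mul_pos P.t_pos (hb j hj).s_pos).le⟩) (by omega)
      (by linarith [P.B_pos]) (Finset.sum_le_sum fun j hj =>
        Pb.W_mono (h.dens _ (hb j hj)).1.nonneg (hl j hj))).2 y hy

theorem i61 (h : R41 P S K) : I61 P S (max K 11) where
  rot u hu := by
    have := h.aut 1 u 0 hu
    rwa [show isoY (1 : Γ) u 0 = fun y : E × ℂ => (y.1, u * y.2) from
      funext fun y => by simp [isoY]] at this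
  dens b hb := (h.dens b hb).1
  supp b hb y hy := by
    have h1 := (h.supp b hb y hy).2
    rw [one_mul] at h1
    refine (pow_le_pow_left₀ (norm_nonneg _) h1 2).trans_eq ?_
    rw [← Real.exp_nat_mul]
    congr 1
    push_cast
    ring
  inv b hb h0 u hu y := by
    have := h.sym b 1 u 0 y hb hu
    simp only [isoY, one_smul, one_mul, add_zero, h0, mul_zero] at this
    rw [← this, ← h0]
  sup b hb y := (h.sup b hb y).1.trans (Real.exp_le_exp.2 (by
    gcongr
    exacts [hb.s_pos.le, le_max_left _ _]))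
  glu b lam hb hl := h.glu b lam 1 _ _ hb.ok zero_le_one (by norm_num)
    (by rwa [one_mul, hb.sw, P.B_mul_sw]) (Real.exp_pos _) (by simp [hb.w0, (Real.exp_pos _).le])
    (by
      rw [Real.exp_neg, ← one_div]
      exact one_div_lt_one_div_of_lt two_pos (by linarith [Real.add_one_le_exp 4]))
    (by
      rw [Real.log_pow, Real.log_exp]
      push_cast
      linarith [P.B_pos])
  low b lam M hb hl hM y hy := by
    have hB := P.B_pos
    have hs := hb.ok.s'_pos
    have h1 := h.low Unit Finset.univ (fun _ => b) (fun _ => P.t * b.s) _ (h.densW b lam hb.ok)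
      (fun _ _ => ⟨hb.ok, (mul_pos P.t_pos hb.ok.s_pos).le⟩) (by simp; linarith [P.Z_ge])
      (by
        rw [Finset.univ_unique, Finset.sum_singleton, ← P.B_mul_sw, ← hb.sw,
          mul_div_cancel_right₀ _ hs.ne']
        linarith)
      (by simpa using Pb.W_mono (h.dens _ hb.ok).1.nonneg hl)
    have h2 := mul_le_mul_of_nonneg_right (le_max_right K 11) hB.le
    have h3 := mul_nonneg hB.le hM
    rcases lt_or_ge ‖y.2‖ (1 / 2) with h4 | h4
    · have h5 := h1.1 y h4
      rw [Finset.univ_unique, Finset.sum_singleton, ← P.B_mul_sw, ← hb.sw,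
        mul_div_cancel_right₀ _ hs.ne', hb.w0, sub_zero] at h5
      have h6 : -M ≤ Real.log (‖y.2‖ ^ 2 + Real.exp (-b.s')) :=
        (Real.le_log_iff_exp_le (by positivity)).2 (by linarith [Real.exp_pos (-b.s')])
      have h7 : ‖y.2‖ ^ 2 ≤ 1 / 4 := by nlinarith [norm_nonneg y.2]
      nlinarith
    · linarith [h1.2 y h4, P.one_le_B]
  poly b lam hb hl := (h.mass b lam hb.ok (by linarith [mul_pos P.t_pos hb.ok.s_pos])).trans
    (Real.exp_le_exp.2 (div_le_div_of_nonneg_left P.B_pos.le (by norm_num)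
      (by linarith [P.Z_ge'])))

end R41

end Vale.Agent.P284Y
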