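import Vale.Agent.P284Y.Y.R41

/-!
# P284Y, block Y: changes of charts for the probes (statement)
-/

open scoped Matrix

noncomputable section

namespace Vale.Agent.P284Y

open Vale.Agent.P272.K Vale.Agent.P284Z Vale.Agent.P284Z.J

/-- the fields `jac` and `geo` of `R41a` -/
def StGeo : Prop :=
  ∀ (n : ℕ) (Γ E : Type) [Group Γ] [TopologicalSpace E] [T2Space E] [MulAction Γ E]
    (C : Cov n Γ E), ∃ K₀ : ℝ, ∃ Z₀ : ℕ,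
    (∀ K, K₀ ≤ K → ∀ γ a γ' a', ∀ x ∈ C.B 3 a, ∀ x' ∈ C.B 3 a', C.pt γ a x = C.pt γ' a' x' →
      Fr K (jm (C.tr (γ'⁻¹ * γ) a a') x)) ∧
    ∀ P : Par, Z₀ ≤ P.Z → ∀ (b b' : Pb C) (r r' : ℝ), b.Ok P → b'.Ok P → b'.s = b.s →
      C.pt b.γ b.a b.x = C.pt b'.γ b'.a b'.x → 1 ≤ r' →
      (∀ u, nsq u ≤ r ^ 2 → ∃ u', nsq u' ≤ r' ^ 2 ∧
        jm (C.tr (b'.γ⁻¹ * b.γ) b.a b'.a) b.x *ᵥ (b.ξ *ᵥ u) = b'.ξ *ᵥ u') → 0 ≤ r → r ≤ 2 →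
      ∀ u, nsq u ≤ r ^ 2 → ∃ u', nsq u' ≤ ((1 + P.q) * r') ^ 2 ∧
        C.pt b.γ b.a (b.z u) = C.pt b'.γ b'.a (b'.z u')

end Vale.Agent.P284Y
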