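import Vale.Agent.P284Y.Y.Defs

/-!
# P284Y, block Y: the rows HD, H, E4, E3' (statements)
-/

open scoped ContDiff Topology ComplexOrder ENNReal Matrix
open Filter Set Function Metric MeasureTheory

noncomputable section

namespace Vale.Agent.P284Y

open Vale.Agent.P272.K Vale.Agent.P284Z Vale.Agent.P284Z.J

variable {n : ℕ} {Γ E : Type} [Group Γ] [TopologicalSpace E] [MulAction Γ E] {C : Cov n Γ E}

/-- the probe moved to the disc with centre `τ` and scale `s'` -/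
def Pb.mv (b : Pb C) (τ : ℂ) (s' : ℝ) : Pb C := { b with w := τ, s' := s' }

/-- the primitive root of unity of order `2 N` -/
def om (N : ℕ) : ℂ := Complex.exp (Real.pi / N * Complex.I)

variable [MeasurableSpace E] {μ : Measure (E × ℂ)}

/-- what the rows use from Y1, Y2, Y3 -/
structure I58 (P : Par) (S : MAS (P.Q C) μ) (K : ℝ) : Prop where
  /-- the ellipsoid lies in the chart -/
  ins : ∀ b : Pb C, b.Ok P → ∀ u : Cm n, ‖u‖ ≤ 1 →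
    b.x + (((Real.exp (-(b.s / 2)) : ℝ) : ℂ) • b.ξ) *ᵥ u ∈ C.B 4 b.a
  /-- domination on the support -/
  dom : ∀ (b : Pb C) ν lam, b.Ok P → (P.Q C).Dens ν → lam ≤ P.t * b.s → b.W P lam ≤ ν →
    ∀ y, b.p P y ≠ 0 → S.φ ν y ≤ -lam + K * P.B
  /-- the mass at the top weight -/
  mass : ∀ (b : Pb C) Λ, b.Ok P → Λ ∈ Icc (P.t * b.s / 2) (P.t * b.s) →
    S.msl 0 (b.p P) Λ ≤ K * (S.G (b.W P Λ) / Λ)
  /-- the barrier for point masses -/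
  bar : ∀ (J : Type) (T : Finset J) (b : J → Pb C) lam, (∀ j ∈ T, (b j).Ok P) → T.card ≤ 2 * P.Z →
    (∀ j ∈ T, lam ≤ P.t * (b j).s) → ∑ j ∈ T, P.t * (b j).s / (b j).s' ≤ 2 * P.B →
    ∀ y : E × ℂ, 1 / 2 ≤ ‖y.2‖ → -2 ≤ S.φ (∑ j ∈ T, (b j).W P lam) y

/-- the rows; `c = G (b.W Λ) / sw` is the slope of the probe `b` -/
structure R58 (P : Par) (S : MAS (P.Q C) μ) (K : ℝ) : Prop where
  /-- translations in `w` -/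
  tr : ∀ (b : Pb C) τ lam, b.Ok P → S.G ((b.mv τ b.s').W P lam) = S.G (b.W P lam)
  /-- **HD** -/
  hd : ∀ (b : Pb C) (s₂ M' K' Λ : ℝ) ν, b.Ok P → b.w = 0 → b.s' = P.sw b.s → (b.mv 0 s₂).Ok P →
    0 ≤ M' → M' ≤ P.sw b.s / 4 → Λ ∈ Icc (P.t * b.s / 2) (P.t * b.s) → 0 ≤ K' →
    (P.Q C).Dens ν → (∀ y, ν y ≠ 0 → Real.exp (-M') ≤ ‖y.2‖ ^ 2) →
    (∀ z w w', ‖w‖ ^ 2 = Real.exp (-M') → ‖w'‖ ^ 2 = Real.exp (-M') →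
      S.φ ν (z, w) - K' ≤ S.φ (ν + b.W P Λ) (z, w')) →
    S.I ((b.mv 0 s₂).W P Λ) ν ≤ S.I (b.W P Λ) ν * ((P.sw b.s - M') / (s₂ - M')) +
      K * (K' / P.B + 1) * (S.G (b.W P Λ) / P.sw b.s + 1) + Real.exp (-P.B) * S.G ν
  /-- **H** -/
  h : ∀ (b : Pb C) τ (s₂ Λ : ℝ), b.Ok P → b.s' = P.sw b.s → (b.mv τ s₂).Ok P →
    Λ ∈ Icc (P.t * b.s / 2) (P.t * b.s) →
    |S.G ((b.mv τ s₂).W P Λ) - S.G (b.W P Λ) * (P.sw b.s / s₂)| ≤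
      K * P.Z * (S.G (b.W P Λ) / P.sw b.s + 1)
  /-- **E4** -/
  e4 : ∀ (b : Pb C) τ (N k : ℕ) (M Λ : ℝ), b.Ok P → b.s' = P.sw b.s → 1 ≤ N → N ≤ P.Z → N ≤ k →
    k ≤ 2 * N → M ∈ Icc P.M₀ (P.M₁ b.s) → ‖τ‖ ^ 2 = Real.exp (-M) →
    Λ ∈ Icc (P.t * b.s / 2) (P.t * b.s) →
    k * S.G ((b.mv τ (N * P.sw b.s)).W P Λ) -
        (k / N) ^ 2 * (1 + K / P.Z) * ((S.G (b.W P Λ) / P.sw b.s + 1) * M) ≤
      S.G (∑ i ∈ Finset.range k, (b.mv (τ * om N ^ i) (N * P.sw b.s)).W P Λ)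
  /-- **E3'** -/
  e3 : ∀ (b : Pb C) τ (N : ℕ) (M Λ : ℝ), b.Ok P → b.w = 0 → b.s' = P.sw b.s → 1 ≤ N → N ≤ P.Z →
    M ∈ Icc P.M₀ (P.M₁ b.s) → ‖τ‖ ^ 2 = Real.exp (-M) → Λ ∈ Icc (P.t * b.s / 2) (P.t * b.s) →
    S.I ((b.mv τ (N * P.sw b.s)).W P Λ) (b.W P Λ) ≤ S.G ((b.mv τ (N * P.sw b.s)).W P Λ) -
      2 * (S.G (b.W P Λ) / P.sw b.s * M / N) +
        K / P.Z * ((S.G (b.W P Λ) / P.sw b.s + 1) * M / N)

/-- the rows HD, H, E4, E3' -/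
def St58 : Prop :=
  ∀ K' : ℝ, ∃ (K : ℝ) (Z₀ : ℕ), 0 ≤ K ∧ ∀ (n : ℕ) (Γ E : Type) [Group Γ] [TopologicalSpace E]
    [T2Space E] [MulAction Γ E] [MeasurableSpace E] [BorelSpace E] (C : Cov n Γ E) (P : Par),
    Z₀ ≤ P.Z → ∀ (μ : Measure (E × ℂ)) (S : MAS (P.Q C) μ), Gen S → I58 P S K' → R58 P S K

end Vale.Agent.P284Y
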