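import Vale.Agent.P284Y.Y.S12.A
import Vale.Agent.P284Y.Y.R8

/-!
# P284Y, block Y, one stage: plurisubharmonicity, frames, charts, pins (statements)
-/

open scoped ContDiff Topology ComplexOrder ENNReal Matrix
open Filter Set Function Metric MeasureTheory

noncomputable section

namespace Vale.Agent.P284Y

open Vale.Agent.P272.K Vale.Agent.P284Z Vale.Agent.P284Z.J

variable {n : ℕ} {Γ E : Type} [Group Γ] [TopologicalSpace E] [MulAction Γ E] {C : Cov n Γ E}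
  [MeasurableSpace E] {μ : Measure (E × ℂ)}

namespace Par
variable (P : Par) (S : MAS (P.Q C) μ)

/-- the correction in `M` -/
def cor (N : ℕ) (s M : ℝ) : ℝ := P.Z * (P.U S s / (N * P.sw s)) * Real.exp (-M)

/-- the function which is minimised -/
def vM (N : ℕ) (κ s : ℝ) (a : C.I) (x : Cm n) (γ : Γ) (b : C.I) (y : Cm n) (ξ : Mx n) (M : ℝ) : ℝ :=
  (P.J S N s a x γ b y ξ M + P.cor S N s M - P.GG S s - P.GG S s / N +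
    2 * (P.cb S s / N) * (1 - κ) * M) * (s * N / P.GG S s)

/-- the two point function -/
def vv (N : ℕ) (κ s : ℝ) (a : C.I) (x : Cm n) (γ : Γ) (b : C.I) (y : Cm n) (ξ : Mx n) : ℝ :=
  sInf (P.vM S N κ s a x γ b y ξ '' Icc P.M₀ (P.M₁ s))

/-- the lower bound which is needed for the pins -/
def Low (s : ℝ) : Prop :=
  ∀ (N : ℕ) a x γ b y, 1 ≤ N → N ≤ P.Z → x ∈ C.B (5 / 2) a → P.Good S s b y →
    ∀ M ∈ Icc P.M₀ (P.M₁ s), (1 - (P.Z : ℝ)⁻¹) * (P.GG S s * P.sw s / (N * P.sw s)) ≤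
      S.I (P.atw C N s γ b y 1 (Real.exp (-(M / 2)) : ℝ)) (P.at0 C s 1 a x 1)

end Par

/-- the rows without the pins -/
structure R87 (P : Par) (S : MAS (P.Q C) μ) (s K : ℝ) : Prop where
  f_cont : ∀ a ξ, Fr (s / 8) ξ → ContinuousOn (fun z => P.f S s a z ξ) (C.B (5 / 2) a)
  f_psh : ∀ a ξ, Fr (s / 8) ξ → Psh (fun z => P.f S s a z ξ + P.q * nsq z) (C.B (5 / 2) a)
  f_mono : ∀ a ξ, Fr (s / 8) ξ → (∀ u, nsq (ξ *ᵥ u) ≤ nsq u) → ∀ z ∈ C.B (5 / 2) a,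
    P.f S s a z ξ ≤ P.f S s a z 1 + P.Z * P.q
  f_ch : ∀ γ a γ' b, ∀ z ∈ C.B (5 / 2) a, ∀ z' ∈ C.B (5 / 2) b, C.pt γ a z = C.pt γ' b z' →
    P.f S s a z 1 ≤ P.f S s b z' 1 + 7 * K ^ 3
  J_cvx : ∀ (N : ℕ) a γ b ξ, 1 ≤ N → N ≤ P.Z → Fr (s / 8) ξ → ∀ x ∈ C.B (5 / 2) a,
    ∀ y ∈ C.B (5 / 2) b, ConvexOn ℝ (Ioi 9) (fun M => P.J S N s a x γ b y ξ M + P.cor S N s M) ∧
      ContinuousOn (P.vM S N 0 s a x γ b y ξ) (Ioi 9)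
  /-- the minimum is attained -/
  v_min : ∀ (N : ℕ) κ a γ b ξ, 1 ≤ N → N ≤ P.Z → Fr (s / 8) ξ → ∀ x ∈ C.B (5 / 2) a,
    ∀ y ∈ C.B (5 / 2) b, (∃ M ∈ Icc P.M₀ (P.M₁ s),
      P.vv S N κ s a x γ b y ξ = P.vM S N κ s a x γ b y ξ M) ∧
      ∀ M ∈ Icc P.M₀ (P.M₁ s), P.vv S N κ s a x γ b y ξ ≤ P.vM S N κ s a x γ b y ξ M
  v_cont : ∀ (N : ℕ) κ a γ b ξ, 1 ≤ N → N ≤ P.Z → Fr (s / 8) ξ →
    ContinuousOn (fun q : Cm n × Cm n => P.vv S N κ s a q.1 γ b q.2 ξ)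
      (C.B (5 / 2) a ×ˢ C.B (5 / 2) b)
  v_psh : ∀ (N : ℕ) κ a γ b ξ, 1 ≤ N → N ≤ P.Z → Fr (s / 8) ξ →
    Psh (fun q : Cm n × Cm n => P.vv S N κ s a q.1 γ b q.2 ξ + P.Z * P.q * (nsq q.1 + nsq q.2))
      (C.B (5 / 2) a ×ˢ C.B (5 / 2) b)
  v_mono : ∀ (N : ℕ) κ a γ b ξ, 1 ≤ N → N ≤ P.Z → Fr (s / 8) ξ → (∀ u, nsq (ξ *ᵥ u) ≤ nsq u) →
    ∀ x ∈ C.B (5 / 2) a, ∀ y ∈ C.B (5 / 2) b,
      P.vv S N κ s a x γ b y ξ ≤ P.vv S N κ s a x γ b y 1 + P.Z * P.q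
  v_ch : ∀ (N : ℕ) κ g a a' γ γ' b b', 1 ≤ N → N ≤ P.Z → ∀ x ∈ C.B (5 / 2) a,
    ∀ x' ∈ C.B (5 / 2) a', ∀ y ∈ C.B (5 / 2) b, ∀ y' ∈ C.B (5 / 2) b', C.pt 1 a x = C.pt g a' x' →
    C.pt γ b y = C.pt (g * γ') b' y' →
    P.vv S N κ s a x γ b y 1 ≤ P.vv S N κ s a' x' γ' b' y' 1 + 10 * K ^ 3 * (N + 1)

/-- the pins on `V` -/
structure R87p (P : Par) (S : MAS (P.Q C) μ) (s : ℝ) {p : ℕ} (V : Set E) (sh : E → Cm p)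
    (R ε : ℝ) : Prop where
  pin_f : ∀ γ a z ξ γ' b z' ξ', P.Good S s a z → z' ∈ C.B (5 / 2) b → Fr R ξ → Fr R ξ' →
    C.pt γ a z = C.pt γ' b z' → C.pt γ a z ∈ V →
    |(P.f S s a z ξ - ld (fun w => sh (C.pt γ a w)) z ξ) -
      (P.f S s b z' ξ' - ld (fun w => sh (C.pt γ' b w)) z' ξ')| ≤ 2 * ε
  pin_v : ∀ (N : ℕ) κ g a₀ x γ a z ξ γ' b z' ξ', 1 ≤ N → N ≤ P.Z → x ∈ C.B (5 / 2) a₀ →
    P.Good S s a z → z' ∈ C.B (5 / 2) b → Fr R ξ → Fr R ξ' → C.pt γ a z = C.pt γ' b z' →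
    C.pt (g * γ) a z ∈ V →
    |(P.vv S N κ s a₀ x γ a z ξ - ld (fun w => sh (C.pt (g * γ) a w)) z ξ) -
      (P.vv S N κ s a₀ x γ' b z' ξ' - ld (fun w => sh (C.pt (g * γ') b w)) z' ξ')| ≤ 2 * ε

/-- the rows -/
def St87 : Prop :=
  ∀ (n : ℕ) (Γ E : Type) [Group Γ] [TopologicalSpace E] [MulAction Γ E] [MeasurableSpace E]
    (C : Cov n Γ E) (μ : Measure (E × ℂ)) (P : Par) (S : MAS (P.Q C) μ) (s K₁ K₂ K₃ K : ℝ),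
    S12.Cx P S s K₁ K₂ K₃ K → R87 P S s K ∧
      ∀ (p : ℕ) (V : Set E) (sh : E → Cm p) (R ε : ℝ), 0 ≤ R → R ≤ s / 8 → P.Low S s →
        P.Pin S s V sh R ε → R87p P S s V sh R ε

end Vale.Agent.P284Y
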