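import Vale.Agent.P284Y.Spec
import Vale.Agent.P284Y.Y9.Spec
import Vale.Agent.P284Y.Y.R41I
import Vale.Agent.P284Y.Y.R61

/-!
# P284Y, block Y: the levels, the output of one stage, and the assembly
-/

open scoped ContDiff Topology ComplexOrder ENNReal Matrix
open Filter Set Function Metric MeasureTheory

noncomputable section

namespace Vale.Agent.P284Y

open Vale.Agent.P272.K Vale.Agent.P284Z Vale.Agent.P284Z.J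

/-- The constants of the levels: `θ = 1 / N`, `κ = ρ ^ 2 / 4`, `ε = ρ ^ 2 / 32`; so `θ ≤ ρ`,
`8 K θ ≤ ε`, `30 ρ (l + 1) ≤ θ κ`, `N l + 1 ≤ κ N (l + 1)`. -/
structure Lvl (K : ℝ) where
  N : ℕ → ℕ
  ρ : ℕ → ℝ
  N_pos : ∀ l, 1 ≤ N l
  ρ_pos : ∀ l, 0 < ρ l
  ρ_le : ∀ l, ρ l ≤ 1 / 2
  th_le : ∀ l, 1 ≤ ρ l * N l
  K_le : ∀ l, 256 * K ≤ ρ l ^ 2 * N l
  succ : ∀ l, 120 * N l * ρ (l + 1) ≤ ρ l ^ 2
  N_succ : ∀ l, 4 * (N l + 1 : ℝ) ≤ ρ l ^ 2 * N (l + 1)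
  tend : Tendsto ρ atTop (𝓝 0)

theorem exists_lvl (K : ℝ) : Nonempty (Lvl K) := by
  obtain ⟨F, hF⟩ : ∃ F : ℝ → ℕ, F = fun r => ⌈max (1 / r) (256 * K / r ^ 2)⌉₊ + 1 := ⟨_, rfl⟩
  obtain ⟨ρ, h0, hs⟩ : ∃ ρ : ℕ → ℝ, ρ 0 = 1 / 2 ∧ ∀ l, ρ (l + 1) = ρ l ^ 2 / (120 * F (ρ l)) :=
    ⟨fun l => Nat.rec (1 / 2) (fun _ r => r ^ 2 / (120 * F r)) l, rfl, fun _ => rfl⟩
  have f1 : ∀ r, (1 : ℝ) ≤ F r := fun r => by simp [hF]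
  have f2 : ∀ r : ℝ, max (1 / r) (256 * K / r ^ 2) ≤ F r := fun r =>
    (Nat.le_ceil _).trans (by simp [hF])
  have hp : ∀ l, 0 < ρ l := fun l => by
    induction l with
    | zero => rw [h0]; norm_num
    | succ l ih => rw [hs]; have := f1 (ρ l); positivity
  have su : ∀ l, 120 * F (ρ l) * ρ (l + 1) = ρ l ^ 2 := fun l => by
    have := f1 (ρ l)
    rw [hs]
    field_simp
  have hh : ∀ l, ρ l ≤ 1 / 2 → ρ (l + 1) ≤ 1 / 2 * ρ l := fun l h => by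
    nlinarith [su l, f1 (ρ l), hp l, hp (l + 1), mul_le_mul_of_nonneg_right (f1 (ρ l)) (hp (l + 1)).le]
  have hl : ∀ l, ρ l ≤ 1 / 2 * (1 / 2) ^ l := fun l => by
    induction l with
    | zero => simp [h0]
    | succ l ih =>
      have : (1 / 2 : ℝ) ^ l ≤ 1 := pow_le_one₀ (by norm_num) (by norm_num)
      rw [pow_succ]
      linarith [hh l (by linarith)]
  have h2 : ∀ l, ρ l ≤ 1 / 2 := fun l => (hl l).trans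
    (mul_le_of_le_one_right (by norm_num) (pow_le_one₀ (by norm_num) (by norm_num)))
  have th : ∀ l, 1 ≤ ρ l * F (ρ l) := fun l =>
    (div_le_iff₀' (hp l)).1 ((le_max_left _ _).trans (f2 _))
  refine ⟨⟨fun l => F (ρ l), ρ, fun l => by simp [hF], hp, h2, th, fun l =>
    (div_le_iff₀' (pow_pos (hp l) 2)).1 ((le_max_right _ _).trans (f2 _)), fun l => (su l).le,
    fun l => ?_, ?_⟩⟩
  · rw [← su l, mul_assoc]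
    nlinarith [th (l + 1), f1 (ρ l), mul_le_mul_of_nonneg_left (th (l + 1))
      (zero_le_one.trans (f1 (ρ l)))]
  · refine squeeze_zero (fun l => (hp l).le) hl ?_
    simpa only [mul_zero] using (tendsto_pow_atTop_nhds_zero_of_lt_one (r := (1 / 2 : ℝ))
      (by norm_num) (by norm_num)).const_mul (1 / 2)

variable {n : ℕ} {Γ E : Type} [Group Γ] [TopologicalSpace E] [MulAction Γ E] {C : Cov n Γ E}

/-- the fields of `YD` at the stage `j` -/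
structure YS (Y : YF C) {p : ℕ} (V : ℕ → Set E) (sh : ℕ → E → Cm p) (j : ℕ) : Prop where
  f_cont : ∀ a ξ, Fr (Y.R j) ξ → ContinuousOn (fun z => Y.f j a z ξ) (C.B (5 / 2) a)
  f_psh : ∀ a ξ, Fr (Y.R j) ξ → Psh (fun z => Y.f j a z ξ + Y.e j * nsq z) (C.B (5 / 2) a)
  f_le : ∀ a, ∀ z ∈ C.B (5 / 2) a, Y.f j a z 1 ≤ 0
  f_mono : ∀ a ξ, Fr (Y.R j) ξ → (∀ u, nsq (ξ *ᵥ u) ≤ nsq u) → ∀ z ∈ C.B (5 / 2) a,
    Y.f j a z ξ ≤ Y.f j a z 1 + Y.e j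
  f_top : ∃ a, ∃ z ∈ C.B 1 a, -Y.K ≤ Y.f j a z 1
  f_ch : ∀ γ a b, ∀ z ∈ C.B (5 / 2) a, ∀ z' ∈ C.B (5 / 2) b, C.pt γ a z = C.pt 1 b z' →
    Y.f j a z 1 ≤ Y.f j b z' 1 + Y.K
  v_cont : ∀ l, l ≤ j → ∀ a γ b ξ, Fr (Y.R j) ξ →
    ContinuousOn (fun q : Cm n × Cm n => Y.v l j a q.1 γ b q.2 ξ) (C.B (5 / 2) a ×ˢ C.B (5 / 2) b)
  v_psh : ∀ l, l ≤ j → ∀ a γ b ξ, Fr (Y.R j) ξ →
    Psh (fun q : Cm n × Cm n => Y.v l j a q.1 γ b q.2 ξ + Y.e j * (nsq q.1 + nsq q.2))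
      (C.B (5 / 2) a ×ˢ C.B (5 / 2) b)
  v_le : ∀ l, l ≤ j → ∀ a γ b ξ, Fr (Y.R j) ξ → ∀ x ∈ C.B (5 / 2) a, ∀ y ∈ C.B (5 / 2) b,
    Y.v l j a x γ b y ξ ≤ Y.N l * Y.f j a x 1 + Y.f j b y ξ + Y.e j
  v_mono : ∀ l, l ≤ j → ∀ a γ b ξ, Fr (Y.R j) ξ → (∀ u, nsq (ξ *ᵥ u) ≤ nsq u) →
    ∀ x ∈ C.B (5 / 2) a, ∀ y ∈ C.B (5 / 2) b, Y.v l j a x γ b y ξ ≤ Y.v l j a x γ b y 1 + Y.e j
  v_ch : ∀ l, l ≤ j → ∀ g a a' γ γ' b b', ∀ x ∈ C.B (5 / 2) a, ∀ x' ∈ C.B (5 / 2) a',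
    ∀ y ∈ C.B (5 / 2) b, ∀ y' ∈ C.B (5 / 2) b', C.pt 1 a x = C.pt g a' x' →
    C.pt γ b y = C.pt (g * γ') b' y' → Y.v l j a x γ b y 1 ≤ Y.v l j a' x' γ' b' y' 1 + Y.Kl l
  chain : ∀ l, l + 1 ≤ j → ∀ (γ : Fin 4 → Γ) (a : Fin 4 → C.I) (x : Fin 4 → Cm n),
    (∀ i, Y.Good j (a i) (x i)) →
    Y.ut l j (γ 0) (a 0) (x 0) (γ 3) (a 3) (x 3) ≤
      max (Y.ut (l + 1) j (γ 0) (a 0) (x 0) (γ 1) (a 1) (x 1))
        (max (Y.ut (l + 1) j (γ 1) (a 1) (x 1) (γ 2) (a 2) (x 2))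
          (Y.ut (l + 1) j (γ 2) (a 2) (x 2) (γ 3) (a 3) (x 3))) + Y.Kl l
  mono : ∀ l, l + 1 ≤ j → ∀ γ a x γ' b y, Y.Good j a x → Y.Good j b y →
    Y.ut l j γ a x γ' b y ≤ Y.ut (l + 1) j γ a x γ' b y + Y.Kl l
  pole : ∀ l, l ≤ j → ∀ a, ∀ x ∈ C.B 2 a, ∀ y ∈ C.B 2 a, ∀ r > (0 : ℝ), ‖x - y‖ ≤ r →
    Y.v l j a x 1 a y 1 ≤ max (Y.c l * Real.log r) (-(Y.c l * Y.L j)) + Y.Kl l
  m_nonneg : ∀ a z g, 0 ≤ Y.m j a z g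
  m_sum : ∀ a z, Y.Good j a z → HasSum (Y.m j a z) 1
  reiter : ∀ l, l ≤ j → ∀ a x γ b y, Y.Good j a x → Y.Good j b y →
    Y.u l j a x γ b y ≤ -1 → ∑' g, |Y.m j a x g - Y.m j b y (γ⁻¹ * g)| ≤ Y.η l
  pin_f : ∀ i, i ≤ j → ∀ γ a z ξ γ' b z' ξ', Y.Good j a z → z' ∈ C.B (5 / 2) b →
    Fr (Y.R j) ξ → Fr (Y.R j) ξ' → C.pt γ a z = C.pt γ' b z' → C.pt γ a z ∈ V i →
    |(Y.f j a z ξ - ld (fun w => sh i (C.pt γ a w)) z ξ) -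
      (Y.f j b z' ξ' - ld (fun w => sh i (C.pt γ' b w)) z' ξ')| ≤ Y.e j
  pin_v : ∀ l i, l ≤ j → i ≤ j → ∀ g a₀ x γ a z ξ γ' b z' ξ', Y.Good j a₀ x →
    Y.Good j a z → z' ∈ C.B (5 / 2) b → Fr (Y.R j) ξ → Fr (Y.R j) ξ' →
    C.pt γ a z = C.pt γ' b z' → C.pt (g * γ) a z ∈ V i →
    |(Y.v l j a₀ x γ a z ξ - ld (fun w => sh i (C.pt (g * γ) a w)) z ξ) -
      (Y.v l j a₀ x γ' b z' ξ' - ld (fun w => sh i (C.pt (g * γ') b w)) z' ξ')| ≤ Y.e j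

/-- the data of one stage, as a constant family -/
def YF.one (N : ℕ → ℕ) (c η : ℕ → ℝ) (K : ℝ) (Kl : ℕ → ℝ) (e L R : ℝ)
    (f : C.I → Cm n → Mx n → ℝ) (v : ℕ → C.I → Cm n → Γ → C.I → Cm n → Mx n → ℝ)
    (m : C.I → Cm n → Γ → ℝ) : YF C :=
  ⟨N, c, η, K, Kl, fun _ => e, fun _ => L, fun _ => R, fun _ => f, fun l _ => v l, fun _ => m⟩

/-- all the stages together -/
def YD.ofYS {p : ℕ} {V : ℕ → Set E} {sh : ℕ → E → Cm p} (Y : YF C) (h : ∀ j, YS Y V sh j)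
    (h₁ : ∀ l, 1 ≤ Y.N l) (h₂ : ∀ l, 0 < Y.c l) (h₃ : Tendsto Y.η atTop (𝓝 0))
    (h₄ : ∀ j, 0 < Y.e j) (h₅ : Tendsto Y.e atTop (𝓝 0)) (h₆ : Tendsto Y.L atTop atTop)
    (h₇ : ∀ j, 0 ≤ Y.R j) (h₈ : Tendsto Y.R atTop atTop) : YD C V sh where
  toYF := Y
  N_pos := h₁
  c_pos := h₂
  η_tend := h₃
  e_pos := h₄
  e_tend := h₅
  L_tend := h₆
  R_nonneg := h₇
  R_tend := h₈
  f_cont j := (h j).f_cont
  f_psh j := (h j).f_psh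
  f_le j := (h j).f_le
  f_mono j := (h j).f_mono
  f_top j := (h j).f_top
  f_ch j := (h j).f_ch
  v_cont l j := (h j).v_cont l
  v_psh l j := (h j).v_psh l
  v_le l j := (h j).v_le l
  v_mono l j := (h j).v_mono l
  v_ch l j := (h j).v_ch l
  chain l j := (h j).chain l
  mono l j := (h j).mono l
  pole l j := (h j).pole l
  m_nonneg j := (h j).m_nonneg
  m_sum j := (h j).m_sum
  reiter l j := (h j).reiter l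
  pin_f l j := (h j).pin_f l
  pin_v l i j := (h j).pin_v l i

/-- **one stage** -/
def St12 : Prop :=
  ∀ (n : ℕ) (Γ E : Type) [Group Γ] [Countable Γ] [TopologicalSpace E] [T2Space E]
    [MulAction Γ E] [MeasurableSpace E] [BorelSpace E] (C : Cov n Γ E) (K₁ K₂ K₃ : ℝ),
    ∃ K₀ K : ℝ, ∀ Λ : Lvl K₀, ∃ c η Kl : ℕ → ℝ, (∀ l, 0 < c l) ∧ Tendsto η atTop (𝓝 0) ∧
      ∀ (j : ℕ) (R e : ℝ), 0 ≤ R → 0 < e → ∃ Z₀ : ℕ, ∀ P : Par, Z₀ ≤ P.Z →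
        ∀ (μ : Measure (E × ℂ)) (S : MAS (P.Q C) μ) (s : ℝ) (p : ℕ) (V : ℕ → Set E)
          (sh : ℕ → E → Cm p), Gen S → R41 P S K₁ → R58 P S K₂ → R61 P S K₃ →
          R8 P S s V sh j R (e / 4) →
          ∃ v m, YS (YF.one Λ.N c η K Kl e (P.L s) R (P.f S s) v m : YF C) V sh j

theorem stY_of (hJ : StJ) (h0 : StY0) (hPG : StPG) (hG : StGen) (h41 : St41) (h58 : St58) (h61 : St61)
    (h8 : Y9.St8') (h12 : St12) : StY := by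
  intro n Γ E _ _ _ _ _ _ _ C F T _ hs
  borelize E
  obtain ⟨μ, hμ⟩ := (hJ.2.2.2 n Γ E C).2.vol
  obtain ⟨K₁, Z₁, r₁⟩ := h41 n Γ E C
  obtain ⟨K₂, Z₂, -, r₂⟩ := h58 K₁
  obtain ⟨K₃, Z₃, -, r₃⟩ := h61 n K₁ K₂ (max K₁ 11)
  obtain ⟨K₀, K, h⟩ := h12 n Γ E C K₁ K₂ K₃
  obtain ⟨Λ⟩ := exists_lvl K₀
  obtain ⟨c, η, Kl, hc, hη, h⟩ := h Λ
  have key : ∀ j : ℕ, ∃ L f v m, (j : ℝ) ≤ L ∧ YS (YF.one Λ.N c η K Kl (1 / (j + 1 : ℝ)) L j f v m :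
      YF C) (fun i => core (T i)) (fun i => (T i).sh) j := fun j => by
    have e0 : (0 : ℝ) < 1 / (j + 1 : ℝ) := by positivity
    obtain ⟨Z₄, r₄⟩ := h j j _ j.cast_nonneg e0
    obtain ⟨Z₅, r₅⟩ := h8 n Γ E C μ F T hμ hs K₁ j (1 / (j + 1 : ℝ) / 4) j (by positivity)
    obtain ⟨P, hZ, r₅⟩ := r₅ (Z₁ + Z₂ + Z₃ + Z₄ + Z₅ + j) (by omega)
    obtain ⟨⟨S⟩, -⟩ := h0 n Γ E C μ P.β P.m hμ P.β_pos P.m_pos
    have g : Gen S := hG _ _ _ _ S (hPG _ _ _ _ S.ok S.vol)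
    have a₁ := r₁ P (by omega) _ S g
    have a₂ := r₂ n Γ E C P (by omega) _ S g a₁.i58
    have a₃ := r₃ Γ E C P (by omega) _ S g a₁.i58 a₂ a₁.i61
    obtain ⟨s, a₅⟩ := r₅ S g a₁
    obtain ⟨v, m, a₄⟩ := r₄ P (by omega) _ S s _ _ _ g a₁ a₂ a₃ a₅
    refine ⟨_, _, v, m, le_trans ?_ (P.Z_le_lo.trans a₅.stg.lo), a₄⟩
    exact_mod_cast (by omega : j ≤ P.Z)
  choose L f v m hL hY using key
  exact ⟨YD.ofYS ⟨Λ.N, c, η, K, Kl, fun j => 1 / (j + 1 : ℝ), L, fun j => j, f, fun l j => v j l, m⟩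
    (fun j => { hY j with }) Λ.N_pos hc hη (fun j => by positivity)
    tendsto_one_div_add_atTop_nhds_zero_nat (tendsto_atTop_mono hL tendsto_natCast_atTop_atTop)
    (fun j => j.cast_nonneg) tendsto_natCast_atTop_atTop⟩

end Vale.Agent.P284Y
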