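import Vale.Agent.P284Y.Y.S41p

/-!
# P284Y, block Y: geometry of the probes
-/

set_option linter.all false

open scoped ContDiff Topology ComplexOrder ENNReal Matrix
open Filter Set Function Metric MeasureTheory

noncomputable section

namespace Vale.Agent.P284Y

open Vale.Agent.P272.K Vale.Agent.P284Z Vale.Agent.P284Z.J

namespace S41

variable {n : ℕ}

/-- the quadratic form of a matrix -/
def qf (M : Mx n) (x : Cm n) : ℝ := (star x ⬝ᵥ M.mulVec x).re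

theorem qf_cont : Continuous fun p : Mx n × Cm n => qf p.1 p.2 :=
  Complex.continuous_re.comp ((continuous_star.comp continuous_snd).dotProduct
    (continuous_fst.matrix_mulVec continuous_snd))

theorem qf_smul (M : Mx n) (c : ℝ) (x : Cm n) : qf M ((c : ℂ) • x) = c * (c * qf M x) := by
  simp only [qf, star_smul, Matrix.mulVec_smul, smul_dotProduct, dotProduct_smul, smul_eq_mul,
    Complex.star_def, Complex.conj_ofReal, Complex.re_ofReal_mul]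

theorem qf_sub (A B : Mx n) (c : ℝ) (x : Cm n) :
    qf ((c : ℂ) • B - A) x = c * qf B x - qf A x := by
  simp only [qf, Matrix.sub_mulVec, Matrix.smul_mulVec, dotProduct_sub, dotProduct_smul,
    smul_eq_mul, Complex.sub_re, Complex.re_ofReal_mul]

theorem psd_of_qf {M : Mx n} (hM : M.IsHermitian) (h : ∀ x, x ≠ 0 → 0 ≤ qf M x) :
    M.PosSemidef :=
  Matrix.PosSemidef.of_dotProduct_mulVec_nonneg hM fun x => by
    have him : (star x ⬝ᵥ M.mulVec x).im = 0 := by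
      refine Complex.conj_eq_iff_im.1 ?_
      change star (star x ⬝ᵥ _) = _
      rw [← Matrix.star_dotProduct, Matrix.star_mulVec, hM.eq, Matrix.dotProduct_mulVec]
    refine Complex.nonneg_iff.2 ⟨?_, him.symm⟩
    by_cases hx : x = 0
    · simp [hx]
    · exact h x hx

theorem exists_dom {Y : Type} [TopologicalSpace Y] {K : Set Y} (hK : IsCompact K)
    {A B : Y → Mx n} (hA : ContinuousOn A K) (hB : ContinuousOn B K)
    (h1 : ∀ z ∈ K, (A z).IsHermitian) (h2 : ∀ z ∈ K, (B z).PosDef) :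
    ∃ c : ℝ, 1 ≤ c ∧ ∀ z ∈ K, ((c : ℂ) • B z - A z).PosSemidef := by
  have hc : ∀ {X : Y → Mx n}, ContinuousOn X K →
      ContinuousOn (fun p : Y × Cm n => qf (X p.1) p.2) (K ×ˢ sphere 0 1) := fun {X} hX =>
    qf_cont.comp_continuousOn' (f := fun p : Y × Cm n => (X p.1, p.2))
      ((hX.comp continuousOn_fst fun _ h => h.1).prodMk continuousOn_snd)
  have hp : ∀ z ∈ K, ∀ x : Cm n, x ≠ 0 → 0 < qf (B z) x := fun z hz x hx =>
    (Complex.pos_iff.1 ((h2 z hz).dotProduct_mulVec_pos hx)).1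
  obtain ⟨c, hc⟩ := (hK.prod (isCompact_sphere (0 : Cm n) 1)).bddAbove_image
    ((hc hA).div (hc hB) fun p h => (hp _ h.1 _ (ne_zero_of_mem_unit_sphere ⟨_, h.2⟩)).ne')
  refine ⟨max c 1, le_max_right _ _, fun z hz => psd_of_qf
    ((psd_smul (h2 z hz).posSemidef (le_max_of_le_right zero_le_one)).isHermitian.sub (h1 z hz))
    fun x hx => ?_⟩
  have hn : 0 < ‖x‖⁻¹ := inv_pos.2 (norm_pos_iff.2 hx)
  have hm : ((‖x‖⁻¹ : ℝ) : ℂ) • x ∈ sphere (0 : Cm n) 1 := by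
    rw [mem_sphere_zero_iff_norm, norm_smul, Complex.norm_real, Real.norm_of_nonneg hn.le,
      inv_mul_cancel₀ (norm_ne_zero_iff.2 hx)]
  have h3 : qf (A z) (((‖x‖⁻¹ : ℝ) : ℂ) • x) / qf (B z) (((‖x‖⁻¹ : ℝ) : ℂ) • x) ≤ c :=
    hc ⟨(z, ((‖x‖⁻¹ : ℝ) : ℂ) • x), ⟨hz, hm⟩, rfl⟩
  rw [qf_smul, qf_smul, mul_div_mul_left _ _ hn.ne', mul_div_mul_left _ _ hn.ne',
    div_le_iff₀ (hp z hz x hx)] at h3
  rw [qf_sub]
  exact sub_nonneg.2 (h3.trans (mul_le_mul_of_nonneg_right (le_max_left c 1) (hp z hz x hx).le))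

variable {Γ E : Type} [Group Γ] [TopologicalSpace E] [MulAction Γ E] {C : Cov n Γ E}

/-- two sided bounds for the potentials -/
def Hs (C : Cov n Γ E) (K : ℝ) : Prop :=
  ∀ a, ∀ z ∈ C.B (7 / 2) a, ((K : ℂ) • (1 : Mx n) - cHess (C.ρ a) z).PosSemidef ∧
    (cHess (C.ρ a) z - ((K⁻¹ : ℝ) : ℂ) • (1 : Mx n)).PosSemidef ∧ |C.ρ a z| ≤ K

theorem exists_hs (C : Cov n Γ E) : ∃ K₁ : ℝ, 1 ≤ K₁ ∧ ∀ K, K₁ ≤ K → Hs C K := by
  have h : ∀ a, ∃ K₁ : ℝ, ∀ K, K₁ ≤ K → ∀ z ∈ C.B (7 / 2) a,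
      ((K : ℂ) • (1 : Mx n) - cHess (C.ρ a) z).PosSemidef ∧
      (cHess (C.ρ a) z - ((K⁻¹ : ℝ) : ℂ) • (1 : Mx n)).PosSemidef ∧ |C.ρ a z| ≤ K := by
    intro a
    have hK := C.isCompact_cB (7 / 2) a
    have hB : C.cB (7 / 2) a ⊆ C.B 4 a := C.cB_sub_B (by norm_num) a
    have hc : ContinuousOn (cHess (C.ρ a)) (C.cB (7 / 2) a) := fun z hz =>
      (continuousAt_pi.2 fun i => continuousAt_pi.2 fun j =>
        (INT.smooth_cHess (C.ρ_sm a z (hB hz)) i j).continuousAt).continuousWithinAt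
    obtain ⟨c₁, -, h1⟩ := exists_dom hK hc (B := fun _ => 1) continuousOn_const
      (fun z hz => (C.ρ_pos a z (hB hz)).isHermitian) fun _ _ => Matrix.PosDef.one
    obtain ⟨c₂, k2, h2⟩ := exists_dom hK (A := fun _ => 1) continuousOn_const hc
      (fun _ _ => Matrix.isHermitian_one) fun z hz => C.ρ_pos a z (hB hz)
    obtain ⟨c₃, h3⟩ := hK.exists_bound_of_continuousOn (f := C.ρ a) fun z hz =>
      (C.ρ_sm a z (hB hz)).continuousAt.continuousWithinAt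
    refine ⟨max c₁ (max c₂ c₃), fun K hK z hz => ?_⟩
    have hz' := C.B_sub_cB _ a hz
    rw [max_le_iff, max_le_iff] at hK
    have k3 : 0 < c₂ := one_pos.trans_le k2
    refine ⟨?_, ?_, (h3 z hz').trans hK.2.2⟩
    · have h4 := (h1 z hz').add (psd_one (n := n) (sub_nonneg.2 hK.1))
      rwa [sub_add_eq_add_sub, ← add_smul, ← Complex.ofReal_add, add_sub_cancel] at h4
    · have h4 := (psd_smul (h2 z hz') (inv_pos.2 k3).le).add
        (psd_one (n := n) (sub_nonneg.2 (inv_anti₀ k3 hK.2.1)))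
      rwa [smul_sub, smul_smul, ← Complex.ofReal_mul, inv_mul_cancel₀ k3.ne', Complex.ofReal_one,
        one_smul, Complex.ofReal_sub, sub_smul, sub_add_sub_cancel] at h4
  choose M hM using h
  refine ⟨1 + ∑ a, |M a|, le_add_of_nonneg_right (Finset.sum_nonneg fun _ _ => abs_nonneg _),
    fun K hK a => hM a K ?_⟩
  have h1 := Finset.single_le_sum (f := fun a => |M a|) (fun _ _ => abs_nonneg _)
    (Finset.mem_univ a)
  linarith [le_abs_self (M a)]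

theorem ball_mem {r₀ K : ℝ} (h0 : 0 < r₀) (hr : ∀ a, r₀ ≤ C.r a) (hK : 2 / r₀ ≤ K) (a : C.I)
    {x z : Cm n} (hx : x ∈ C.B 3 a) (h : nsq (z - x) ≤ K⁻¹ ^ 2) : z ∈ C.B (7 / 2) a := by
  have h1 : 0 < 2 / r₀ := by positivity
  have h2 := norm_le_of_nsq (inv_pos.2 (h1.trans_le hK)).le h
  have h3 : K⁻¹ ≤ r₀ / 2 := by simpa using inv_anti₀ h1 hK
  have h4 : dist x (C.c a) < 3 * C.r a := hx
  have h5 := dist_triangle z x (C.c a)
  rw [dist_eq_norm z x] at h5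
  change dist z (C.c a) < 7 / 2 * C.r a
  linarith [hr a]

theorem z_le {P : Par} {b : Pb C} (h : b.Ok P) {u : Cm n} (hu : nsq u ≤ Real.exp (b.s / 2))
    {K : ℝ} (hK : 1 ≤ K) (hZ : 8 * K ≤ P.Z) : nsq (b.z u - b.x) ≤ K⁻¹ ^ 2 := by
  have h1 : K ≤ Real.exp (b.s / 8) := by
    linarith [Real.add_one_le_exp (b.s / 8), h.lo, P.Z_le_lo]
  have h2 := inv_anti₀ (one_pos.trans_le hK) h1
  rw [Pb.z, add_sub_cancel_left, nsq_smul, norm_exp_sq]
  calc Real.exp (-b.s) * nsq (b.ξ *ᵥ u)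
      ≤ Real.exp (-b.s) * (Real.exp (2 * (b.s / 8)) * Real.exp (b.s / 2)) :=
        mul_le_mul_of_nonneg_left ((h.fr u).2.trans
          (mul_le_mul_of_nonneg_left hu (Real.exp_pos _).le)) (Real.exp_pos _).le
    _ = (Real.exp (b.s / 8))⁻¹ ^ 2 := by
        rw [← Real.exp_neg, sq, ← Real.exp_add, ← Real.exp_add, ← Real.exp_add]
        congr 1
        ring
    _ ≤ K⁻¹ ^ 2 := pow_le_pow_left₀ (inv_pos.2 (Real.exp_pos _)).le h2 2

theorem F₀_le {P : Par} {b : Pb C} (h : b.Ok P) {K₁ c : ℝ} (hK : 1 ≤ K₁) (hs : Hs C K₁)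
    (hc : ∀ u, bmp n P.q u ≤ c) {z : Cm n} (hz : z ∈ C.B (7 / 2) b.a) :
    F₀ P C b.a b.x b.ξ b.s z ≤ c * K₁ ^ n * Real.exp (2 * n * b.s) := by
  have h0 : 0 < K₁ := one_pos.trans_le hK
  have hs0 : 0 ≤ b.s := P.lo_pos.le.trans h.lo
  have hc0 : 0 ≤ c := ((bm.ker n _ P.q_pos (P.q_le.trans_lt (by norm_num))).1.2.1 0).trans (hc 0)
  have h1 : K₁⁻¹ ^ n ≤ (cHess (C.ρ b.a) z).det.re := by
    rw [← det_one]
    exact Y.det_mono (psd_one (inv_pos.2 h0).le) (hs _ z hz).2.1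
  have h2 : 1 ≤ P.β ^ n * P.m :=
    one_le_mul_of_one_le_of_one_le (one_le_pow₀ P.one_le_β) (P.one_le_β.trans P.β_le_m)
  have h3 : (Real.exp (2 * n * b.s))⁻¹ ≤ Real.exp (-b.s) ^ n * ‖b.ξ.det‖ ^ 2 := by
    refine le_trans ?_ (mul_le_mul_of_nonneg_left (det_ge h.fr) (by positivity))
    rw [← mul_pow, ← Real.exp_add, ← Real.exp_nat_mul, ← Real.exp_neg]
    exact Real.exp_le_exp.2 (by nlinarith [mul_nonneg (Nat.cast_nonneg (α := ℝ) n) hs0])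
  have h4 : K₁⁻¹ ^ n ≤ P.β ^ n * P.m * (cHess (C.ρ b.a) z).det.re :=
    h1.trans (le_mul_of_one_le_left (le_trans (by positivity) h1) h2)
  have h5 := mul_le_mul h3 h4 (by positivity) (by positivity)
  refine (div_le_div₀ hc0 (hc _) (by positivity) h5).trans (le_of_eq ?_)
  rw [inv_pow, ← mul_inv, div_inv_eq_mul]
  ring

theorem mem {P : Par} {r₀ K : ℝ} (r0 : 0 < r₀) (hr : ∀ a, r₀ ≤ C.r a) (k4 : 2 / r₀ ≤ K)
    (k6 : 1 ≤ K) (z1 : 8 * K ≤ P.Z) (b : Pb C) (hb : b.Ok P) (u : Cm n)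
    (hu : nsq u ≤ Real.exp (b.s / 2)) : b.z u ∈ C.B (7 / 2) b.a :=
  ball_mem r0 hr k4 _ hb.x_mem (z_le hb hu k6 z1)

theorem inn {P : Par} (z2 : (2 * n : ℝ) ≤ P.Z) (b : Pb C) (hb : b.Ok P)
    (hm : ∀ u, nsq u ≤ Real.exp (b.s / 2) → b.z u ∈ C.B (7 / 2) b.a) :
    (P.Q C).In (b.γ, b.a) (Fin.cons b.w b.x) b.A := by
  refine ⟨A_det b (det_ne hb.fr), fun u hu => ?_⟩
  rw [aff_eq]
  refine C.B_mono (by norm_num) _ (hm _ ((nsq_le_of_norm ?_).trans ?_))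
  · exact (pi_norm_le_iff_of_nonneg zero_le_one).2 fun i => (norm_le_pi_norm u i.succ).trans hu
  · linarith [Real.add_one_le_exp (b.s / 2), hb.lo, P.Z_le_lo]

theorem num {A K s s' m : ℝ} (hA : 0 ≤ A) (hs : 1 ≤ s) (hK : A + m ≤ K) :
    A * Real.exp (m * s + s') ≤ Real.exp (s' + K * s) := by
  have h5 : A ≤ Real.exp (A * s) := by nlinarith [Real.add_one_le_exp (A * s)]
  refine (mul_le_mul_of_nonneg_right h5 (Real.exp_pos _).le).trans ?_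
  rw [← Real.exp_add]
  exact Real.exp_le_exp.2 (by nlinarith)

theorem sup [MeasurableSpace E] {μ : Measure (E × ℂ)} {P : Par} (hG : PG (P.Q C) μ)
    {K₁ K c d : ℝ} (k1 : 1 ≤ K₁) (hs : Hs C K₁) (c0 : 0 < c) (d0 : 0 < d)
    (hc : ∀ u, bmp n P.q u ≤ c⁻¹) (hd : ∀ u, bmp 1 P.q u ≤ d⁻¹)
    (k5 : c⁻¹ * K₁ ^ n * d⁻¹ + 2 * n ≤ K) (b : Pb C) (hb : b.Ok P)
    (hm : ∀ u, nsq u ≤ Real.exp (b.s / 2) → b.z u ∈ C.B (7 / 2) b.a)
    (hi : (P.Q C).In (b.γ, b.a) (Fin.cons b.w b.x) b.A) (y : E × ℂ) :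
    b.p P y ≤ Real.exp (b.s' + K * b.s) := by
  by_cases hy : b.p P y = 0
  · exact hy ▸ (Real.exp_pos _).le
  obtain ⟨⟨u, hu, e⟩, -⟩ := supp hG b hi hy
  have q1 : P.q < 1 := P.q_le.trans_lt (by norm_num)
  have hs1 : 1 ≤ b.s := P.one_le_Z.trans (P.Z_le_lo.trans hb.lo)
  have hz := hm u (hu.trans (by linarith [Real.add_one_le_exp (b.s / 2)]))
  have h1 := F₀_le hb k1 hs hc hz
  have h2 := hd fun _ => (Real.exp (b.s' / 2) : ℝ) * (y.2 - b.w)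
  have h3 := (bm.ker 1 _ P.q_pos q1).1.2.1 fun _ => (Real.exp (b.s' / 2) : ℝ) * (y.2 - b.w)
  rw [p_eq hG b (det_ne hb.fr), e, FF_pt P _ _ _ _ _ (C.B_mono (by norm_num) _ hz)]
  refine (mul_le_mul h1 (mul_le_mul_of_nonneg_left h2 (Real.exp_pos _).le) (by positivity)
    (by positivity)).trans (le_trans (le_of_eq ?_) (num (by positivity) hs1 k5))
  rw [Real.exp_add]
  ring

theorem sup_le {P : Par} {b : Pb C} (hb : b.Ok P) {K : ℝ} (k6 : 1 ≤ K) (z1 : 8 * K ≤ P.Z) :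
    b.s' + K * b.s ≤ P.B / P.Z := by
  have hs0 : 0 ≤ b.s := P.lo_pos.le.trans hb.lo
  have h1 := P.le_sw hs0
  have h2 := P.sw_le_B hb.hi
  have h3 := P.Z_ge'
  have h4 : 5 * (P.Z : ℝ) ^ 2 ≤ (P.Z : ℝ) ^ 8 :=
    le_trans (by nlinarith [pow_pos P.Z_pos 2]) (P.pow_le (by norm_num : 3 ≤ 8))
  have h5 : K * b.s ≤ P.Z * P.sw b.s := mul_le_mul (by linarith) h1 hs0 P.Z_pos.le
  rw [le_div_iff₀ P.Z_pos]
  nlinarith [hb.hi', mul_le_mul_of_nonneg_right h4 (hs0.trans h1)]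

end S41

open S41 in
theorem st41a (h : StGeo) : St41a := by
  intro n Γ E _ _ _ _ _ _ _ C
  obtain ⟨Kg, Zg, hj, hg⟩ := h n Γ E C
  obtain ⟨K₁, k1, hs⟩ := exists_hs C
  obtain ⟨r₀, r0, hr⟩ := C.exists_r
  obtain ⟨c, c0, hc⟩ := bm.bd n
  obtain ⟨d, d0, hd⟩ := bm.bd 1
  refine ⟨max (max Kg K₁) (max (2 / r₀) (c⁻¹ * K₁ ^ n * d⁻¹ + 2 * n)), fun K hK => ?_⟩
  simp only [max_le_iff] at hK
  obtain ⟨⟨k2, k3⟩, k4, k5⟩ := hK
  refine ⟨Zg + ⌈8 * K⌉₊ + 2 * n, fun P hP μ hG => ?_⟩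
  have z1 : 8 * K ≤ P.Z := (Nat.le_ceil _).trans (Nat.cast_le.2 (by omega))
  have z2 : (2 * n : ℝ) ≤ P.Z := by exact_mod_cast (by omega : 2 * n ≤ P.Z)
  have q1 : P.q < 1 := P.q_le.trans_lt (by norm_num)
  have q2 : P.q ≤ 1 / 2 := P.q_le.trans (by norm_num)
  have k6 : 1 ≤ K := k1.trans k3
  have hm := mem r0 hr k4 k6 z1
  have hi := fun b hb => inn z2 b hb (hm b hb)
  have ker := ker₂ (n := n) P.q_pos q1
  have dens : ∀ b : Pb C, b.Ok P → (P.Q C).Dens (b.p P) := fun b hb =>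
    hG.pm_dens _ _ _ _ ker.1 (hi b hb)
  have hp := fun b hb => sup hG k1 (hs K₁ le_rfl) c0 d0 (fun u => (hc _ P.q_pos q2 u).1)
    (fun u => (hd _ P.q_pos q2 u).1) k5 b hb (hm b hb) (hi b hb)
  refine ⟨k6, fun g u c hu => Y.QY_aut C g c hu, hs K k3,
    fun a x hx z hz => ball_mem r0 hr k4 a hx hz, hm, hi, ker, fun b hb => ⟨dens b hb, ?_⟩,
    fun b lam hb => hG.dens_smul _ _ (Real.exp_pos _).le (dens b hb),
    fun b hb y => ⟨hp b hb y, (hp b hb y).trans (Real.exp_le_exp.2 (sup_le hb k6 z1))⟩,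
    fun b hb y hy => supp hG b (hi b hb) hy,
    fun b hb => ⟨FF P C b.γ b.a b.x b.ξ b.s, FF_nonneg P _ _ _ _ _,
      fun w s' y => p_eq hG { b with w := w, s' := s' } (det_ne hb.fr) y⟩,
    fun b g u c y hb hu => sym hG b (det_ne hb.fr) g c y hu,
    fun b V hb hV => uni hG b (det_ne hb.fr) hV, hj K k2, hg P (by omega)⟩
  have h1 := hG.pm_int _ _ _ _ (fun _ => 1) ker.1 (hi b hb) continuous_const
  simp only [one_mul] at h1
  exact h1.trans ker.2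

end Vale.Agent.P284Y
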