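import Vale.Agent.P284Y.Y.Cov
import Vale.Agent.P284Y.Lib.TM

/-!
# P284Y, block Y: comparison of masses after pull-back by polynomials
-/

set_option linter.all false

open scoped ContDiff Topology ComplexOrder ENNReal Matrix
open Filter Set Function Metric MeasureTheory

noncomputable section

namespace Vale.Agent.P284Y.Y.Y4

open Vale.Agent.P272.K Vale.Agent.P284Z Vale.Agent.P284Z.J Vale.Agent.P284.H650 Polynomial

variable {n : ℕ} {Γ E : Type} [Group Γ] [TopologicalSpace E] [MulAction Γ E] [MeasurableSpace E]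
  [BorelSpace E] {C : Cov n Γ E} {β m : ℝ} {μ : Measure (E × ℂ)}

theorem chart_int (hv : (QY C β m).Vol μ) (i : Γ × C.I) {f : E × ℂ → ℝ≥0∞} (hf : Measurable f) :
    ∫⁻ y in (C.pt i.1 i.2 '' C.B 4 i.2) ×ˢ univ, f y ∂μ = ∫⁻ z in C.B 4 i.2,
      (∫⁻ w, f (C.pt i.1 i.2 z, w)) *
        ENNReal.ofReal (β ^ n * m * (cHess (C.ρ i.2) z).det.re) := by
  have hB := (C.isOpen_B 4 i.2).measurableSet
  have h1 : (QY C β m).pt i '' (QY C β m).U i = (C.pt i.1 i.2 '' C.B 4 i.2) ×ˢ univ := by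
    ext y
    constructor
    · rintro ⟨v, hv, rfl⟩
      exact ⟨⟨_, hv, rfl⟩, trivial⟩
    · rintro ⟨⟨z, hz, e⟩, -⟩
      exact ⟨Fin.cons y.2 z, hz, Prod.ext e rfl⟩
  have h4 := lint_cons (s := C.B 4 i.2) (fun q => f (C.pt i.1 i.2 q.2, q.1) *
    ENNReal.ofReal (β ^ n * m * (cHess (C.ρ i.2) q.2).det.re)) ((hf.comp_aemeasurable
      ((((C.continuousOn_pt i.1 i.2).aemeasurable hB).comp_snd).prodMk
        measurable_fst.aemeasurable)).mul
      (((vol_cont C i.2).aemeasurable hB).const_mul _).ennreal_ofReal.comp_snd)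
  simp only [← lintegral_mul_const' _ _ ENNReal.ofReal_ne_top]
  rw [← h1, hv i f hf, ← h4]
  refine setLIntegral_congr_fun (hB.preimage sm_tail.continuous.measurable) fun v hv => ?_
  simp only
  rw [QY_vol C i hv]
  rfl

/-- integrals are determined by the integrals on the fibres -/
theorem fib (hok : (QY C β m).Ok) (hv : (QY C β m).Vol μ) {f g : E × ℂ → ℝ≥0∞}
    (hf : Measurable f) (hg : Measurable g) (h : ∀ z, ∫⁻ w, f (z, w) = ∫⁻ w, g (z, w)) :
    ∫⁻ y, f y ∂μ = ∫⁻ y, g y ∂μ := by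
  have hc : Countable (Γ × C.I) := hok.cnt
  rcases isEmpty_or_nonempty (Γ × C.I) with h0 | h0
  · have : IsEmpty (E × ℂ) := ⟨fun y => (hok.cover y).elim fun i _ => h0.false i⟩
    simp
  obtain ⟨e, he⟩ := exists_surjective_nat (Γ × C.I)
  let A : ℕ → Set (E × ℂ) := fun j => (C.pt (e j).1 (e j).2 '' C.B 4 (e j).2) ×ˢ univ
  have hA : ∀ j, MeasurableSet (A j) := fun j =>
    (C.isOpen_image_pt _ (C.isOpen_B 4 _) subset_rfl).measurableSet.prod .univ
  have hT := MeasurableSet.disjointed hA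
  have hU : ⋃ j, disjointed A j = univ := by
    rw [iUnion_disjointed, eq_univ_iff_forall]
    intro y
    obtain ⟨i, v, h1, rfl⟩ := hok.cover y
    obtain ⟨j, rfl⟩ := he i
    exact mem_iUnion.2 ⟨j, ⟨_, h1, rfl⟩, trivial⟩
  have key : ∀ j (f : E × ℂ → ℝ≥0∞), ∫⁻ y in disjointed A j, f y ∂μ =
      ∫⁻ y in A j, (disjointed A j).indicator f y ∂μ := fun j f => by
    rw [lintegral_indicator (hT j), Measure.restrict_restrict (hT j),
      inter_eq_left.2 (disjointed_subset A j)]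
  rw [← setLIntegral_univ f, ← setLIntegral_univ g, ← hU,
    lintegral_iUnion hT (disjoint_disjointed A), lintegral_iUnion hT (disjoint_disjointed A)]
  refine tsum_congr fun j => ?_
  rw [key, key, chart_int hv _ (hf.indicator (hT j)), chart_int hv _ (hg.indicator (hT j))]
  refine lintegral_congr fun z => ?_
  have e1 : ∀ w, (C.pt (e j).1 (e j).2 z, w) ∈ disjointed A j ↔
      (C.pt (e j).1 (e j).2 z, (0 : ℂ)) ∈ disjointed A j := fun w => by
    simp only [disjointed_eq_inter_compl, A, mem_inter_iff, mem_iInter, mem_compl_iff, mem_prod,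
      mem_univ]
  by_cases h1 : (C.pt (e j).1 (e j).2 z, (0 : ℂ)) ∈ disjointed A j <;>
    simp [indicator, e1, h1, h]

/-- the map `(z, w) ↦ (z, π w)` -/
def up (π : ℂ[X]) (y : E × ℂ) : E × ℂ := (y.1, π.eval y.2)

/-- the Jacobian -/
def jac (π : ℂ[X]) (y : E × ℂ) : ℝ := ‖π.derivative.eval y.2‖ ^ 2

theorem up_cont (π : ℂ[X]) : Continuous (up π : E × ℂ → E × ℂ) :=
  continuous_fst.prodMk (π.continuous.comp continuous_snd)

theorem jac_cont (π : ℂ[X]) : Continuous (jac π : E × ℂ → ℝ) :=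
  ((π.derivative.continuous.comp continuous_snd).norm).pow 2

theorem jac_nonneg (π : ℂ[X]) (y : E × ℂ) : 0 ≤ jac π y := sq_nonneg _

theorem meas_up (π : ℂ[X]) {g : E × ℂ → ℝ} (hg : Measurable g) :
    Measurable fun y => ENNReal.ofReal (jac π y * g (up π y)) :=
  ((jac_cont π).measurable.mul (hg.comp (up_cont π).measurable)).ennreal_ofReal

theorem area (hok : (QY C β m).Ok) (hv : (QY C β m).Vol μ) {π : ℂ[X]} (hπ : 1 ≤ π.natDegree)
    {g : E × ℂ → ℝ} (hg : Measurable g) :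
    ∫⁻ y, ENNReal.ofReal (jac π y * g (up π y)) ∂μ =
      π.natDegree * ∫⁻ y, ENNReal.ofReal (g y) ∂μ := by
  rw [← lintegral_const_mul _ hg.ennreal_ofReal]
  refine fib hok hv (meas_up π hg) (hg.ennreal_ofReal.const_mul _) fun z => ?_
  have h1 : Measurable fun w : ℂ => ENNReal.ofReal (g (z, w)) :=
    hg.ennreal_ofReal.comp measurable_prodMk_left
  rw [lintegral_const_mul _ h1, ← Lib.area_poly π h1 hπ]
  exact lintegral_congr fun w => ENNReal.ofReal_mul (sq_nonneg _)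

/-- the pull-back of the potential -/
def pbk (m : ℝ) (π : ℂ[X]) (u : E × ℂ → ℝ) (c : ℝ) (y : E × ℂ) : ℝ :=
  u (up π y) + m * ‖π.eval y.2‖ ^ 2 - m * ‖y.2‖ ^ 2 - c

theorem pbk_spec (hok : (QY C β m).Ok) (hp : PG (QY C β m) μ) (π : ℂ[X]) {u : E × ℂ → ℝ}
    (hu : (QY C β m).SP u univ) (c : ℝ) (y : E × ℂ) :
    ((QY C β m).SmAt (pbk m π u c) y ∧ (QY C β m).PsdAt (pbk m π u c) y) ∧
      (QY C β m).MA (pbk m π u c) y = jac π y * (QY C β m).MA u (up π y) := by
  obtain ⟨i, v, hv, rfl⟩ := hok.cover y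
  let f : Fin (n + 1) → ℂ → ℂ := Fin.cons (fun t => π.eval t) fun _ t => t
  let Θ : Cm (n + 1) → Cm (n + 1) := fun w j => f j (w j)
  have e0 : ∀ w, (QY C β m).pt i (Θ w) = up π ((QY C β m).pt i w) := fun _ => rfl
  have hΘ : Θ v ∈ (QY C β m).U i := hv
  have a0 : AnalyticAt ℂ (fun w : Cm (n + 1) => π.eval (w 0)) v :=
    (π.differentiable.analyticAt _).comp (analyticAt_pi_iff.1 analyticAt_id 0)
  have a1 : AnalyticAt ℂ Θ v := analyticAt_pi_iff.2 fun j =>
    Fin.cases a0 (fun j => analyticAt_pi_iff.1 analyticAt_id j.succ) j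
  have s1 : ContDiffAt ℝ ∞ Θ v := a1.contDiffAt.restrict_scalars ℝ
  have s0 : ContDiffAt ℝ ∞ (fun w : Cm (n + 1) => ‖w 0‖ ^ 2) v := by
    simpa using (sm_w 0).contDiffAt
  have s2 := (hu _ trivial).1 i _ hΘ rfl
  have s3 : ContDiffAt ℝ ∞ (fun w => pbk m π u c ((QY C β m).pt i w)) v :=
    (((s2.comp v s1).add (contDiffAt_const.mul
      ((a0.contDiffAt.restrict_scalars ℝ).norm_sq ℂ))).sub
      (contDiffAt_const.mul s0)).sub contDiffAt_const
  have s4 := ((hok.ρ_sm i _ hΘ).add s2).of_le two_le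
  have e1 : (QY C β m).om (pbk m π u c) i v = pb (jm Θ v) ((QY C β m).om u i (Θ v)) := by
    unfold Pat.om
    rw [← hess_comp a1 s4, ← Lib.hess_const_add (u := fun w => (QY C β m).ρ i (Θ w) +
      u ((QY C β m).pt i (Θ w))) (-c) (s4.comp v (s1.of_le two_le))]
    congr 1
    funext w
    rw [e0]
    change β * C.ρ i.2 (Fin.tail w) + m * ‖w 0‖ ^ 2 + (u (up π ((QY C β m).pt i w)) +
      m * ‖π.eval (w 0)‖ ^ 2 - m * ‖w 0‖ ^ 2 - c) =
      -c + (β * C.ρ i.2 (Fin.tail w) + m * ‖π.eval (w 0)‖ ^ 2 + u (up π ((QY C β m).pt i w)))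
    ring
  have e2 : jm Θ v = Matrix.diagonal (Fin.cons (π.derivative.eval (v 0)) fun _ => 1) :=
    Lib.jm_diag fun j => Fin.cases (π.hasDerivAt _) (fun _ => hasDerivAt_id _) j
  refine ⟨⟨hp.sm_of _ i v hv s3, hp.psd_of _ i v hv (s3.of_le two_le)
    (e1 ▸ pb_psd _ ((hu _ trivial).2 i _ hΘ rfl))⟩, ?_⟩
  rw [hp.ma_pt _ i v hv (s3.of_le two_le), ← e0, hp.ma_pt _ i _ hΘ (s2.of_le two_le), e1,
    Lib.det_pb, Complex.re_ofReal_mul, QY_vol C i hv, QY_vol C i hΘ, mul_div_assoc, e2,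
    Matrix.det_diagonal, Fin.prod_univ_succ]
  simp [jac, QY]
  exact Or.inl rfl

theorem dens_cont (hp : PG (QY C β m) μ) {p : E × ℂ → ℝ} (h : (QY C β m).Dens p) :
    Continuous p := continuous_iff_continuousAt.2 fun y => hp.cont _ y (h.sm y)

variable {S : MAS (QY C β m) μ}

theorem ms_lint (hG : Gen S) {ν p : E × ℂ → ℝ} (hν : (QY C β m).Dens ν)
    (hp : (QY C β m).Dens p) {c : ℝ} (hc : 0 ≤ c) :
    ∫⁻ y, ENNReal.ofReal (c * (Real.exp (S.φ ν y) * p y)) ∂μ = ENNReal.ofReal (c * S.ms ν p) := by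
  rw [ENNReal.ofReal_mul hc, hG.ms_lint ν p hν hp,
    ← lintegral_const_mul' _ _ ENNReal.ofReal_ne_top]
  exact lintegral_congr fun y => by
    rw [ENNReal.ofReal_mul hc, ENNReal.ofReal_mul (Real.exp_pos _).le]

/-- **Y4** -/
theorem y4 (hG : Gen S) (hm : 0 ≤ m) {πa πb : ℂ[X]} (ha : 1 ≤ πa.natDegree)
    (hb : 1 ≤ πb.natDegree) {νa νb pa pb r : E × ℂ → ℝ} (h1 : (QY C β m).Dens νa)
    (h2 : (QY C β m).Dens νb) (h3 : (QY C β m).Dens pa) (h4 : (QY C β m).Dens pb)
    (h5 : (QY C β m).Dens r) (hle : pb ≤ νb) {K₀ K d κ : ℝ} (hκ : 0 ≤ κ) (hK : K < d)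
    (hK₀ : K₀ + 1 ≤ d)
    (h0 : ∀ ζ : ℂ, ‖ζ‖ ≤ 1 → m * ‖πa.eval ζ‖ ^ 2 ≤ K₀ ∧ m * ‖πb.eval ζ‖ ^ 2 ≤ K₀)
    (hbd : ∀ y : E × ℂ, ‖y.2‖ = 1 → S.φ νb (up πb y) + m * ‖πb.eval y.2‖ ^ 2 - K ≤
      S.φ νa (up πa y) + m * ‖πa.eval y.2‖ ^ 2)
    (hva : ∀ y : E × ℂ, ‖y.2‖ < 1 → νa (up πa y) ≤ pa (up πa y))
    (hdom : ∀ y : E × ℂ, pb (up πb y) ≠ 0 → ‖y.2‖ < 1 ∧
      (jac πb y * pb (up πb y) ≤ κ * (jac πa y * pa (up πa y)) ∨
        Real.exp (S.φ νb (up πb y)) * pb (up πb y) ≤ r (up πb y))) :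
    πb.natDegree * S.ms νb pb ≤ πa.natDegree * ((1 + Real.exp (K₀ + d) * κ) * S.ms νa pa +
      2 * Real.exp (K₀ - d) * S.ms νa νa) + πb.natDegree * ∫ y, r y ∂μ := by
  have sa := pbk_spec S.ok hG.pg πa (hG.sp _ h1) 0
  have sb := pbk_spec S.ok hG.pg πb (hG.sp _ h2) d
  set a := pbk m πa (S.φ νa) 0
  set b := pbk m πb (S.φ νb) d
  have ca : Continuous a := continuous_iff_continuousAt.2 fun y => hG.pg.cont _ y (sa y).1.1
  have cb : Continuous b := continuous_iff_continuousAt.2 fun y => hG.pg.cont _ y (sb y).1.1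
  have cn : Continuous fun y : E × ℂ => ‖y.2‖ := continuous_snd.norm
  have k1 : ∀ y : E × ℂ, ‖y.2‖ ≤ 1 → S.φ νa (up πa y) - (K₀ - d) ≤ a y - b y := fun y hy => by
    have := S.nonpos _ h2 (up πb y)
    have := (h0 _ hy).2
    have := mul_nonneg hm (sq_nonneg ‖πa.eval y.2‖)
    simp only [a, b, pbk]
    linarith
  obtain ⟨K1, hK1, h6⟩ := mem_cocompact.1 ((S.decay _ h1).eventually (lt_mem_nhds neg_one_lt_zero))
  have hD : IsOpen {y : E × ℂ | ‖y.2‖ < 1} := isOpen_lt cn continuous_const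
  have mc := S.mc {y | ‖y.2‖ < 1} {y | ‖y.2‖ ≤ 1 ∧ a y ≤ b y} b a hD
    (((hK1.image continuous_fst).prod (isCompact_closedBall (0 : ℂ) 1)).of_isClosed_subset
      ((isClosed_le cn continuous_const).inter (isClosed_le ca cb)) fun y hy =>
      ⟨⟨up πa y, by
        by_contra h
        have h7 : -1 < S.φ νa (up πa y) := h6 h
        linarith [k1 y hy.1, hy.2], rfl⟩, mem_closedBall_zero_iff.2 hy.1⟩)
    (fun y hy => lt_of_le_of_ne hy.1 fun h => by
      have := hbd y h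
      have h7 := hy.2
      simp only [a, b, pbk] at h7
      linarith)
    (fun y _ => (sb y).1) (fun y _ => (sa y).1) fun y hy => ⟨hy.1.le, hy.2.le⟩
  set T := {y ∈ {y : E × ℂ | ‖y.2‖ < 1} | a y < b y}
  have hT : MeasurableSet T := (hD.inter (isOpen_lt ca cb)).measurableSet
  have c1 := hG.cont _ h1
  have c2 := hG.cont _ h2
  have hN : MeasurableSet {y | S.φ νa y < -1} := (isOpen_lt c1 continuous_const).measurableSet
  have m1 : ∀ c : ℝ, Measurable fun y => c * (Real.exp (S.φ νa y) * pa y) := fun c =>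
    (continuous_const.mul (c1.rexp.mul (dens_cont hG.pg h3))).measurable
  have m2 : Measurable ({y | S.φ νa y < -1}.indicator fun _ => Real.exp (K₀ - d)) :=
    measurable_const.indicator hN
  have i1 : ∫⁻ y in T, ENNReal.ofReal ((QY C β m).MA a y) ∂μ ≤
      πa.natDegree * ENNReal.ofReal (1 * S.ms νa pa) +
      πa.natDegree * ENNReal.ofReal (2 * Real.exp (K₀ - d) * S.ms νa νa) := by
    rw [← ms_lint hG h1 h3 zero_le_one, ← area S.ok S.vol ha (m1 1), ← lintegral_indicator hT]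
    refine le_trans (le_trans (lintegral_mono fun y => ?_)
      (lintegral_add_left (meas_up πa (m1 1)) fun y => ENNReal.ofReal (jac πa y *
        {y | S.φ νa y < -1}.indicator (fun _ => Real.exp (K₀ - d)) (up πa y))).le)
      (add_le_add le_rfl ?_)
    · by_cases hy : y ∈ T
      · have h7 : S.φ νa (up πa y) < K₀ - d := by linarith [k1 y hy.1.le, hy.2]
        rw [indicator_of_mem hy, indicator_of_mem (show up πa y ∈ {y | S.φ νa y < -1} from
          h7.trans_le (by linarith)), (sa y).2, hG.ma _ h1]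
        refine le_trans (ENNReal.ofReal_le_ofReal ?_) ENNReal.ofReal_add_le
        rw [← mul_add]
        refine mul_le_mul_of_nonneg_left ?_ (jac_nonneg _ _)
        have := mul_le_mul_of_nonneg_left (hva y hy.1) (Real.exp_pos (S.φ νa (up πa y))).le
        linarith [Real.exp_le_exp.2 h7.le]
      · simp [indicator_of_notMem hy]
    · rw [area S.ok S.vol ha m2]
      refine mul_le_mul_right ?_ _
      rw [show (fun y => ENNReal.ofReal ({y | S.φ νa y < -1}.indicator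
          (fun _ => Real.exp (K₀ - d)) y)) = {y | S.φ νa y < -1}.indicator
          fun _ => ENNReal.ofReal (Real.exp (K₀ - d)) from funext fun y => by
          by_cases hy : y ∈ {y | S.φ νa y < -1} <;> simp [indicator, hy],
        lintegral_indicator_const hN, mul_comm 2, mul_assoc, ENNReal.ofReal_mul (Real.exp_pos _).le]
      exact mul_le_mul_right (hG.vneg _ h1) _
  have m3 := (dens_cont hG.pg h5).measurable
  have m4 : Measurable fun y => 1 * (Real.exp (S.φ νb y) * pb y) :=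
    (continuous_const.mul (c2.rexp.mul (dens_cont hG.pg h4))).measurable
  have hc : 0 ≤ Real.exp (K₀ + d) * κ := by positivity
  have i2 : πb.natDegree * ENNReal.ofReal (1 * S.ms νb pb) ≤
      ∫⁻ y in T, ENNReal.ofReal ((QY C β m).MA b y) ∂μ +
      πa.natDegree * ENNReal.ofReal (Real.exp (K₀ + d) * κ * S.ms νa pa) +
      πb.natDegree * ENNReal.ofReal (∫ y, r y ∂μ) := by
    rw [ofReal_integral_eq_lintegral_ofReal (by simpa using hG.pg.dens_int r 1 h5 continuous_one)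
        (ae_of_all _ h5.nonneg), ← ms_lint hG h1 h3 hc, ← ms_lint hG h2 h4 zero_le_one,
      ← area S.ok S.vol ha (m1 _), ← area S.ok S.vol hb m3, ← area S.ok S.vol hb m4,
      ← lintegral_indicator hT, ← lintegral_add_right _ (meas_up πa (m1 _)),
      ← lintegral_add_right _ (meas_up πb m3)]
    refine lintegral_mono fun y => ?_
    simp only [one_mul]
    by_cases hy : y ∈ T
    · refine le_add_right (le_add_right ?_)
      rw [indicator_of_mem hy, (sb y).2, hG.ma _ h2]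
      refine ENNReal.ofReal_le_ofReal (mul_le_mul_of_nonneg_left
        (mul_le_mul_of_nonneg_left ?_ (Real.exp_pos _).le) (jac_nonneg _ _))
      linarith [hle (up πb y)]
    by_cases h7 : pb (up πb y) = 0
    · simp [h7]
    obtain ⟨h8, h9 | h9⟩ := hdom y h7
    · refine le_add_right (le_add_left (ENNReal.ofReal_le_ofReal ?_))
      have h10 : b y ≤ a y := not_lt.1 fun h => hy ⟨h8, h⟩
      have h11 : Real.exp (S.φ νb (up πb y)) ≤
          Real.exp (K₀ + d) * Real.exp (S.φ νa (up πa y)) := by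
        rw [← Real.exp_add, Real.exp_le_exp]
        have := (h0 _ h8.le).1
        have := mul_nonneg hm (sq_nonneg ‖πb.eval y.2‖)
        simp only [a, b, pbk] at h10
        linarith
      have := mul_le_mul h11 h9 (mul_nonneg (jac_nonneg _ _) (h4.nonneg _)) (by positivity)
      linarith
    · exact le_add_left (ENNReal.ofReal_le_ofReal (mul_le_mul_of_nonneg_left h9 (jac_nonneg _ _)))
  have p1 := hG.ms_nonneg νa pa h3
  have p2 := hG.ms_nonneg νa νa h1
  have p3 : 0 ≤ ∫ y, r y ∂μ := integral_nonneg h5.nonneg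
  have i3 := i2.trans (add_le_add (add_le_add (mc.trans i1) le_rfl) le_rfl)
  simp only [← ENNReal.ofReal_natCast, ← ENNReal.ofReal_mul (Nat.cast_nonneg _)] at i3
  rw [← ENNReal.ofReal_add (by positivity) (by positivity),
    ← ENNReal.ofReal_add (by positivity) (by positivity),
    ← ENNReal.ofReal_add (by positivity) (by positivity),
    ENNReal.ofReal_le_ofReal_iff (by positivity)] at i3
  linarith

end Vale.Agent.P284Y.Y.Y4
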