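import Vale.Agent.P284Y.Y.Y4a

/-!
# P284Y, block Y: comparison of energies after pull-back by polynomials
-/

set_option linter.all false

open scoped ContDiff Topology ComplexOrder ENNReal Matrix
open Filter Set Function Metric MeasureTheory

noncomputable section

namespace Vale.Agent.P284Y.Y.Y4

open Vale.Agent.P272.K Vale.Agent.P284Z Vale.Agent.P284Z.J Polynomial Real

variable {n : ℕ} {Γ E : Type} [Group Γ] [TopologicalSpace E] [MulAction Γ E] [MeasurableSpace E]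
  [BorelSpace E] {C : Cov n Γ E} {β m : ℝ} {μ : Measure (E × ℂ)} {S : MAS (QY C β m) μ}

theorem ms_le_G (hG : Gen S) {ν : E × ℂ → ℝ} (h : (QY C β m).Dens ν) : S.ms ν ν ≤ S.G ν := by
  simpa [S.G0, MAS.ms] using (S.two 0 ν hG.pg.dens_zero h).1

theorem I_nonneg (hG : Gen S) {ν p : E × ℂ → ℝ} (h : (QY C β m).Dens ν)
    (hp : (QY C β m).Dens p) : 0 ≤ S.I p ν :=
  sub_nonneg.2 (hG.G_mono _ _ h (hG.pg.dens_add _ _ h hp) (le_add_of_nonneg_right hp.nonneg))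

theorem I_zero (p : E × ℂ → ℝ) : S.I p 0 = S.G p := by simp [MAS.I, S.G0]

theorem y4i (hG : Gen S) (hm : 0 ≤ m) {πa πb : ℂ[X]} (ha : 1 ≤ πa.natDegree)
    (hb : 1 ≤ πb.natDegree) {ν pa pb r : E × ℂ → ℝ} (h1 : (QY C β m).Dens ν)
    (h3 : (QY C β m).Dens pa) (h4 : (QY C β m).Dens pb) (h5 : (QY C β m).Dens r)
    {K₀ K L A Λ : ℝ} (hK₀ : 0 ≤ K₀) (hK : 0 ≤ K) (hL : 0 ≤ L) (hA : 0 ≤ A) (hΛ : 0 ≤ Λ)
    (h0 : ∀ ζ : ℂ, ‖ζ‖ ≤ 1 → m * ‖πa.eval ζ‖ ^ 2 ≤ K₀ ∧ m * ‖πb.eval ζ‖ ^ 2 ≤ K₀)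
    (hbd : ∀ y : E × ℂ, ‖y.2‖ = 1 → S.φ ν (up πb y) + m * ‖πb.eval y.2‖ ^ 2 - K ≤
      S.φ (ν + exp Λ • pa) (up πa y) + m * ‖πa.eval y.2‖ ^ 2)
    (hva : ∀ y : E × ℂ, ‖y.2‖ < 1 → ν (up πa y) = 0)
    (hdom : ∀ y : E × ℂ, pb (up πb y) ≠ 0 → ‖y.2‖ < 1 ∧
      (jac πb y * pb (up πb y) ≤ exp L * (jac πa y * pa (up πa y)) ∨ ∀ lam ≤ Λ,
        exp (S.φ (ν + exp lam • pb) (up πb y)) * (exp lam * pb (up πb y)) ≤ r (up πb y))) :
    πb.natDegree * S.I (exp (Λ - (K + 2 * K₀ + 1 + L + 2 * A)) • pb) ν ≤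
      πa.natDegree * (1 + 3 * exp (-A)) * S.I (exp Λ • pa) ν +
        (πa.natDegree * (2 * exp (-A) * S.G ν) + πb.natDegree * ∫ y, r y ∂μ) * Λ +
        πb.natDegree * ∫ y, pb y ∂μ := by
  set δ := K + 2 * K₀ + 1 + L + 2 * A with hδ
  have hδ0 : 0 ≤ δ := by positivity
  have da : ∀ l, (QY C β m).Dens (exp l • pa) := fun l => hG.pg.dens_smul _ _ (exp_pos l).le h3
  have db : ∀ l, (QY C β m).Dens (exp l • pb) := fun l => hG.pg.dens_smul _ _ (exp_pos l).le h4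
  have da' := fun l => hG.pg.dens_add _ _ h1 (da l)
  have db' := fun l => hG.pg.dens_add _ _ h1 (db l)
  have h6 := hG.cmpI ν pb ν pa (-δ) (Λ - δ) πb.natDegree (πa.natDegree * (1 + 3 * exp (-A))) 1 δ
    (πa.natDegree * (2 * exp (-A) * S.G ν) + πb.natDegree * ∫ y, r y ∂μ) h1 h4 h1 h3 (by linarith)
    fun lam hl => by
      have h7 := y4 hG hm ha hb (da' (lam + δ)) (db' lam) (da (lam + δ)) (db lam) h5
        (le_add_of_nonneg_left h1.nonneg) (K := K) (d := K + K₀ + 1 + A) (exp_pos (L - δ)).le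
        (by linarith) (by linarith) h0
        (fun y hy => by
          have := hG.mono _ _ h1 (db' lam) (le_add_of_nonneg_right (db lam).nonneg) (up πb y)
          have := hG.mono _ _ (da' (lam + δ)) (da' Λ) (add_le_add_right (smul_le_smul_of_nonneg_right
            (exp_le_exp.2 (by linarith [hl.2])) h3.nonneg) _) (up πa y)
          linarith [hbd y hy])
        (fun y hy => by simp [hva y hy])
        fun y hy => (hdom y (right_ne_zero_of_mul hy)).imp id (Or.imp (fun h => by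
          have := mul_le_mul_of_nonneg_left h (exp_pos lam).le
          have e : exp (L - δ) * exp (lam + δ) = exp lam * exp L := by
            rw [← exp_add, ← exp_add]; congr 1; ring
          simp only [Pi.smul_apply, smul_eq_mul]
          linear_combination this - jac πa y * pa (up πa y) * e) fun h => h lam (by linarith [hl.2]))
      have e1 : exp (K₀ + (K + K₀ + 1 + A)) * exp (L - δ) = exp (-A) := by
        rw [← exp_add]; congr 1; rw [hδ]; ring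
      have e2 : exp (K₀ - (K + K₀ + 1 + A)) ≤ exp (-A) := exp_le_exp.2 (by linarith)
      have e3 := hG.ms_add _ _ _ (da' (lam + δ)) h1 (da (lam + δ))
      have e4 := (hG.ms_mono _ _ _ _ (da' (lam + δ)) h1 h1 h1
        (le_add_of_nonneg_right (da _).nonneg) le_rfl).trans (ms_le_G hG h1)
      have e5 := mul_le_mul e2 (e3.le.trans (add_le_add_left e4 _))
        (hG.ms_nonneg _ _ (da' (lam + δ))) (exp_pos _).le
      have e6 := mul_le_mul_of_nonneg_left e5 (Nat.cast_nonneg (α := ℝ) πa.natDegree)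
      rw [e1] at h7
      simp only [MAS.msl, one_mul, mul_one]
      linarith
  have h7 := hG.G_le ν _ _ h1 (db' (-δ)) (db (-δ)) le_rfl
  have h8 := hG.ms_le ν pb 0 h1 h4 fun y _ => S.nonpos ν h1 y
  rw [hG.ms_smul] at h7
  rw [exp_zero, one_mul] at h8
  have h9 := mul_le_mul (exp_le_one_iff.2 (neg_nonpos.2 hδ0)) h8 (hG.ms_nonneg _ _ h4) zero_le_one
  have h10 := mul_le_mul_of_nonneg_left (h7.trans (add_le_add_right h9 _))
    (Nat.cast_nonneg (α := ℝ) πb.natDegree)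
  have h11 := mul_le_mul_of_nonneg_left (I_nonneg hG h1 (da 0))
    (show 0 ≤ πa.natDegree * (1 + 3 * exp (-A)) by positivity)
  simp only [one_mul, sub_add_cancel, neg_add_cancel, MAS.I] at h6 h11 ⊢
  linarith

/-- the probes with the same part `F` in the direction of `E` -/
structure Fam (C : Cov n Γ E) (β m : ℝ) (μ : Measure (E × ℂ)) (pr : ℂ → ℝ → E × ℂ → ℝ)
    (F : E → ℝ) (a : ℝ) : Prop where
  a_nonneg : 0 ≤ a
  F_nonneg : ∀ z, 0 ≤ F z
  dens : ∀ w s, (QY C β m).Dens (pr w s)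
  int : ∀ w s, ∫ y, pr w s y ∂μ = 1
  up : ∀ w s y, pr w s y ≤ F y.1 * exp (s + a)
  lo : ∀ w s y, ‖y.2 - w‖ ^ 2 ≤ exp (-(s + 1)) → F y.1 * exp (s - a) ≤ pr w s y
  supp : ∀ w s y, pr w s y ≠ 0 → ‖y.2 - w‖ ^ 2 < exp (-s)

variable {pr : ℂ → ℝ → E × ℂ → ℝ} {F : E → ℝ} {a : ℝ}

theorem Fam.rem (h : Fam C β m μ pr F a) {w : ℂ} {s D T lam x : ℝ} {y : E × ℂ}
    (h1 : ‖y.2 - w‖ ^ 2 ≤ exp (-(s + D + 1))) (h2 : x ≤ -lam + T) :
    exp x * (exp lam * pr w s y) ≤ (exp (T + 2 * a - D) • pr w (s + D)) y := by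
  have e : exp (T + 2 * a - D) * exp (s + D - a) = exp (-lam + T) * exp lam * exp (s + a) := by
    simp only [← exp_add]; congr 1; ring
  have h3 := mul_le_mul (exp_le_exp.2 h2) (mul_le_mul_of_nonneg_left (h.up w s y) (exp_pos lam).le)
    (mul_nonneg (exp_pos _).le ((h.dens w s).nonneg y)) (exp_pos _).le
  have h4 := mul_le_mul_of_nonneg_left (h.lo w _ y h1) (exp_pos (T + 2 * a - D)).le
  simp only [Pi.smul_apply, smul_eq_mul]
  linear_combination h3 + h4 - F y.1 * e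

/-- the comparison of the densities -/
theorem Fam.cmp (h : Fam C β m μ pr F a) {w w' : ℂ} {s s' L j j' : ℝ} {y y' : E × ℂ}
    (h0 : y'.1 = y.1) (h1 : ‖y'.2 - w'‖ ^ 2 ≤ exp (-(s' + 1))) (hj : 0 ≤ j)
    (h2 : j ≤ exp (L - 2 * a - s + s') * j') : j * pr w s y ≤ exp L * (j' * pr w' s' y') := by
  have hj' : 0 ≤ j' := nonneg_of_mul_nonneg_right (hj.trans h2) (exp_pos _)
  have e : exp L * exp (s' - a) = exp (L - 2 * a - s + s') * exp (s + a) := by
    simp only [← exp_add]; congr 1; ring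
  have h3 := mul_le_mul h2 (h.up w s y) ((h.dens w s).nonneg y) (hj.trans h2)
  have h4 := mul_le_mul_of_nonneg_left (h0 ▸ h.lo w' s' y' h1) (mul_nonneg (exp_pos L).le hj')
  linear_combination h3 + h4 - j' * F y.1 * e

theorem int_smul (h : Fam C β m μ pr F a) (c : ℝ) (w : ℂ) (s : ℝ) :
    ∫ y, (c • pr w s) y ∂μ = c := by
  simp only [Pi.smul_apply, smul_eq_mul, integral_const_mul, h.int, mul_one]

theorem mono_jac (r : ℂ) {k : ℕ} (hk : 1 ≤ k) (y : E × ℂ) :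
    jac (Polynomial.C r * X ^ k) y * ‖y.2‖ ^ 2 = k ^ 2 * ‖(Polynomial.C r * X ^ k).eval y.2‖ ^ 2 := by
  obtain ⟨k, rfl⟩ := Nat.exists_eq_add_of_le' hk
  rw [jac, derivative_C_mul_X_pow]
  simp only [eval_mul, eval_C, eval_pow, eval_X, norm_mul, norm_pow, Complex.norm_natCast,
    Nat.add_sub_cancel]
  ring

/-- **HD** without parameters -/
theorem hd0 (hG : Gen S) (hm : 0 ≤ m) (h : Fam C β m μ pr F a) {ν : E × ℂ → ℝ}
    (h1 : (QY C β m).Dens ν) {s₁ s₂ M K D T A Λ : ℝ} (hM : 0 ≤ M) (u1 : 0 ≤ s₁ - M)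
    (u2 : 1 ≤ s₂ - M) (hK : 0 ≤ K) (hD : 0 ≤ D) (hA : 0 ≤ A) (hΛ : 0 ≤ Λ)
    (hν : ∀ y, ν y ≠ 0 → exp (-M) ≤ ‖y.2‖ ^ 2)
    (hbd : ∀ z w w', ‖w‖ ^ 2 = exp (-M) → ‖w'‖ ^ 2 = exp (-M) →
      S.φ ν (z, w) - K ≤ S.φ (ν + exp Λ • pr 0 s₁) (z, w'))
    (hdm : ∀ lam ≤ Λ, ∀ y, pr 0 s₂ y ≠ 0 → S.φ (ν + exp lam • pr 0 s₂) y ≤ -lam + T) :
    S.I (exp (Λ - (K + 2 * m + 1 + (2 * a + 2 + (s₁ - M + 2) / (s₂ - M) * (D + 1) + 2 * (s₂ - M)) +
        2 * A)) • pr 0 s₂) ν ≤ (s₁ - M + 2) / (s₂ - M) * (1 + 3 * exp (-A)) * S.I (exp Λ • pr 0 s₁) ν +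
      ((s₁ - M + 2) / (s₂ - M) * (2 * exp (-A) * S.G ν) + exp (T + 2 * a - D)) * Λ + 1 := by
  set u := s₂ - M with hu
  set ρ := (s₁ - M + 2) / u with hρ
  have u0 : 0 < u := by linarith
  have ρ0 : 0 ≤ ρ := by positivity
  obtain ⟨kb, b1, b2⟩ : ∃ k : ℕ, u ≤ k ∧ (k : ℝ) ≤ u + 1 :=
    ⟨⌈u⌉₊, Nat.le_ceil u, (Nat.ceil_lt_add_one u0.le).le⟩
  have b0 : (0 : ℝ) < kb := by linarith
  obtain ⟨ka, a1, a2⟩ : ∃ k : ℕ, kb * (s₁ - M + 1) ≤ k * u ∧ (k : ℝ) ≤ ρ * kb := by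
    refine ⟨⌈kb * (s₁ - M + 1) / u⌉₊, (div_le_iff₀ u0).1 (Nat.le_ceil _),
      (Nat.ceil_lt_add_one (by positivity)).le.trans ?_⟩
    rw [hρ, div_mul_eq_mul_div, div_add_one u0.ne', div_le_div_iff_of_pos_right u0]
    linarith
  have b3 : 1 ≤ kb := by exact_mod_cast b0
  have a3 : 1 ≤ ka := Nat.one_le_iff_ne_zero.2 fun e => by
    have : 0 < kb * (s₁ - M + 1) := by positivity
    simp only [e, Nat.cast_zero, zero_mul] at a1
    linarith
  set r : ℂ := ((exp (-(M / 2)) : ℝ) : ℂ) with hr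
  have r0 : r ≠ 0 := Complex.ofReal_ne_zero.2 (exp_pos _).ne'
  have ev : ∀ (k : ℕ) (ζ : ℂ), ‖(Polynomial.C r * X ^ k).eval ζ‖ ^ 2 = exp (-M) * (‖ζ‖ ^ 2) ^ k :=
    fun k ζ => by
      simp only [eval_mul, eval_C, eval_pow, eval_X, norm_mul, norm_pow, hr, Complex.norm_real,
        norm_eq_abs, abs_exp, mul_pow, ← exp_nat_mul, ← pow_mul, mul_comm k 2]
      congr 2
      push_cast
      ring
  have e1 : exp (-M) ≤ 1 := exp_le_one_iff.2 (neg_nonpos.2 hM)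
  have h2 := y4i hG hm ((natDegree_C_mul_X_pow ka r r0).symm ▸ a3)
    ((natDegree_C_mul_X_pow kb r r0).symm ▸ b3) h1 (h.dens 0 s₁) (h.dens 0 s₂)
    (hG.pg.dens_smul _ _ (exp_pos (T + 2 * a - D)).le (h.dens 0 (s₂ + D))) hm hK
    (L := 2 * a + 2 + ρ * (D + 1) + 2 * u) (by have := h.a_nonneg; positivity) hA hΛ
    (fun ζ hζ => by
      have : ∀ k : ℕ, m * (exp (-M) * (‖ζ‖ ^ 2) ^ k) ≤ m := fun k => mul_le_of_le_one_right hm
        (mul_le_one₀ e1 (by positivity) (pow_le_one₀ (by positivity)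
          (pow_le_one₀ (norm_nonneg _) hζ)))
      simp only [ev, this, and_self])
    (fun y hy => by
      have := hbd y.1 _ _ ((ev kb y.2).trans (by simp [hy])) ((ev ka y.2).trans (by simp [hy]))
      simp only [ev, hy, one_pow]
      simp only [up]
      linarith)
    (fun y hy => by
      by_contra h3
      have h4 := hν _ h3
      simp only [up, ev] at h4
      exact absurd h4 (not_le.2 (mul_lt_of_lt_one_right (exp_pos _) (pow_lt_one₀ (by positivity)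
        (pow_lt_one₀ (norm_nonneg _) hy two_ne_zero) (by omega)))))
    fun y hy => by
      have h3 := h.supp _ _ _ hy
      simp only [up, sub_zero, ev] at h3
      have h4 : ‖y.2‖ < 1 := by
        by_contra h4
        have := mul_le_mul_of_nonneg_left (one_le_pow₀ (n := kb) (one_le_pow₀ (n := 2)
          (not_lt.1 h4))) (exp_pos (-M)).le
        linarith [exp_le_exp.2 (show -s₂ ≤ -M by linarith)]
      refine ⟨h4, ?_⟩
      by_cases h5 : exp (-M) * (‖y.2‖ ^ 2) ^ kb ≤ exp (-(s₂ + D + 1))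
      · exact Or.inr fun lam hl => h.rem (by simpa only [up, sub_zero, ev] using h5)
          (hdm lam hl _ hy)
      have t0 : 0 < ‖y.2‖ ^ 2 := lt_of_le_of_ne (sq_nonneg _) fun e => h5 (by
        rw [← e, zero_pow (by omega), mul_zero]; exact (exp_pos _).le)
      obtain ⟨σ, hσ⟩ : ∃ σ, ‖y.2‖ ^ 2 = exp (-σ) := ⟨-log _, by rw [neg_neg, exp_log t0]⟩
      rw [hσ, ← exp_nat_mul, ← exp_add] at h3 h5
      have h6 := exp_lt_exp.1 h3
      have h7 := exp_lt_exp.1 (not_le.1 h5)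
      have σ0 : 0 ≤ σ := by
        by_contra h8
        nlinarith
      have h8 : s₁ - M + 1 ≤ ka * σ := le_of_mul_le_mul_left (by
        linarith [mul_le_mul_of_nonneg_left (show u ≤ kb * σ by linarith)
          (Nat.cast_nonneg (α := ℝ) ka)]) b0
      have h9 : ka * σ ≤ s₁ - M + 2 + ρ * (D + 1) := by
        have : ρ * u = s₁ - M + 2 := div_mul_cancel₀ _ u0.ne'
        nlinarith
      refine Or.inl (h.cmp rfl ?_ (jac_nonneg _ _) (le_of_mul_le_mul_right ?_ t0))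
      · simp only [up, sub_zero, ev]
        rw [hσ, ← exp_nat_mul, ← exp_add, exp_le_exp]
        linarith
      · rw [mul_assoc, mono_jac r a3, mono_jac r b3, ev, ev, hσ, ← exp_nat_mul, ← exp_nat_mul,
          ← exp_add, ← exp_add, mul_left_comm, ← exp_add]
        have h10 : (kb : ℝ) ^ 2 ≤ exp (2 * u) := by
          rw [show 2 * u = (2 : ℕ) * u by simp, exp_nat_mul]
          exact pow_le_pow_left₀ b0.le (b2.trans (add_one_le_exp u)) 2
        refine (mul_le_mul_of_nonneg_right h10 (exp_pos _).le).trans ?_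
        rw [← exp_add]
        exact (exp_le_exp.2 (by linarith)).trans (le_mul_of_one_le_left (exp_pos _).le
          (one_le_pow₀ (by exact_mod_cast a3)))
  rw [natDegree_C_mul_X_pow ka r r0, natDegree_C_mul_X_pow kb r r0, int_smul h, h.int] at h2
  have h3 := mul_le_mul_of_nonneg_right a2 (mul_nonneg (show 0 ≤ 1 + 3 * exp (-A) by positivity)
    (I_nonneg hG h1 (hG.pg.dens_smul _ _ (exp_pos Λ).le (h.dens 0 s₁))))
  have h4 := mul_le_mul_of_nonneg_right a2 (mul_nonneg (mul_nonneg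
    (show 0 ≤ 2 * exp (-A) by positivity) (hG.G_nonneg _ h1)) hΛ)
  refine le_of_mul_le_mul_left ?_ b0
  linarith

end Vale.Agent.P284Y.Y.Y4
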