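import Vale.Agent.P284Y.Y.Y4b

/-!
# P284Y, block Y: several separated probes
-/

set_option linter.all false

open scoped ContDiff Topology ComplexOrder ENNReal Matrix
open Filter Set Function Metric MeasureTheory

noncomputable section

namespace Vale.Agent.P284Y.Y.Y4

open Vale.Agent.P272.K Vale.Agent.P284Z Vale.Agent.P284Z.J Polynomial Real

variable {n : ℕ} {Γ E : Type} [Group Γ] [TopologicalSpace E] [MulAction Γ E] [MeasurableSpace E]
  [BorelSpace E] {C : Cov n Γ E} {β m : ℝ} {μ : Measure (E × ℂ)} {S : MAS (QY C β m) μ}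
  {pr : ℂ → ℝ → E × ℂ → ℝ} {F : E → ℝ} {a : ℝ}

theorem prod_bd {c : ℕ → ℂ} {z : ℂ} {ρ : ℝ} (h1 : 1 ≤ ρ) (k : ℕ) (h : ∀ i < k, ‖z - c i‖ ≤ ρ) :
    ‖(∏ i ∈ Finset.range k, (X - Polynomial.C (c i))).eval z‖ ≤ ρ ^ k ∧
      ‖(∏ i ∈ Finset.range k, (X - Polynomial.C (c i))).derivative.eval z‖ ≤ k * ρ ^ k := by
  induction k with
  | zero => simp
  | succ k ih =>
    obtain ⟨i1, i2⟩ := ih fun i hi => h i (hi.trans k.lt_succ_self)
    have h2 := h k k.lt_succ_self
    have h3 : 0 ≤ ρ ^ k := by positivity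
    simp only [Finset.prod_range_succ, derivative_mul, derivative_X_sub_C, mul_one, eval_add,
      eval_mul, eval_sub, eval_X, eval_C, norm_mul, pow_succ]
    refine ⟨mul_le_mul i1 h2 (norm_nonneg _) h3, (norm_add_le _ _).trans ?_⟩
    have := mul_le_mul i2 h2 (norm_nonneg _) (by positivity)
    rw [norm_mul]
    push_cast
    nlinarith

theorem e40 (hG : Gen S) (hm : 0 ≤ m) (h : Fam C β m μ pr F a) {k : ℕ} (hk : 1 ≤ k) {c : ℕ → ℂ}
    {η R s A Λ : ℝ} (hη : 0 < η) (hη' : η ≤ 1) (hs : 1 ≤ s) (hR : k * R ≤ 1 / 2)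
    (hc : ∀ i < k, ‖c i‖ ≤ R) (hsep : ∀ i < k, ∀ j < k, i ≠ j → 2 * η ≤ ‖c i - c j‖)
    (hA : 0 ≤ A) (hΛ : 0 ≤ Λ)
    (hbar : ∀ y : E × ℂ, 1 / 2 ≤ ‖y.2‖ → -2 ≤ S.φ (exp Λ • ∑ i ∈ Finset.range k, pr (c i) s) y) :
    k * S.G (exp (Λ - (12 * m + 4 + 3 * k - 2 * (k - 1) * log η + 2 * a + 2 * A)) •
        pr 0 (s + 1 - 2 * (k - 1) * log η)) ≤
      (1 + 3 * exp (-A)) * S.G (exp Λ • ∑ i ∈ Finset.range k, pr (c i) s) + k := by
  set ϖ : ℂ[X] := ∏ i ∈ Finset.range k, (X - Polynomial.C (c i)) with hϖ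
  have dg : ϖ.natDegree = k := (natDegree_finsetProd_X_sub_C_eq_card _ _).trans (Finset.card_range k)
  have k1 : (1 : ℝ) ≤ k := by exact_mod_cast hk
  have R0 : 0 ≤ R := (norm_nonneg _).trans (hc 0 hk)
  have bd : ∀ z : ℂ, ‖z‖ ≤ 1 → ‖ϖ.eval z‖ ^ 2 ≤ 4 ∧ ‖ϖ.derivative.eval z‖ ^ 2 ≤ exp (3 * k) :=
    fun z hz => by
      obtain ⟨b1, b2⟩ := prod_bd (one_le_exp R0) k fun i hi =>
        (norm_sub_le z (c i)).trans (by linarith [hc i hi, add_one_le_exp R])
      have b3 : (exp R ^ k) ^ 2 ≤ exp 1 := by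
        rw [← exp_nat_mul, ← exp_nat_mul]
        exact exp_le_exp.2 (by push_cast; linarith)
      refine ⟨(pow_le_pow_left₀ (norm_nonneg _) b1 2).trans (b3.trans (by linarith [exp_one_lt_d9])),
        (pow_le_pow_left₀ (norm_nonneg _) b2 2).trans ?_⟩
      rw [mul_pow, show 3 * (k : ℝ) = (2 : ℕ) * k + k by push_cast; ring, exp_add, exp_nat_mul]
      exact mul_le_mul (pow_le_pow_left₀ (by positivity) (by linarith [add_one_le_exp (k : ℝ)]) 2)
        (b3.trans (exp_le_exp.2 k1)) (by positivity) (by positivity)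
  have l0 := mul_nonneg (sub_nonneg.2 k1) (neg_nonneg.2 (log_nonpos hη.le hη'))
  have ux : ∀ y : E × ℂ, up X y = y := fun y => by simp [up]
  have h2 := y4i hG hm (πa := X) (πb := ϖ) natDegree_X.ge (dg.symm ▸ hk) hG.pg.dens_zero
    (hG.pg.dens_sum _ (Finset.range k) (fun i => pr (c i) s) fun i _ => h.dens _ _)
    (h.dens 0 (s + 1 - 2 * (k - 1) * log η)) hG.pg.dens_zero (K₀ := 4 * m) (K := 4 * m + 2)
    (L := 3 * k + (1 - 2 * (k - 1) * log η) + 2 * a) (by positivity) (by positivity)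
    (by linarith [h.a_nonneg]) hA hΛ
    (fun ζ hζ => ⟨by rw [eval_X]; nlinarith [pow_le_one₀ (n := 2) (norm_nonneg ζ) hζ],
      by nlinarith [(bd ζ hζ).1]⟩)
    (fun y hy => by
      have := hbar y (by linarith)
      have := mul_le_mul_of_nonneg_left (bd _ hy.le).1 hm
      have := mul_nonneg hm (sq_nonneg ‖(X : ℂ[X]).eval y.2‖)
      rw [hG.zero, zero_add, ux, Pi.zero_apply]
      linarith) (fun _ _ => rfl) fun y hy => by
      have h3 := h.supp _ _ _ hy
      obtain ⟨i, hi, hm⟩ := (Finset.range k).exists_min_image (fun j => ‖y.2 - c j‖)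
        ⟨0, Finset.mem_range.2 hk⟩
      have h4 : η ^ (k - 1) ≤ ∏ j ∈ (Finset.range k).erase i, ‖y.2 - c j‖ := by
        rw [← Finset.card_range k, ← Finset.card_erase_of_mem hi, Finset.card_range,
          ← Finset.prod_const]
        refine Finset.prod_le_prod (fun _ _ => hη.le) fun j hj => ?_
        obtain ⟨j1, j2⟩ := Finset.mem_erase.1 hj
        have := hsep i (Finset.mem_range.1 hi) j (Finset.mem_range.1 j2) j1.symm
        linarith [hm j j2, norm_sub_le_norm_sub_add_norm_sub (c i) y.2 (c j), norm_sub_rev (c i) y.2]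
      have h5 : ‖y.2 - c i‖ ^ 2 ≤ exp (-(s + 1)) := by
        simp only [up, sub_zero, hϖ, eval_prod, eval_sub, eval_X, eval_C, norm_prod] at h3
        rw [← Finset.mul_prod_erase _ _ hi, mul_pow, neg_sub, sub_eq_neg_add _ (s + 1), exp_add,
          show 2 * ((k : ℝ) - 1) * log η = (2 : ℕ) * ((k - 1 : ℕ) * log η) by
            rw [Nat.cast_pred hk]; push_cast; ring, exp_nat_mul, exp_nat_mul, exp_log hη] at h3
        exact le_of_mul_le_mul_right ((mul_le_mul_of_nonneg_left (pow_le_pow_left₀ (by positivity)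
          h4 2) (sq_nonneg _)).trans h3.le) (by positivity)
      have h6 : ‖y.2‖ < 1 := by
        have b1 : ‖y.2 - c i‖ ^ 2 < (1 / 2) ^ 2 := by
          refine (h5.trans (exp_le_exp.2 (by linarith : -(s + 1) ≤ -(1 + 1)))).trans_lt ?_
          rw [exp_neg, inv_lt_comm₀ (exp_pos _) (by norm_num), exp_add]
          nlinarith [exp_one_gt_d9]
        have b2 := norm_add_le (y.2 - c i) (c i)
        rw [sub_add_cancel] at b2
        nlinarith [lt_of_pow_lt_pow_left₀ 2 (by norm_num) b1, hc i (Finset.mem_range.1 hi)]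
      refine ⟨h6, Or.inl ((h.cmp (y := up ϖ y) (y' := y) (j' := 1) rfl h5 (jac_nonneg _ _) ((bd _ h6.le).2.trans
        (le_of_eq ?_))).trans (mul_le_mul_of_nonneg_left ?_ (exp_pos _).le))⟩
      · rw [mul_one]
        congr 1
        ring
      · rw [ux, show jac X y = 1 by simp [jac], one_mul, one_mul, Finset.sum_apply]
        exact Finset.single_le_sum (f := fun j => pr (c j) s y) (fun j _ => (h.dens _ _).nonneg y) hi
  rw [dg, I_zero, I_zero, h.int, S.G0, show 4 * m + 2 + 2 * (4 * m) + 1 + (3 * k + (1 - 2 * (k - 1) *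
    log η) + 2 * a) + 2 * A = 12 * m + 4 + 3 * k - 2 * (k - 1) * log η + 2 * a + 2 * A by ring] at h2
  simpa using h2

end Vale.Agent.P284Y.Y.Y4
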