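import Vale.Agent.P284Y.Y.Y4b

/-!
# P284Y, block Y: two probes against one, by the polynomial `z ^ N (z - τ)`
-/

set_option linter.all false

open scoped ContDiff Topology ComplexOrder ENNReal Matrix
open Filter Set Function Metric MeasureTheory

noncomputable section

namespace Vale.Agent.P284Y.Y.Y4

open Vale.Agent.P272.K Vale.Agent.P284Z Vale.Agent.P284Z.J Polynomial Real

theorem e3_two : 2 ≤ exp 1 := by linarith [add_one_le_exp (1 : ℝ)]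

theorem e3_four {x : ℝ} (h : 4 ≤ x) : 16 ≤ exp x := by
  refine le_trans ?_ (exp_le_exp.2 h)
  rw [show (4 : ℝ) = (4 : ℕ) * 1 by norm_num, exp_nat_mul]
  exact le_trans (by norm_num) (pow_le_pow_left₀ zero_le_two e3_two 4)

theorem e3_nk (k : ℕ) : ‖((k : ℂ) + 1)‖ = k + 1 := by exact_mod_cast Complex.norm_natCast (k + 1)

section pt
variable {k : ℕ} {z τ : ℂ} {M η s x y : ℝ}

theorem e3_a (hτ : ‖τ‖ ^ 2 = exp (-M)) (hη : η ≤ 1 / 4) (h4 : ‖z‖ ^ 2 < exp (-s))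
    (h5 : ‖z‖ ≤ η * ‖τ‖) (l0 : x + 1 ≤ (k + 1) * s + M) :
    (‖z‖ ^ (k + 1) * ‖z - τ‖) ^ 2 ≤ exp (-x) := by
  have h7 : ‖z - τ‖ ^ 2 ≤ exp 1 * exp (-M) := by
    have h8 : ‖z - τ‖ ≤ 5 / 4 * ‖τ‖ := by
      linarith [norm_sub_le z τ, mul_le_mul_of_nonneg_right hη (norm_nonneg τ)]
    nlinarith [pow_le_pow_left₀ (norm_nonneg _) h8 2, exp_pos (-M), e3_two]
  rw [mul_pow, ← pow_mul, mul_comm (k + 1), pow_mul]
  refine (mul_le_mul (pow_le_pow_left₀ (sq_nonneg _) h4.le _) h7 (sq_nonneg _)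
    (by positivity)).trans ?_
  rw [← exp_nat_mul, ← exp_add, ← exp_add, exp_le_exp]
  push_cast
  linarith

theorem e3_b (hτ : ‖τ‖ ^ 2 = exp (-M)) (hη : (k + 1 + 1) * η ≤ 1 / 2) (h5 : ‖z‖ ≤ η * ‖τ‖)
    (h6 : exp (-y) ≤ ‖z‖ ^ 2) (u0 : 4 + k * y + M ≤ x) :
    1 ≤ exp x * ((‖z‖ ^ 2) ^ k * ‖z + (k + 1) * (z - τ)‖ ^ 2) := by
  have h7 : ‖τ‖ / 2 ≤ ‖z + (k + 1) * (z - τ)‖ := by
    have h8 := norm_sub_norm_le ((k + 1 : ℂ) * τ) ((k + 1 : ℂ) * z + z)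
    have h9 := norm_add_le ((k + 1 : ℂ) * z) z
    rw [norm_sub_rev, show (k + 1 : ℂ) * z + z - (k + 1) * τ = z + (k + 1) * (z - τ) by ring] at h8
    rw [norm_mul, e3_nk] at h8 h9
    linarith [mul_le_mul_of_nonneg_left h5 (show (0 : ℝ) ≤ k + 1 + 1 by positivity),
      mul_le_mul_of_nonneg_right hη (norm_nonneg τ), mul_nonneg (k.cast_nonneg (α := ℝ))
      (norm_nonneg τ)]
  have h8 := mul_le_mul (pow_le_pow_left₀ (exp_pos _).le h6 k)
    (pow_le_pow_left₀ (by positivity) h7 2) (sq_nonneg _) (by positivity)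
  refine le_trans ?_ (mul_le_mul_of_nonneg_left h8 (exp_pos _).le)
  rw [div_pow, hτ, ← exp_nat_mul, ← mul_div_assoc, ← exp_add, ← mul_div_assoc, ← exp_add,
    le_div_iff₀ (by norm_num)]
  exact le_trans (by norm_num) (e3_four (by linarith))

theorem e3_c (hτ : ‖τ‖ ^ 2 = exp (-M)) (hη : (k + 1 + 1) * η ≤ 1 / 2) (h0 : 0 ≤ η)
    (h4 : ‖z - τ‖ ^ 2 < exp (-s)) (h5 : ‖z - τ‖ ≤ η * ‖τ‖) (l0 : x + 1 ≤ (k + 1) * M + s) :
    (‖z‖ ^ (k + 1) * ‖z - τ‖) ^ 2 ≤ exp (-x) := by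
  have h9 : ‖z‖ ^ 2 ≤ exp (η + η + -M) := by
    rw [exp_add, exp_add, ← hτ, ← sq, ← mul_pow]
    refine pow_le_pow_left₀ (norm_nonneg _) ?_ 2
    linarith [mul_le_mul_of_nonneg_right (add_one_le_exp η) (norm_nonneg τ), norm_sub_norm_le z τ]
  rw [mul_pow, ← pow_mul, mul_comm (k + 1), pow_mul]
  refine (mul_le_mul (pow_le_pow_left₀ (sq_nonneg _) h9 _) h4.le (sq_nonneg _)
    (by positivity)).trans ?_
  rw [← exp_nat_mul, ← exp_add, exp_le_exp]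
  push_cast
  linarith

theorem e3_d (hτ : ‖τ‖ ^ 2 = exp (-M)) (hη : (k + 1 + 1) * η ≤ 1 / 2) (h0 : 0 ≤ η)
    (h5 : ‖z - τ‖ ≤ η * ‖τ‖) (u0 : 4 + (k + 1) * M ≤ x) :
    1 ≤ exp x * ((‖z‖ ^ 2) ^ k * ‖z + (k + 1) * (z - τ)‖ ^ 2) := by
  have k0 := mul_nonneg (k.cast_nonneg (α := ℝ)) h0
  have h7 : (1 + -η) * ‖τ‖ ≤ ‖z‖ := by linarith [norm_sub_norm_le τ z, norm_sub_rev τ z]
  have h9 : ‖τ‖ / 2 ≤ ‖z + (k + 1) * (z - τ)‖ := by
    have h10 := norm_sub_norm_le z (-((k + 1 : ℂ) * (z - τ)))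
    rw [sub_neg_eq_add, norm_neg, norm_mul, e3_nk] at h10
    linarith [mul_le_mul_of_nonneg_left h5 (show (0 : ℝ) ≤ k + 1 by positivity),
      mul_le_mul_of_nonneg_right hη (norm_nonneg τ)]
  have h10 : 1 / 2 * ‖τ‖ ^ k ≤ ‖z‖ ^ k := by
    refine le_trans ?_ (pow_le_pow_left₀ (mul_nonneg (by linarith) (norm_nonneg _)) h7 k)
    rw [mul_pow]
    exact mul_le_mul_of_nonneg_right (le_trans (by linarith)
      (one_add_mul_le_pow (a := -η) (by linarith) k)) (by positivity)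
  have h11 := pow_le_pow_left₀ (by positivity) (mul_le_mul h10 h9 (by positivity)
    (by positivity)) 2
  rw [show (1 / 2 * ‖τ‖ ^ k * (‖τ‖ / 2)) ^ 2 = (‖τ‖ ^ 2) ^ (k + 1) / 16 by ring, mul_pow,
    ← pow_mul _ k, mul_comm k, pow_mul, hτ] at h11
  refine le_trans ?_ (mul_le_mul_of_nonneg_left h11 (exp_pos _).le)
  rw [← exp_nat_mul, ← mul_div_assoc, ← exp_add, le_div_iff₀ (by norm_num)]
  push_cast
  exact le_trans (by norm_num) (e3_four (by linarith))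

end pt

variable {n : ℕ} {Γ E : Type} [Group Γ] [TopologicalSpace E] [MulAction Γ E] [MeasurableSpace E]
  [BorelSpace E] {C : Cov n Γ E} {β m : ℝ} {μ : Measure (E × ℂ)} {S : MAS (QY C β m) μ}
  {pr : ℂ → ℝ → E × ℂ → ℝ} {F : E → ℝ} {a : ℝ}

theorem e30 (hG : Gen S) (hm : 0 ≤ m) (h : Fam C β m μ pr F a) {N : ℕ} (hN : 1 ≤ N) {τ : ℂ}
    {M η s₀ s₁ s' d D T A Λ : ℝ} (hτ : ‖τ‖ ^ 2 = exp (-M)) (hM : 2 ≤ M) (hη : 0 ≤ η)
    (hη' : (N + 1) * η ≤ 1 / 2) (h0 : exp (-s₀) ≤ η ^ 2 * exp (-M))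
    (h1 : exp (-s₁) ≤ η ^ 2 * exp (-M)) (l0 : s' + 2 ≤ N * s₀ + M) (u0 : N * s₀ + M ≤ s' + d)
    (l1 : s' + 2 ≤ N * M + s₁) (u1 : N * M + s₁ ≤ s' + d) (hD : 0 ≤ D) (hA : 0 ≤ A) (hΛ : 0 ≤ Λ)
    (hbar : ∀ y : E × ℂ, 1 / 2 ≤ ‖y.2‖ → -2 ≤ S.φ (exp Λ • pr 0 s') y)
    (hdm : ∀ lam ≤ Λ, ∀ y, pr 0 s₀ y ≠ 0 → S.φ (exp lam • (pr 0 s₀ + pr τ s₁)) y ≤ -lam + T) :
    S.G (exp (Λ - (9 * m + 6 + 2 * a + d + N * (D + 1) + 2 * A)) • (pr 0 s₀ + pr τ s₁)) ≤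
      (N + 1) * (1 + 3 * exp (-A)) * S.G (exp Λ • pr 0 s') + exp (T + 2 * a - D) * Λ + 2 := by
  obtain ⟨k, rfl⟩ := Nat.exists_eq_add_of_le' hN
  push_cast at *
  have k0 := mul_nonneg (k.cast_nonneg (α := ℝ)) hη
  have k1 := mul_nonneg (k.cast_nonneg (α := ℝ)) (add_nonneg hD zero_le_one)
  have t0 : 0 < ‖τ‖ :=
    (norm_nonneg τ).lt_of_ne fun e => (exp_pos (-M)).ne (by rw [← hτ, ← e]; ring)
  have t1 : ‖τ‖ ≤ 1 / 2 := by
    have h2 : exp (-M) * (exp 1 * exp 1) ≤ 1 := by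
      rw [← exp_add, ← exp_add]
      exact exp_le_one_iff.2 (by linarith)
    refine abs_le_of_sq_le_sq' ?_ (by norm_num) |>.2
    nlinarith [exp_pos (-M), mul_le_mul e3_two e3_two zero_le_two (exp_pos 1).le]
  have η1 : η ≤ 1 / 4 := by linarith
  have η2 := mul_le_mul_of_nonneg_right η1 t0.le
  have sm : ∀ {x s : ℝ}, 0 ≤ x → x ^ 2 < exp (-s) → exp (-s) ≤ η ^ 2 * exp (-M) → x ≤ η * ‖τ‖ :=
    fun hx h2 h3 => (abs_le_of_sq_le_sq' (by rw [mul_pow, hτ]; linarith) (by positivity)).2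
  obtain ⟨q, hq⟩ : ∃ q : ℂ[X], q = X ^ (k + 1) * (X - Polynomial.C τ) := ⟨_, rfl⟩
  have dg : q.natDegree = k + 2 := by
    rw [hq, natDegree_X_pow_mul _ (X_sub_C_ne_zero τ), natDegree_X_sub_C]
    ring
  have ev : ∀ z, ‖q.eval z‖ = ‖z‖ ^ (k + 1) * ‖z - τ‖ := fun z => by simp [hq]
  have ej : ∀ y : E × ℂ, jac q y = (‖y.2‖ ^ 2) ^ k * ‖y.2 + (k + 1) * (y.2 - τ)‖ ^ 2 := fun y => by
    rw [jac, show q.derivative.eval y.2 = y.2 ^ k * (y.2 + (k + 1) * (y.2 - τ)) by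
      simp [hq, derivative_X_pow]; ring, norm_mul, norm_pow]
    ring
  have eX : ∀ y : E × ℂ, up X y = y := fun y => by simp [up]
  have jX : ∀ y : E × ℂ, jac X y = 1 := fun y => by simp [jac]
  have h2 := y4i hG hm (πa := q) (πb := X) (by omega) natDegree_X.ge hG.pg.dens_zero (h.dens 0 s')
    (hG.pg.dens_add _ _ (h.dens 0 s₀) (h.dens τ s₁))
    (hG.pg.dens_smul _ _ (exp_pos (T + 2 * a - D)).le (h.dens 0 (s₀ + D))) (K₀ := 4 * m)
    (K := m + 2) (L := 2 * a + d + 3 + (k + 1) * (D + 1)) (by positivity) (by positivity)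
    (by linarith [h.a_nonneg]) hA hΛ
    (fun ζ hζ => by
      have h3 : ‖q.eval ζ‖ ≤ 2 := by
        rw [ev]
        exact (mul_le_of_le_one_left (norm_nonneg _) (pow_le_one₀ (norm_nonneg _) hζ)).trans
          (by linarith [norm_sub_le ζ τ])
      rw [eval_X]
      constructor
      · linarith [mul_le_mul_of_nonneg_left (pow_le_pow_left₀ (norm_nonneg _) h3 2) hm]
      · linarith [mul_le_mul_of_nonneg_left (pow_le_pow_left₀ (norm_nonneg _) hζ 2) hm])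
    (fun y hy => by
      have h3 := hbar (up q y) (by
        simp only [up, ev, hy, one_pow, one_mul]
        linarith [norm_sub_norm_le y.2 τ])
      rw [zero_add, eval_X, hy]
      linarith [S.nonpos _ hG.pg.dens_zero (up X y), mul_nonneg hm (sq_nonneg ‖q.eval y.2‖)])
    (fun _ _ => rfl) fun y hy => by
      simp only [eX, jX, zero_add, Pi.add_apply] at hy ⊢
      by_cases h3 : pr τ s₁ y = 0
      · rw [h3, add_zero] at hy ⊢
        have h4 := h.supp _ _ _ hy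
        rw [sub_zero] at h4
        have h5 := sm (norm_nonneg _) h4 h0
        refine ⟨by linarith, ?_⟩
        by_cases h6 : ‖y.2‖ ^ 2 ≤ exp (-(s₀ + D + 1))
        · exact Or.inr fun lam hl => h.rem (by rwa [sub_zero]) (hdm lam hl _ hy)
        refine Or.inl (h.cmp rfl ?_ zero_le_one ?_)
        · simp only [up, sub_zero, ev]
          exact e3_a hτ η1 h4 h5 (by linarith)
        · rw [ej]
          exact e3_b hτ hη' h5 (not_le.1 h6).le (by linarith)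
      · have h4 := h.supp _ _ _ h3
        have h5 := sm (norm_nonneg _) h4 h1
        have h8 : pr 0 s₀ y = 0 := not_not.1 fun h8 => by
          have h9 := sm (norm_nonneg _) (h.supp _ _ _ h8) h0
          rw [sub_zero] at h9
          linarith [norm_sub_norm_le τ y.2, norm_sub_rev τ y.2]
        rw [h8, zero_add]
        refine ⟨by linarith [norm_sub_norm_le y.2 τ], Or.inl (h.cmp rfl ?_ zero_le_one ?_)⟩
        · simp only [up, sub_zero, ev]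
          exact e3_c hτ hη' hη h4 h5 (by linarith)
        · rw [ej]
          exact e3_d hτ hη' hη h5 (by linarith)
  have hi : ∀ w s, Integrable (pr w s) μ := fun w s => by
    simpa using hG.pg.dens_int _ 1 (h.dens w s) continuous_one
  rw [dg, natDegree_X, I_zero, I_zero, int_smul h, S.G0] at h2
  simp only [Pi.add_apply] at h2
  rw [integral_add (hi _ _) (hi _ _), h.int, h.int, show m + 2 + 2 * (4 * m) + 1 +
    (2 * a + d + 3 + (k + 1) * (D + 1)) + 2 * A = 9 * m + 6 + 2 * a + d + (k + 1) * (D + 1) + 2 * A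
    by ring] at h2
  push_cast at h2
  linarith

end Vale.Agent.P284Y.Y.Y4
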