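import Vale.Agent.P284Y.Y.Y4b
import Vale.Agent.P284Y.Y.E12

/-!
# P284Y, block Y: the rows H and HD with real parameters
-/

set_option linter.all false

open scoped ContDiff Topology ComplexOrder ENNReal Matrix
open Filter Set Function Metric MeasureTheory

noncomputable section

namespace Vale.Agent.P284Y.Y.Y4

open Vale.Agent.P272.K Vale.Agent.P284Z Vale.Agent.P284Z.J Real

variable {n : ℕ} {Γ E : Type} [Group Γ] [TopologicalSpace E] [MulAction Γ E] [MeasurableSpace E]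
  [BorelSpace E] {C : Cov n Γ E} {β m : ℝ} {μ : Measure (E × ℂ)}

/-- the hypotheses, with real parameters -/
structure Cx (S : MAS (QY C β m) μ) (pr : ℂ → ℝ → E × ℂ → ℝ) (F : E → ℝ) (a K Z B σ Λ : ℝ) :
    Prop where
  gen : Gen S
  fam : Fam C β m μ pr F a
  hm : m = 64 * B
  hK : 1 ≤ K
  ha : a ≤ K
  hZ : 100 ≤ Z
  KZ : K ≤ Z
  hσ : Z ^ 4 ≤ σ
  hB : Z ^ 4 * σ ≤ B
  l : B * σ / 2 ≤ Λ
  u : Λ ≤ B * σ
  dom : ∀ w s ν lam, ‖w‖ ^ 2 ≤ exp (-9) → s ∈ Icc (σ / 2) (4 * Z * σ) → (QY C β m).Dens ν →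
    lam ≤ Λ → exp lam • pr w s ≤ ν → ∀ y, pr w s y ≠ 0 → S.φ ν y ≤ -lam + K * B
  mass : ∀ w s, ‖w‖ ^ 2 ≤ exp (-9) → s ∈ Icc (σ / 2) (4 * Z * σ) →
    S.msl 0 (pr w s) Λ ≤ K * (S.G (exp Λ • pr 0 s) / Λ)
  bar : ∀ (k : ℕ) (c : ℕ → ℂ) s, k ≤ 2 * Z → (∀ i, ‖c i‖ ^ 2 ≤ exp (-9)) →
    s ∈ Icc (σ / 2) (4 * Z * σ) → k * σ ≤ 2 * s →
    ∀ y : E × ℂ, 1 / 2 ≤ ‖y.2‖ → -2 ≤ S.φ (exp Λ • ∑ i ∈ Finset.range k, pr (c i) s) y

variable {S : MAS (QY C β m) μ} {pr : ℂ → ℝ → E × ℂ → ℝ} {F : E → ℝ} {a K Z B σ Λ : ℝ}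

theorem z9 : ‖(0 : ℂ)‖ ^ 2 ≤ exp (-9) := by simp [(exp_pos _).le]

namespace Cx
variable (h : Cx S pr F a K Z B σ Λ)
include h

theorem Z2 : 100 * Z ≤ Z ^ 2 := by nlinarith [h.hZ]

theorem Z4 : 10000 * Z ^ 2 ≤ Z ^ 4 := by nlinarith [h.hZ, h.Z2]

theorem σ1 : 10000 * Z ^ 2 ≤ σ := h.Z4.trans h.hσ

theorem σ0 : 0 < σ := by linarith [h.σ1, h.Z2, h.hZ]

theorem B1 : 10000 * Z * σ ≤ B := (mul_le_mul_of_nonneg_right
  (by linarith [h.Z4, h.Z2, h.hZ]) h.σ0.le).trans h.hB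

theorem B2 : 10000 * σ ≤ B := by nlinarith [h.B1, h.hZ, h.σ0]

theorem B3 : 1 ≤ B := by linarith [h.B2, h.σ1, h.Z2, h.hZ]

theorem KB : B ≤ K * B ∧ K ≤ K * B :=
  ⟨le_mul_of_one_le_left (by linarith [h.B3]) h.hK, le_mul_of_one_le_right (by linarith [h.hK]) h.B3⟩

theorem Λ0 : 0 < Λ := by nlinarith [h.l, h.σ0, h.B3]

theorem e2 : exp (-(2 * B)) * B ^ 2 ≤ 1 / 2 := by
  have := quadratic_le_exp_of_nonneg (show 0 ≤ 2 * B by linarith [h.B3])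
  rw [exp_neg, inv_mul_le_iff₀ (exp_pos _)]
  nlinarith [h.B3]

theorem e3 : exp (-(3 * B)) * (2 * B ^ 2) ≤ exp (-B) := by
  rw [show -(3 * B) = -B + -(2 * B) by ring, exp_add, mul_assoc]
  exact mul_le_of_le_one_right (exp_pos _).le (by linarith [h.e2])

theorem e4 : exp (-(3 * B)) * (10000 * Z * σ) ≤ 1 := by
  have h1 : exp (-B) ≤ 1 := exp_le_one_iff.2 (by linarith [h.B3])
  exact (mul_le_mul_of_nonneg_left (h.B1.trans (by nlinarith [h.B3])) (exp_pos _).le).trans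
    (h.e3.trans h1)

theorem e5 : exp (-(3 * B)) * (100 * σ) ≤ 1 :=
  (mul_le_mul_of_nonneg_left (by nlinarith [h.hZ, h.σ0]) (exp_pos _).le).trans h.e4

theorem e6 : exp (K * B + 2 * a - (K * B + 2 * a + 2 * B)) * Λ ≤ 1 := by
  rw [show K * B + 2 * a - (K * B + 2 * a + 2 * B) = -(2 * B) by ring]
  have := mul_le_mul_of_nonneg_left (h.u.trans (show B * σ ≤ B ^ 2 by
    nlinarith [h.B2, h.B3, h.σ0])) (exp_pos (-(2 * B))).le
  linarith [h.e2]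

theorem m0 : 0 ≤ m := by linarith [h.hm, h.B3]

theorem dn (l : ℝ) (w : ℂ) (s : ℝ) : (QY C β m).Dens (exp l • pr w s) :=
  h.gen.pg.dens_smul _ _ (exp_pos l).le (h.fam.dens w s)

theorem g0 (w : ℂ) (s : ℝ) : 0 ≤ S.G (exp Λ • pr w s) := h.gen.G_nonneg _ (h.dn _ _ _)

theorem c0 : 0 ≤ S.G (exp Λ • pr 0 σ) / σ := div_nonneg (h.g0 _ _) h.σ0.le

theorem msl0 (w : ℂ) (s : ℝ) : 0 ≤ S.msl 0 (pr w s) Λ := h.gen.ms_nonneg _ _ (h.dn _ _ _)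

theorem mem : σ ∈ Icc (σ / 2) (4 * Z * σ) := ⟨by linarith [h.σ0], by nlinarith [h.σ0, h.hZ]⟩

theorem hd1 {s₁ s₂ M K' : ℝ} {ν : E × ℂ → ℝ} (h1 : s₁ ∈ Icc (σ / 2) (4 * Z * σ))
    (h2 : s₂ ∈ Icc (σ / 2) (4 * Z * σ)) (hM : 0 ≤ M) (hM' : M ≤ σ / 4) (hK' : 0 ≤ K')
    (hν : (QY C β m).Dens ν) (h3 : ∀ y, ν y ≠ 0 → exp (-M) ≤ ‖y.2‖ ^ 2)
    (h4 : ∀ z w w', ‖w‖ ^ 2 = exp (-M) → ‖w'‖ ^ 2 = exp (-M) →
      S.φ ν (z, w) - K' ≤ S.φ (ν + exp Λ • pr 0 s₁) (z, w')) :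
    S.I (exp Λ • pr 0 s₂) ν ≤ (s₁ - M + 2) / (s₂ - M) * (1 + 3 * exp (-(3 * B))) *
      S.I (exp Λ • pr 0 s₁) ν + (s₁ - M + 2) / (s₂ - M) * (exp (-B) / 100 * S.G ν) + 2 +
      (K' + (140 + 6 * ((s₁ - M + 2) / (s₂ - M))) * (K * B)) * S.msl 0 (pr 0 s₂) Λ := by
  have := h.σ1
  have := h.Z2
  have := h.hZ
  have := h.B3
  have := h.fam.a_nonneg
  have := h.KB
  have := h.ha
  have := h.hK
  have := h.hm
  have := h.B1
  have := mul_pos (by linarith : 0 < Z) h.σ0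
  have h5 := hd0 h.gen h.m0 h.fam hν (s₁ := s₁) (s₂ := s₂) (D := K * B + 2 * a + 2 * B) (T := K * B)
    (A := 3 * B) hM (by linarith [h1.1]) (by linarith [h2.1]) hK' (by linarith) (by linarith) h.Λ0.le
    h3 h4 fun lam hl => h.dom 0 s₂ _ lam z9 h2
      (h.gen.pg.dens_add _ _ hν (h.dn _ _ _)) hl (le_add_of_nonneg_left hν.nonneg)
  have r0 : 0 ≤ (s₁ - M + 2) / (s₂ - M) := div_nonneg (by linarith [h1.1]) (by linarith [h2.1])
  generalize (s₁ - M + 2) / (s₂ - M) = ρ at *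
  have r1 := mul_le_mul_of_nonneg_left (show K * B + 2 * a + 2 * B + 1 ≤ 6 * (K * B) by linarith) r0
  have r2 := mul_nonneg r0 (show 0 ≤ K * B + 2 * a + 2 * B + 1 by linarith)
  have h6 := I_shift h.gen hν (h.fam.dens 0 s₂) (Λ := Λ) (K := K' + 2 * m + 1 + (2 * a + 2 +
    ρ * (K * B + 2 * a + 2 * B + 1) + 2 * (s₂ - M)) + 2 * (3 * B)) (by linarith [h2.1])
  have h7 := h6.trans (mul_le_mul_of_nonneg_right (show _ ≤ K' + (140 + 6 * ρ) * (K * B) by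
    linarith [h2.2]) (h.msl0 0 s₂))
  have h8 : 2 * exp (-(3 * B)) * Λ ≤ exp (-B) / 100 := by
    have := mul_le_mul_of_nonneg_left (h.u.trans (show B * σ ≤ B ^ 2 / 100 by
      nlinarith [h.B2, h.σ0])) (exp_pos (-(3 * B))).le
    linarith [h.e3]
  have h9 := mul_le_mul_of_nonneg_left h8 (mul_nonneg r0 (h.gen.G_nonneg _ hν))
  simp only [MAS.I] at h5 ⊢
  linarith [h.e6]

theorem h1 {s₁ s₂ : ℝ} (h1 : s₁ ∈ Icc (σ / 2) (4 * Z * σ)) (h2 : s₂ ∈ Icc (σ / 2) (4 * Z * σ)) :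
    S.G (exp Λ • pr 0 s₂) ≤ (s₁ + 2) / s₂ * (1 + 3 * exp (-(3 * B))) * S.G (exp Λ • pr 0 s₁) + 2 +
      (2 + (140 + 6 * ((s₁ + 2) / s₂)) * (K * B)) * S.msl 0 (pr 0 s₂) Λ := by
  have h3 := h.hd1 h1 h2 le_rfl (by linarith [h.σ0]) zero_le_two h.gen.pg.dens_zero
    (fun y hy => absurd rfl hy) fun z w w' _ hw => by
      have h4 := h.bar 1 (fun _ => 0) s₁ (by simp; linarith [h.hZ]) (fun _ => z9) h1
        (by simp; linarith [h1.1]) (z, w') (by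
          rw [neg_zero, exp_zero, pow_eq_one_iff_of_nonneg (norm_nonneg _) two_ne_zero] at hw
          rw [hw]
          norm_num)
      simpa [h.gen.zero] using h4
  simpa only [I_zero, S.G0, sub_zero, mul_zero, add_zero] using h3

theorem ms1 {w : ℂ} {s : ℝ} (hw : ‖w‖ ^ 2 ≤ exp (-9)) (hs : s ∈ Icc (σ / 2) (4 * Z * σ)) :
    B * S.msl 0 (pr w s) Λ * σ ≤ 2 * K * S.G (exp Λ • pr 0 s) := by
  have h1 := h.mass w s hw hs
  rw [← mul_div_assoc, le_div_iff₀ h.Λ0] at h1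
  linarith [mul_le_mul_of_nonneg_left h.l (h.msl0 w s)]

theorem crude {s : ℝ} (hs : s ∈ Icc (σ / 2) (4 * Z * σ)) :
    S.G (exp Λ • pr 0 s) ≤ 12 * S.G (exp Λ • pr 0 σ) + 4 := by
  have := h.σ1
  have := h.Z2
  have := h.hZ
  have := h.KB
  have := h.B3
  have h1 := h.h1 h.mem hs
  have r0 : 0 ≤ (σ + 2) / s := div_nonneg (by linarith) (by linarith [hs.1])
  have r1 : (σ + 2) / s ≤ 3 := (div_le_iff₀ (by linarith [hs.1])).2 (by linarith [hs.1])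
  have e1 : 1 + 3 * exp (-(3 * B)) ≤ 2 := by nlinarith [h.e5, exp_pos (-(3 * B))]
  have h2 := mul_le_mul_of_nonneg_right (mul_le_mul r1 e1 (by positivity) (by norm_num)) (h.g0 0 σ)
  have h3 := mul_le_mul_of_nonneg_right (show 2 + (140 + 6 * ((σ + 2) / s)) * (K * B) ≤
    160 * (K * B) by nlinarith) (h.msl0 0 s)
  have h4 : 160 * (K * B) * S.msl 0 (pr 0 s) Λ ≤ S.G (exp Λ • pr 0 s) / 2 := by
    refine le_of_mul_le_mul_right ?_ h.σ0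
    have h5 := mul_le_mul_of_nonneg_left (h.ms1 z9 hs) (show 0 ≤ 160 * K by linarith [h.hK])
    have h6 := mul_le_mul_of_nonneg_right (show 640 * K ^ 2 ≤ σ by nlinarith [h.hK, h.KZ])
      (h.g0 0 s)
    linarith
  linarith

theorem crude' {s : ℝ} (hs : s ∈ Icc (σ / 2) (4 * Z * σ)) :
    S.G (exp Λ • pr 0 s) ≤ 12 * σ * (S.G (exp Λ • pr 0 σ) / σ + 1) := by
  rw [mul_add, mul_assoc, mul_div_cancel₀ _ h.σ0.ne']
  linarith [h.crude hs, h.σ1, h.Z2, h.hZ]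

theorem ms2 {w : ℂ} {s : ℝ} (hw : ‖w‖ ^ 2 ≤ exp (-9)) (hs : s ∈ Icc (σ / 2) (4 * Z * σ)) :
    K * B * S.msl 0 (pr w s) Λ ≤ 24 * K ^ 2 * (S.G (exp Λ • pr 0 σ) / σ + 1) := by
  refine le_of_mul_le_mul_right ?_ h.σ0
  have h1 := mul_le_mul_of_nonneg_left (h.crude' hs) (show 0 ≤ 2 * K by linarith [h.hK])
  linarith [mul_le_mul_of_nonneg_left ((h.ms1 hw hs).trans h1) (show 0 ≤ K by linarith [h.hK])]

/-- **H** -/
theorem hh {s : ℝ} (hs : s ∈ Icc (σ / 2) (4 * Z * σ)) :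
    |S.G (exp Λ • pr 0 s) - S.G (exp Λ • pr 0 σ) * (σ / s)| ≤
      1600 * K ^ 2 * Z * (S.G (exp Λ • pr 0 σ) / σ + 1) := by
  have := h.σ1
  have := h.Z2
  have := h.hZ
  have := h.KB
  have := h.B3
  have σ0 := h.σ0
  have s0 : 0 < s := by linarith [hs.1]
  have h1 := h.h1 h.mem hs
  have h2 := h.h1 hs h.mem
  have m1 := h.ms2 z9 hs
  have m2 := h.ms2 z9 h.mem
  have n1 := h.msl0 0 s
  have n2 := h.msl0 0 σ
  have c1 := h.crude' hs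
  have g1 := h.g0 0 s
  have c0 := h.c0
  have e5 := h.e5
  have ε0 := exp_pos (-(3 * B))
  have hc := (div_mul_cancel₀ (S.G (exp Λ • pr 0 σ)) σ0.ne').symm
  generalize S.G (exp Λ • pr 0 σ) / σ = c at *
  rw [hc] at h1 h2 ⊢
  generalize exp (-(3 * B)) = ε at *
  have k1 : 1 ≤ K ^ 2 := one_le_pow₀ h.hK
  have k2 : c + 1 ≤ K ^ 2 * (c + 1) := le_mul_of_one_le_left (by linarith) k1
  have k3 := mul_le_mul_of_nonneg_right h.hZ (show 0 ≤ K ^ 2 * (c + 1) by linarith)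
  have r1 : σ / s ≤ 2 := (div_le_iff₀ s0).2 (by linarith [hs.1])
  have r2 : 0 ≤ σ / s := by positivity
  refine abs_sub_le_iff.2 ⟨?_, ?_⟩
  · have r3 : (σ + 2) / s ≤ 3 := (div_le_iff₀ s0).2 (by linarith [hs.1])
    have h3 := mul_le_mul_of_nonneg_right (show 2 + (140 + 6 * ((σ + 2) / s)) * (K * B) ≤
      160 * (K * B) by nlinarith) n1
    have h4 := mul_le_mul_of_nonneg_right r3 (show 0 ≤ ε * (c * σ) by positivity)
    have h5 := mul_le_mul_of_nonneg_right e5 c0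
    have h6 := mul_le_mul_of_nonneg_right r1 c0
    have e : (σ + 2) / s * (c * σ) = c * σ * (σ / s) + 2 * (σ / s * c) := by ring
    linarith
  · have r3 : (s + 2) / σ ≤ 5 * Z := (div_le_iff₀ σ0).2 (by nlinarith [hs.2])
    have h3 := mul_le_mul_of_nonneg_right (show 2 + (140 + 6 * ((s + 2) / σ)) * (K * B) ≤
      32 * Z * (K * B) by nlinarith) n2
    have h4 := mul_le_mul_of_nonneg_left m2 (show 0 ≤ 32 * Z by linarith)
    have h5 := mul_le_mul_of_nonneg_right h2 r2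
    have h6 := mul_le_mul_of_nonneg_left r1 (show 0 ≤ 2 + (2 + (140 + 6 * ((s + 2) / σ)) * (K * B)) *
      S.msl 0 (pr 0 σ) Λ by have := h.hK; positivity)
    have e : (s + 2) / σ * (σ / s) = 1 + 2 / σ * (σ / s) := by field_simp
    have h7 : ((s + 2) / σ * (1 + 3 * ε) * (σ / s) - 1) * σ ≤ 9 := by
      rw [mul_right_comm, e]
      have : 2 / σ * (σ / s) * σ = 2 * (σ / s) := by field_simp
      have := mul_le_mul_of_nonneg_left r1 ε0.le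
      nlinarith
    have h8 : 0 ≤ (s + 2) / σ * (1 + 3 * ε) * (σ / s) - 1 := by
      rw [mul_right_comm, e]
      have : 0 ≤ 2 / σ * (σ / s) := by positivity
      nlinarith
    have h9 := mul_le_mul_of_nonneg_left c1 h8
    have h10 := mul_le_mul_of_nonneg_right h7 (show 0 ≤ 12 * (c + 1) by linarith)
    linarith

/-- **HD** -/
theorem hd {s M K' : ℝ} {ν : E × ℂ → ℝ} (hs : s ∈ Icc (σ / 2) (4 * Z * σ)) (hM : 0 ≤ M)
    (hM' : M ≤ σ / 4) (hK' : 0 ≤ K') (hν : (QY C β m).Dens ν)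
    (h3 : ∀ y, ν y ≠ 0 → exp (-M) ≤ ‖y.2‖ ^ 2)
    (h4 : ∀ z w w', ‖w‖ ^ 2 = exp (-M) → ‖w'‖ ^ 2 = exp (-M) →
      S.φ ν (z, w) - K' ≤ S.φ (ν + exp Λ • pr 0 σ) (z, w')) :
    S.I (exp Λ • pr 0 s) ν ≤ S.I (exp Λ • pr 0 σ) ν * ((σ - M) / (s - M)) +
      10000 * K ^ 2 * (K' / B + 1) * (S.G (exp Λ • pr 0 σ) / σ + 1) + exp (-B) * S.G ν := by
  have := h.σ1
  have := h.Z2
  have := h.hZ
  have := h.KB
  have := h.B3
  have σ0 := h.σ0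
  have s0 : 0 < s - M := by linarith [hs.1]
  have h1 := h.hd1 h.mem hs hM hM' hK' hν h3 h4
  have m1 := h.ms2 z9 hs
  have n1 := h.msl0 0 s
  have c0 := h.c0
  have e5 := h.e5
  have ε0 := exp_pos (-(3 * B))
  have i0 := I_nonneg h.gen hν (h.dn Λ 0 σ)
  have i1 := h.gen.sub 0 ν _ h.gen.pg.dens_zero hν (h.dn Λ 0 σ) hν.nonneg
  rw [I_zero] at i1
  have hc := (div_mul_cancel₀ (S.G (exp Λ • pr 0 σ)) σ0.ne').symm
  generalize S.G (exp Λ • pr 0 σ) / σ = c at *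
  rw [hc] at i1
  generalize exp (-(3 * B)) = ε at *
  obtain ⟨x, rfl⟩ : ∃ x, K' = x * B := ⟨K' / B, (div_mul_cancel₀ _ (by linarith)).symm⟩
  have x0 : 0 ≤ x := nonneg_of_mul_nonneg_left hK' (by linarith)
  rw [mul_div_cancel_right₀ _ (by linarith)]
  have r3 : (σ - M + 2) / (s - M) ≤ 5 := (div_le_iff₀ s0).2 (by linarith [hs.1])
  have r4 : 2 / (s - M) * σ ≤ 8 := by
    rw [div_mul_eq_mul_div, div_le_iff₀ s0]
    linarith [hs.1]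
  have k1 : 1 ≤ K ^ 2 := one_le_pow₀ h.hK
  have k2 : c + 1 ≤ K ^ 2 * (c + 1) := le_mul_of_one_le_left (by linarith) k1
  have k3 := mul_nonneg x0 (show 0 ≤ K ^ 2 * (c + 1) by linarith)
  have h5 := mul_le_mul_of_nonneg_right (show x * B + (140 + 6 * ((σ - M + 2) / (s - M))) * (K * B) ≤
    (x + 170) * (K * B) by nlinarith) n1
  have h6 := mul_le_mul_of_nonneg_left m1 (show 0 ≤ x + 170 by linarith)
  have h7 := mul_le_mul r3 (mul_le_mul_of_nonneg_left i1 ε0.le) (by positivity) (by norm_num)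
  have h8 := mul_le_mul_of_nonneg_right e5 c0
  have h9 := mul_le_mul_of_nonneg_left i1 (show 0 ≤ 2 / (s - M) by positivity)
  have h10 := mul_le_mul_of_nonneg_right r4 c0
  have h11 := mul_nonneg (exp_pos (-B)).le (h.gen.G_nonneg _ hν)
  have h12 := mul_le_mul_of_nonneg_right r3 h11
  rw [add_div (σ - M)] at h1 h5 h7 h12
  linarith

end Cx

end Vale.Agent.P284Y.Y.Y4
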