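import Vale.Agent.P284Y.Y.Y4c
import Vale.Agent.P284Y.Y.Y4d
import Vale.Agent.P284Y.Y.Y4e
import Vale.Agent.P284Y.Y.R58

/-!
# P284Y, block Y: the rows E4 and E3' with real parameters
-/

set_option linter.all false

open scoped ContDiff Topology ComplexOrder ENNReal Matrix
open Filter Set Function Metric MeasureTheory

noncomputable section

namespace Vale.Agent.P284Y.Y.Y4

open Vale.Agent.P272.K Vale.Agent.P284Z Vale.Agent.P284Z.J Real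

theorem om_pow (N d : ℕ) : om N ^ d = Complex.exp (Complex.I * (d * π / N : ℝ)) := by
  rw [om, ← Complex.exp_nat_mul]
  congr 1
  push_cast
  ring

theorem norm_om (N d : ℕ) : ‖om N ^ d‖ = 1 := by rw [om_pow, Complex.norm_exp_I_mul_ofReal]

theorem om_sep {N i j : ℕ} (hi : i < j) (hj : j < 2 * N) : 2 / N ≤ ‖om N ^ i - om N ^ j‖ := by
  obtain ⟨d, rfl⟩ := Nat.exists_eq_add_of_lt hi
  have N0 : (0 : ℝ) < N := by exact_mod_cast (show 0 < N by omega)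
  have d0 : (0 : ℝ) ≤ d := d.cast_nonneg
  have d1 : (d : ℝ) + 1 + 1 ≤ 2 * N := by exact_mod_cast (show d + 1 + 1 ≤ 2 * N by omega)
  rw [add_assoc, pow_add, ← mul_one_sub, norm_mul, norm_om, one_mul, norm_sub_rev, om_pow,
    Complex.norm_exp_I_mul_ofReal_sub_one, norm_eq_abs]
  refine le_trans ?_ (le_abs_self _)
  have key : ∀ x : ℝ, 1 ≤ x → x ≤ N → 2 / N ≤ 2 * sin (x * π / N / 2) := fun x h1 h2 => by
    have h3 := mul_le_sin (x := x * π / N / 2) (by positivity)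
      (div_le_div_of_nonneg_right ((div_le_iff₀ N0).2 (by nlinarith [pi_pos])) zero_le_two)
    have e : 2 / π * (x * π / N / 2) = x / N := by field_simp
    have h4 := div_le_div_of_nonneg_right h1 N0.le
    rw [e] at h3
    rw [show (2 : ℝ) / N = 2 * (1 / N) by ring]
    linarith
  push_cast
  rcases le_total ((d : ℝ) + 1) N with h | h
  · exact key _ (by linarith) h
  · rw [← sin_pi_sub, show π - (d + 1) * π / N / 2 = (2 * N - (d + 1)) * π / N / 2 by field_simp]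
    exact key _ (by linarith) (by linarith)

theorem inv_lo {x v : ℝ} (h : 0 < x + v) : x - v ≤ x * (x / (x + v)) := by
  rw [← mul_div_assoc, le_div_iff₀ h]
  nlinarith [sq_nonneg v]

theorem inv_up {x v : ℝ} (hx : 0 < x) (h : 0 ≤ v) : x * (x / (x + v)) ≤ x - v + v ^ 2 / x := by
  have e : x * (x / (x + v)) = x - v + v ^ 2 / (x + v) := by
    field_simp
    ring
  linarith [div_le_div_of_nonneg_left (sq_nonneg v) hx (le_add_of_nonneg_right h)]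

theorem e4n {k N M Z σ c ε W d X gN gb gd : ℝ} (hZ : 100 ≤ Z) (N1 : 1 ≤ N) (hNZ : N ≤ Z)
    (k3 : N ≤ k) (k4 : k ≤ 2 * N) (M1 : Z ^ 4 ≤ M) (σ0 : 0 < σ) (d0 : 0 ≤ d) (d1 : d ≤ k * M)
    (c0 : 0 ≤ c) (W1 : c + 1 ≤ W) (ε0 : 0 ≤ ε) (e4 : ε * (10000 * Z * σ) ≤ 1) (g0 : 0 ≤ gN)
    (h1 : k * gd ≤ (1 + 3 * ε) * X + k) (h2 : gb - gd ≤ 24 * 790 * W)
    (h3 : gN - c * σ * (σ / (N * σ)) ≤ 1600 * W * Z)
    (h4 : c * σ * (σ / (N * σ + d)) - gb ≤ 1600 * W * Z) (h5 : gN ≤ 12 * σ * (c + 1)) :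
    k * gN - ((k / N) ^ 2 * M * (c + 1) + 10000 * ((k / N) ^ 2 * (M / Z) * W)) ≤ X := by
  have k0 : 0 ≤ k := by linarith
  have Z0 : 0 < Z := by linarith
  have t1 : 1 ≤ (k / N) ^ 2 := one_le_pow₀ ((one_le_div (by linarith)).2 k3)
  have M0 : 0 ≤ M := (pow_pos Z0 4).le.trans M1
  have h6 : k * (σ * (σ / (N * σ)) - σ * (σ / (N * σ + d))) ≤ (k / N) ^ 2 * M := by
    refine le_of_mul_le_mul_left ?_ (show (0 : ℝ) < N ^ 2 by positivity)
    have h7 := mul_le_mul_of_nonneg_left (inv_lo (x := N * σ) (v := d) (by positivity)) k0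
    have h8 := mul_le_mul_of_nonneg_left d1 k0
    have e1 : N ^ 2 * (σ * (σ / (N * σ))) = N * σ := by field_simp
    have e2 : N ^ 2 * ((k / N) ^ 2 * M) = k * (k * M) := by field_simp
    rw [e2]
    linear_combination h7 + h8 + k * e1
  have q1 : Z ^ 2 ≤ (k / N) ^ 2 * (M / Z) := le_trans ((le_div_iff₀ Z0).2
    (((pow_succ Z 2).ge.trans (pow_le_pow_right₀ (by linarith) (by norm_num))).trans M1))
    (le_mul_of_one_le_left (by positivity) t1)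
  have t2 : 0 ≤ (k / N) ^ 2 * M := by positivity
  have W0 : 0 ≤ W := by linarith
  have q2 := mul_le_mul_of_nonneg_right q1 W0
  have q4 := mul_le_mul_of_nonneg_right hZ W0
  have q3 := mul_le_mul_of_nonneg_right q4 Z0.le
  have q5 := mul_le_mul_of_nonneg_right (show k ≤ 2 * Z by linarith) W0
  have q6 := mul_le_mul_of_nonneg_right q5 Z0.le
  have q7 := mul_le_mul_of_nonneg_left (show 1 ≤ W by linarith) k0
  rcases le_total (k * gN) X with h7 | h7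
  · linarith [mul_nonneg t2 c0]
  have h8 := mul_le_mul_of_nonneg_left (h7.trans (mul_le_mul (show k ≤ 2 * Z by linarith) h5 g0
    (by linarith))) ε0
  have h9 := mul_le_mul_of_nonneg_right e4 (show 0 ≤ c + 1 by linarith)
  linarith [mul_le_mul_of_nonneg_left h2 k0, mul_le_mul_of_nonneg_left h3 k0,
    mul_le_mul_of_nonneg_left h4 k0, mul_le_mul_of_nonneg_right h6 c0]

theorem e3n {N x Z σ c ε W g gN g0 g1 : ℝ} (hZ : 100 ≤ Z) (N1 : 1 ≤ N) (hNZ : N ≤ Z)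
    (x0 : Z ^ 2 * Z ≤ x) (M2 : Z ^ 2 * (N * x) ≤ σ) (σ0 : 0 < σ) (c0 : 0 ≤ c) (W1 : c + 1 ≤ W)
    (ε0 : 0 ≤ ε) (e4 : ε * (10000 * Z * σ) ≤ 1) (g2 : 0 ≤ g1)
    (h1 : g ≤ (N + 1) * (1 + 3 * ε) * g1 + 4 + 2 * (24 * (16 * Z) * W) - g0)
    (a1 : c * σ * (σ / (N * σ)) - gN ≤ 1600 * W * Z)
    (a2 : c * σ * (σ / (σ + (N * x - x + 1))) - g0 ≤ 1600 * W * Z)
    (a3 : g1 - c * σ * (σ / (N * (σ + (N * x - 3)))) ≤ 1600 * W * Z) (a4 : g1 ≤ 12 * σ * (c + 1)) :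
    g ≤ gN - 2 * (c * x) + 10000 * (x / Z * W) := by
  have Z0 : 0 < Z := by linarith
  obtain ⟨q, rfl⟩ : ∃ q, x = Z * q := ⟨x / Z, (mul_div_cancel₀ _ Z0.ne').symm⟩
  rw [mul_div_cancel_left₀ _ Z0.ne']
  have q1 : Z ^ 2 ≤ q := le_of_mul_le_mul_left (by linarith) Z0
  have Z2 : 100 * Z ≤ Z ^ 2 := by nlinarith
  have q0 : 0 ≤ q := by linarith
  have x1 : 100 * q ≤ Z * q := mul_le_mul_of_nonneg_right hZ q0
  have x2 : Z * q ≤ N * (Z * q) := le_mul_of_one_le_left (by linarith) N1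
  have i1 := inv_lo (x := σ) (v := N * (Z * q) - Z * q + 1) (by linarith)
  have i2 := inv_up σ0 (show 0 ≤ N * (Z * q) - 3 by linarith)
  have i3 : (N * (Z * q) - 3) ^ 2 / σ ≤ q := by
    rw [div_le_iff₀ σ0]
    have h9 := mul_le_mul_of_nonneg_left M2 q0
    have h10 := mul_le_mul_of_nonneg_right hNZ (show 0 ≤ Z * q * (N * (Z * q)) by positivity)
    linarith
  have i4 : (N + 1) * (σ * (σ / (N * (σ + (N * (Z * q) - 3))))) - σ * (σ / (σ + (N * (Z * q) -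
      Z * q + 1))) - σ * (σ / (N * σ)) + 2 * (Z * q) ≤ 7 + 2 * q := by
    refine le_of_mul_le_mul_left ?_ (show (0 : ℝ) < N by linarith)
    have e1 : N * (σ * (σ / (N * σ))) = σ := by field_simp
    have e2 : N * (σ * (σ / (N * (σ + (N * (Z * q) - 3))))) = σ * (σ / (σ + (N * (Z * q) - 3))) := by
      have : σ + (N * (Z * q) - 3) ≠ 0 := by linarith
      field_simp
    have h9 := mul_le_mul_of_nonneg_left (i2.trans (add_le_add_right i3 _))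
      (show (0 : ℝ) ≤ N + 1 by linarith)
    have h10 := mul_le_mul_of_nonneg_left i1 (show 0 ≤ N by linarith)
    have h11 := mul_le_mul_of_nonneg_right N1 (show 0 ≤ 3 + q by linarith)
    linear_combination h9 + h10 + h11 + (N + 1) * e2 - e1
  have W0 : 0 ≤ W := by linarith
  have q2 := mul_le_mul_of_nonneg_right q1 W0
  have q3 := mul_le_mul_of_nonneg_right Z2 W0
  have q4 := mul_le_mul_of_nonneg_right hZ W0
  have q5 := mul_le_mul_of_nonneg_right hNZ (mul_nonneg W0 Z0.le)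
  have q6 := mul_le_mul_of_nonneg_left (show c ≤ W by linarith) q0
  have h9 := mul_le_mul_of_nonneg_left (mul_le_mul (show N + 1 ≤ 2 * Z by linarith) a4 g2
    (by linarith)) ε0
  have h10 := mul_le_mul_of_nonneg_right e4 (show 0 ≤ c + 1 by linarith)
  linarith [mul_le_mul_of_nonneg_left a3 (show 0 ≤ N + 1 by linarith),
    mul_le_mul_of_nonneg_right i4 c0]

theorem e4p {k N M Z σ d : ℝ} (hZ : 100 ≤ Z) (N1 : 1 ≤ N) (hNZ : N ≤ Z) (k3 : N ≤ k)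
    (k4 : k ≤ 2 * N) (M1 : Z ^ 4 ≤ M) (M2 : Z ^ 2 * M ≤ σ)
    (hd : 2 * (k - 1) * (-(M / 2) + -Z) = 1 - d) : 10000 * Z ≤ M ∧ M ≤ σ ∧ 1 ≤ d ∧ d ≤ k * M ∧
      d ≤ σ ∧ k * σ ≤ 2 * (N * σ) ∧ N * σ ∈ Icc (σ / 2) (4 * Z * σ) ∧
      N * σ + d ∈ Icc (σ / 2) (4 * Z * σ) := by
  have Z2 : 100 * Z ≤ Z ^ 2 := by nlinarith
  have Z4 : 10000 * Z ^ 2 ≤ Z ^ 4 := by nlinarith
  have M0 : 0 ≤ M := by linarith
  have h1 := mul_le_mul_of_nonneg_right Z2 M0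
  have h2 := mul_le_mul_of_nonneg_right hZ M0
  have h3 := mul_le_mul_of_nonneg_right (show k ≤ 2 * Z by linarith) M0
  have h4 := mul_le_mul_of_nonneg_right (show k ≤ 2 * Z by linarith) (show 0 ≤ Z by linarith)
  have h5 := mul_nonneg (show 0 ≤ k - 1 by linarith) (show 0 ≤ M / 2 + Z by linarith)
  have σ0 : 0 ≤ σ := by linarith
  have h6 := mul_le_mul_of_nonneg_right N1 σ0
  have h7 := mul_le_mul_of_nonneg_right hNZ σ0
  have h8 := mul_le_mul_of_nonneg_right hZ σ0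
  have h9 := mul_le_mul_of_nonneg_right k4 σ0
  refine ⟨?_, ?_, ?_, ?_, ?_, ?_, ⟨?_, ?_⟩, ?_, ?_⟩ <;> linarith

theorem e3p {N x Z σ : ℝ} (hZ : 100 ≤ Z) (N1 : 1 ≤ N) (hNZ : N ≤ Z) (M1 : Z ^ 4 ≤ N * x)
    (M2 : Z ^ 2 * (N * x) ≤ σ) : Z ^ 2 * Z ≤ x ∧ 0 ≤ x ∧ x ≤ N * x ∧ 9 ≤ N * x ∧
      100 * (N * x) ≤ σ ∧ 100 * Z ≤ σ ∧ σ ≤ N * σ ∧ N * σ ∈ Icc (σ / 2) (4 * Z * σ) ∧
      σ + (N * x - x + 1) ∈ Icc (σ / 2) (4 * Z * σ) ∧
      N * (σ + (N * x - 3)) ∈ Icc (σ / 2) (4 * Z * σ) := by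
  have Z2 : 100 * Z ≤ Z ^ 2 := by nlinarith
  have Z4 : 10000 * Z ^ 2 ≤ Z ^ 4 := by nlinarith
  have M0 : 0 ≤ N * x := by linarith
  have h1 := mul_le_mul_of_nonneg_right Z2 M0
  have h2 := mul_le_mul_of_nonneg_right hZ M0
  have x0 : Z ^ 2 * Z ≤ x := le_of_mul_le_mul_left (by
    linarith [mul_le_mul_of_nonneg_right hNZ (pow_pos (show 0 < Z by linarith) 3).le])
    (show 0 < N by linarith)
  have x1 : 0 ≤ x := le_trans (mul_nonneg (sq_nonneg _) (by linarith)) x0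
  have x2 : x ≤ N * x := le_mul_of_one_le_left x1 N1
  have σ0 : 0 ≤ σ := by linarith
  have n1 := mul_le_mul_of_nonneg_right N1 σ0
  have n2 := mul_le_mul_of_nonneg_right hNZ σ0
  have n3 := mul_le_mul_of_nonneg_right hZ σ0
  have n4 := mul_le_mul hNZ (show N * x ≤ σ by linarith) M0 (by linarith)
  have n5 := mul_le_mul_of_nonneg_right N1 (show 0 ≤ N * x - 3 by linarith)
  refine ⟨x0, x1, x2, ?_, ?_, ?_, ?_, ⟨?_, ?_⟩, ⟨?_, ?_⟩, ?_, ?_⟩ <;> linarith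

variable {n : ℕ} {Γ E : Type} [Group Γ] [TopologicalSpace E] [MulAction Γ E] [MeasurableSpace E]
  [BorelSpace E] {C : Cov n Γ E} {β m : ℝ} {μ : Measure (E × ℂ)} {S : MAS (QY C β m) μ}
  {pr : ℂ → ℝ → E × ℂ → ℝ} {F : E → ℝ} {a K Z B σ Λ : ℝ}

namespace Cx
variable (h : Cx S pr F a K Z B σ Λ)
include h

theorem shift {w : ℂ} {s δ t : ℝ} {ν : E × ℂ → ℝ} (hν : (QY C β m).Dens ν)
    (hw : ‖w‖ ^ 2 ≤ exp (-9)) (hs : s ∈ Icc (σ / 2) (4 * Z * σ)) (h0 : 0 ≤ δ)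
    (h1 : δ ≤ t * (K * B)) : S.G (ν + exp Λ • pr w s) - S.G (ν + exp (Λ - δ) • pr w s) ≤
      24 * t * (K ^ 2 * (S.G (exp Λ • pr 0 σ) / σ + 1)) := by
  have t0 : 0 ≤ t := nonneg_of_mul_nonneg_left (h0.trans h1) (by linarith [h.KB, h.B3])
  linarith [I_shift h.gen hν (h.fam.dens w s) (Λ := Λ) h0,
    mul_le_mul_of_nonneg_right h1 (h.msl0 w s), mul_le_mul_of_nonneg_left (h.ms2 hw hs) t0]

theorem hh' {s : ℝ} (hs : s ∈ Icc (σ / 2) (4 * Z * σ)) :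
    |S.G (exp Λ • pr 0 s) - S.G (exp Λ • pr 0 σ) / σ * σ * (σ / s)| ≤
      1600 * (K ^ 2 * (S.G (exp Λ • pr 0 σ) / σ + 1)) * Z := by
  rw [div_mul_cancel₀ _ h.σ0.ne']
  exact (h.hh hs).trans_eq (by ring)

theorem W1 : S.G (exp Λ • pr 0 σ) / σ + 1 ≤ K ^ 2 * (S.G (exp Λ • pr 0 σ) / σ + 1) :=
  le_mul_of_one_le_left (by linarith [h.c0]) (one_le_pow₀ h.hK)

/-- **E4** -/
theorem e4r {N k : ℕ} {τ : ℂ} {M : ℝ} (hN : 1 ≤ N) (hNZ : N ≤ Z) (k1 : N ≤ k) (k2 : k ≤ 2 * N)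
    (M1 : Z ^ 4 ≤ M) (M2 : Z ^ 2 * M ≤ σ) (hτ : ‖τ‖ ^ 2 = exp (-M)) :
    k * S.G (exp Λ • pr 0 (N * σ)) -
        (k / N) ^ 2 * (1 + 10000 * K ^ 2 / Z) * ((S.G (exp Λ • pr 0 σ) / σ + 1) * M) ≤
      S.G (exp Λ • ∑ i ∈ Finset.range k, pr (τ * om N ^ i) (N * σ)) := by
  have hZ := h.hZ
  have N1 : (1 : ℝ) ≤ N := by exact_mod_cast hN
  have k3 : (N : ℝ) ≤ k := by exact_mod_cast k1
  have k4 : (k : ℝ) ≤ 2 * N := by exact_mod_cast k2
  obtain ⟨d, hd⟩ : ∃ d, 2 * (k - 1) * log (exp (-(M / 2) + -Z)) = 1 - d :=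
    ⟨_, (sub_sub_cancel _ _).symm⟩
  obtain ⟨p1, p2, d0, d1, d2, p3, sN, sb⟩ := e4p hZ N1 hNZ k3 k4 M1 M2 (log_exp _ ▸ hd)
  have τ1 : ‖τ‖ = exp (-(M / 2)) := (sq_eq_sq₀ (norm_nonneg _) (exp_pos _).le).1 (by
    rw [hτ, sq, ← exp_add]; congr 1; ring)
  have sep : ∀ i j, i < j → j < k → 2 * exp (-(M / 2) + -Z) ≤ ‖τ * om N ^ i - τ * om N ^ j‖ :=
    fun i j h1 h2 => by
      have h3 : exp (-Z) ≤ 1 / N := by
        rw [exp_neg, one_div]
        exact inv_anti₀ (by linarith) (by linarith [add_one_le_exp Z])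
      rw [← mul_sub, norm_mul, τ1, exp_add, mul_left_comm]
      refine mul_le_mul_of_nonneg_left (le_trans ?_ (om_sep h1 (by omega))) (exp_pos _).le
      rw [show (2 : ℝ) / N = 2 * (1 / N) by ring]
      linarith
  have h1 := e40 h.gen h.m0 h.fam (k := k) (by omega) (c := fun i => τ * om N ^ i)
    (exp_pos (-(M / 2) + -Z)) (exp_le_one_iff.2 (by linarith)) (s := N * σ) (by linarith [sN.1])
    (R := exp (-(M / 2))) (A := 3 * B) (by
      rw [exp_neg, mul_inv_le_iff₀ (exp_pos _)]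
      linarith [add_one_le_exp (M / 2)]) (fun i _ => by rw [norm_mul, norm_om, mul_one, τ1])
    (fun i hi j hj e => (lt_or_gt_of_ne e).elim (fun h => sep i j h hj) fun h =>
      (sep j i h hi).trans_eq (norm_sub_rev _ _)) (by linarith [h.B3]) h.Λ0.le
    (h.bar k _ _ (by linarith) (fun i => by
      rw [norm_mul, norm_om, mul_one, hτ]
      exact exp_le_exp.2 (by linarith)) sN p3)
  rw [hd, show N * σ + 1 - (1 - d) = N * σ + d by ring] at h1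
  have h2 := h.shift h.gen.pg.dens_zero z9 sb (δ := 12 * m + 4 + 3 * k - (1 - d) + 2 * a + 2 * (3 * B))
    (t := 790) (by linarith [h.m0, h.B3, h.fam.a_nonneg])
    (by linarith [h.KB.1, h.KB.2, h.hm, h.ha, h.B2])
  simp only [zero_add] at h2
  exact le_of_eq_of_le (by ring) (e4n hZ N1 hNZ k3 k4 M1 h.σ0 (by linarith) d1 h.c0 h.W1
    (exp_pos _).le h.e4 (h.g0 _ _) h1 h2 (abs_sub_le_iff.1 (h.hh' sN)).1
    (abs_sub_le_iff.1 (h.hh' sb)).2 (h.crude' sN))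

theorem free {s δ : ℝ} (hs : σ + 1 ≤ s) (hδ : K * B ≤ δ) {p : E × ℂ → ℝ} (dP : (QY C β m).Dens p) :
    S.I p (exp Λ • pr 0 σ) ≤ S.I p (exp (Λ - δ) • pr 0 s) + 1 := by
  have dX := h.dn Λ 0 σ
  have dX' := h.dn (Λ - δ) 0 s
  have dXX := h.gen.pg.dens_add _ _ dX dX'
  have h4 := h.gen.sub _ _ _ dX' dXX dP (le_add_of_nonneg_left dX.nonneg)
  have h5 := h.gen.G_mono _ _ (h.gen.pg.dens_add _ _ dX dP) (h.gen.pg.dens_add _ _ dXX dP)
    (add_le_add_left (le_add_of_nonneg_right dX'.nonneg) _)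
  have h6 := h.gen.G_le _ _ _ dX dXX dX' le_rfl
  have h7 := h.gen.ms_le _ _ (-Λ + K * B) dX dX' fun y hy => h.dom 0 σ _ Λ z9 h.mem dX le_rfl le_rfl y
    (by
      have h8 := right_ne_zero_of_mul hy
      have h9 := (lt_of_le_of_ne ((h.fam.dens 0 s).nonneg y) h8.symm).trans_le (h.fam.up _ _ y)
      exact ((mul_pos ((mul_pos_iff_of_pos_right (exp_pos _)).1 h9) (exp_pos _)).trans_le
        (h.fam.lo 0 σ y ((h.fam.supp _ _ y h8).le.trans (exp_le_exp.2 (by linarith))))).ne')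
  rw [int_smul h.fam, ← exp_add] at h7
  have h8 := h7.trans (exp_le_one_iff.2 (by linarith))
  simp only [MAS.I] at h4 ⊢
  linarith

/-- **E3'** -/
theorem e3r {N : ℕ} {τ : ℂ} {M : ℝ} (hN : 1 ≤ N) (hNZ : N ≤ Z) (M1 : Z ^ 4 ≤ M)
    (M2 : Z ^ 2 * M ≤ σ) (hτ : ‖τ‖ ^ 2 = exp (-M)) :
    S.I (exp Λ • pr τ (N * σ)) (exp Λ • pr 0 σ) ≤ S.G (exp Λ • pr 0 (N * σ)) -
      2 * (S.G (exp Λ • pr 0 σ) / σ * M / N) +
        10000 * K ^ 2 / Z * ((S.G (exp Λ • pr 0 σ) / σ + 1) * M / N) := by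
  have hZ := h.hZ
  have := h.KB.1
  have := h.KB.2
  have := h.B3
  have := h.ha
  have := h.hm
  have := h.fam.a_nonneg
  have N1 : (1 : ℝ) ≤ N := by exact_mod_cast hN
  obtain ⟨x, rfl⟩ : ∃ x, M = N * x := ⟨M / N, (mul_div_cancel₀ _ (by linarith)).symm⟩
  obtain ⟨x0, x1, x2, p1, p2, p3, p4, sN, s0, s1⟩ := e3p hZ N1 hNZ M1 M2
  have η2 : exp (-(σ / 8)) ^ 2 * exp (-(N * x)) = exp (-(σ / 4 + N * x)) := by
    rw [sq, ← exp_add, ← exp_add]; congr 1; ring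
  have h1 := e30 h.gen h.m0 h.fam hN hτ (by linarith) (exp_pos (-(σ / 8))).le
    (s₀ := σ + (N * x - x + 1)) (s₁ := N * σ) (s' := N * (σ + (N * x - 3))) (d := 4 * N)
    (D := K * B + 2 * a + 2 * B) (T := K * B) (A := 3 * B) (by
      rw [exp_neg, mul_inv_le_iff₀ (exp_pos _)]
      linarith [add_one_le_exp (σ / 8)]) ((exp_le_exp.2 (by linarith)).trans_eq η2.symm)
    ((exp_le_exp.2 (by linarith)).trans_eq η2.symm) (by linarith) (by linarith) (by linarith)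
    (by linarith) (by linarith) (by linarith) h.Λ0.le
    (by
      have := h.bar 1 (fun _ => 0) _ (by simp; linarith) (fun _ => z9) s1
        (by rw [Nat.cast_one]; linarith [s1.1])
      rwa [Finset.sum_range_one] at this)
    fun lam hl => h.dom 0 _ _ lam z9 s0 (h.gen.pg.dens_smul _ _ (exp_pos _).le
      (h.gen.pg.dens_add _ _ (h.fam.dens _ _) (h.fam.dens _ _))) hl (smul_le_smul_of_nonneg_left
        (le_add_of_nonneg_right (h.fam.dens _ _).nonneg) (exp_pos _).le)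
  have b1 := mul_le_mul hNZ (show K * B + 2 * a + 2 * B + 1 ≤ 6 * (K * B) by linarith)
    (by linarith) (by linarith)
  have b2 := mul_le_mul_of_nonneg_right N1 (show 0 ≤ K * B + 2 * a + 2 * B + 1 by linarith)
  have b3 := mul_le_mul_of_nonneg_right hZ (show 0 ≤ K * B by linarith)
  have b4 := mul_le_mul_of_nonneg_left (show 1 ≤ K * B by linarith) (show 0 ≤ Z by linarith)
  obtain ⟨δ, hδ⟩ : ∃ δ, 9 * m + 6 + 2 * a + 4 * N + N * (K * B + 2 * a + 2 * B + 1) + 2 * (3 * B) = δ :=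
    ⟨_, rfl⟩
  rw [hδ, smul_add] at h1
  have δ1 : K * B ≤ δ := by linarith
  have δ2 : δ ≤ 16 * Z * (K * B) := by linarith
  have h2 := h.shift (h.dn (Λ - δ) 0 (σ + (N * x - x + 1))) (hτ.trans_le (exp_le_exp.2 (by linarith)))
    sN (by linarith) δ2
  have h3 := h.shift h.gen.pg.dens_zero z9 s0 (by linarith) δ2
  have h4 := h.free (s := σ + (N * x - x + 1)) (by linarith) δ1 (h.dn Λ τ (N * σ))
  simp only [zero_add] at h3
  refine (e3n hZ N1 hNZ x0 M2 h.σ0 h.c0 h.W1 (exp_pos _).le h.e4 (h.g0 _ _)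
    (h4.trans (by simp only [MAS.I]; linarith only [h1, h2, h3, h.e6]))
    (abs_sub_le_iff.1 (h.hh' sN)).2 (abs_sub_le_iff.1 (h.hh' s0)).2 (abs_sub_le_iff.1 (h.hh' s1)).1
    (h.crude' s1)).trans_eq ?_
  have : (N : ℝ) ≠ 0 := by linarith
  field_simp

end Cx

end Vale.Agent.P284Y.Y.Y4
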